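import Mathlib

namespace Vale.Agent.P322

/-- The cube `{-1,1}^n`. -/
abbrev Cube (n : ℕ) : Type := Fin n → ℤˣ

/-- The joint law of `(f(X), Y)`: the probability that `f(X) = b` and `Y = y`, where `X` is
uniform on `{-1,1}^n` and `Y = X Z` with independent signs `Z i`, each equal to `-1` with
probability `ε`. -/
noncomputable def jointLaw {n : ℕ} (ε : ℝ) (f : Cube n → ℤˣ) (b : ℤˣ) (y : Cube n) : ℝ :=
  ∑ x : Cube n, ∑ z : Cube n,
    if f x = b ∧ x * z = y then (1 / 2 : ℝ) ^ n * ∏ i, (if z i = -1 then ε else 1 - ε) else 0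

/-- Mutual information (in bits) of a joint law `p` on a finite product. -/
noncomputable def mutualInfo {α β : Type} [Fintype α] [Fintype β] (p : α → β → ℝ) : ℝ :=
  ∑ a, ∑ b, p a b * Real.logb 2 (p a b / ((∑ b', p a b') * ∑ a', p a' b))

/-- The binary entropy function in bits. -/
noncomputable def h2 (p : ℝ) : ℝ := -p * Real.logb 2 p - (1 - p) * Real.logb 2 (1 - p)

/-- The Courtade-Kumar inequality for all Boolean functions. -/
def CourtadeKumar : Prop :=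
  ∀ n : ℕ, 1 ≤ n → ∀ f : Cube n → ℤˣ, ∀ ε : ℝ, 0 ≤ ε → ε ≤ 1 / 2 →
    mutualInfo (jointLaw ε f) ≤ 1 - h2 ε

/-- The Courtade-Kumar inequality for all balanced Boolean functions. -/
def CourtadeKumarBalanced : Prop :=
  ∀ n : ℕ, 1 ≤ n → ∀ f : Cube n → ℤˣ, ∑ x, (f x : ℤ) = 0 → ∀ ε : ℝ, 0 ≤ ε → ε ≤ 1 / 2 →
    mutualInfo (jointLaw ε f) ≤ 1 - h2 ε

end Vale.Agent.P322
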