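import Mathlib
import Vale.Agent.P322.Defs

namespace Vale.Agent.P322

open Finset Real

/-- real value of a sign -/
def rs (u : ℤˣ) : ℝ := ((u : ℤ) : ℝ)

@[simp] lemma rs_one : rs 1 = 1 := by simp [rs]
@[simp] lemma rs_neg (u : ℤˣ) : rs (-u) = -rs u := by simp [rs]
lemma rs_eq (u : ℤˣ) : rs u = 1 ∨ rs u = -1 := by
  rcases Int.units_eq_one_or u with h | h <;> simp [h]

lemma unit_mul_self (u : ℤˣ) : u * u = 1 := Int.units_mul_self u

lemma cube_mul_self {n : ℕ} (z : Cube n) : z * z = 1 := by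
  ext i; simp

lemma sum_units {M : Type*} [AddCommMonoid M] (F : ℤˣ → M) : ∑ u, F u = F 1 + F (-1) := by
  have : (Finset.univ : Finset ℤˣ) = {1, -1} := by decide
  rw [this, sum_insert (by decide), sum_singleton]

variable {n : ℕ}

/-- the noise kernel -/
noncomputable def ker (ρ : ℝ) (z : Cube n) : ℝ := ∏ i, (1 + ρ * rs (z i)) / 2

/-- the noise operator -/
noncomputable def Tn (ρ : ℝ) (g : Cube n → ℝ) (y : Cube n) : ℝ := ∑ z, ker ρ z * g (y * z)

/-- average over the cube -/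
noncomputable def avg (g : Cube n → ℝ) : ℝ := (1 / 2 : ℝ) ^ n * ∑ x, g x

/-- flip of coordinate `i` -/
def fl (i : Fin n) : Cube n := Pi.mulSingle i (-1)

lemma ker_sum (ρ : ℝ) : ∑ z : Cube n, ker ρ z = 1 := by
  unfold ker
  have h := Finset.prod_univ_sum (fun _ : Fin n => (Finset.univ : Finset ℤˣ))
    (fun _ u => (1 + ρ * rs u) / 2)
  rw [Fintype.piFinset_univ] at h
  rw [← h]
  apply prod_eq_one
  intro i _
  rw [sum_units]
  simp
  ring

lemma ker_pos {ρ : ℝ} (h0 : -1 < ρ) (h1 : ρ < 1) (z : Cube n) : 0 < ker ρ z := by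
  unfold ker
  refine prod_pos fun i _ => ?_
  rcases rs_eq (z i) with h | h <;> rw [h] <;> linarith

lemma ker_nonneg {ρ : ℝ} (h0 : -1 ≤ ρ) (h1 : ρ ≤ 1) (z : Cube n) : 0 ≤ ker ρ z := by
  unfold ker
  refine prod_nonneg fun i _ => ?_
  rcases rs_eq (z i) with h | h <;> rw [h] <;> linarith

lemma ker_one (z : Cube n) : ker 1 z = if z = 1 then 1 else 0 := by
  unfold ker
  split_ifs with h
  · subst h; simp
  · obtain ⟨i, hi⟩ : ∃ i, z i ≠ 1 := by
      by_contra hc
      push Not at hc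
      exact h (funext hc)
    refine prod_eq_zero (mem_univ i) ?_
    have : z i = -1 := (Int.units_eq_one_or (z i)).resolve_left hi
    rw [this]; simp

lemma ker_zero (z : Cube n) : ker 0 z = (1 / 2 : ℝ) ^ n := by
  unfold ker
  simp

lemma sum_mul_left (y : Cube n) (g : Cube n → ℝ) : ∑ z, g (y * z) = ∑ z, g z :=
  Equiv.sum_comp (Equiv.mulLeft y) g

lemma sum_mul_right (y : Cube n) (g : Cube n → ℝ) : ∑ z, g (z * y) = ∑ z, g z :=
  Equiv.sum_comp (Equiv.mulRight y) g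

lemma Tn_one (g : Cube n → ℝ) (y : Cube n) : Tn 1 g y = g y := by
  unfold Tn
  simp [ker_one]

lemma Tn_zero (g : Cube n → ℝ) (y : Cube n) : Tn 0 g y = avg g := by
  unfold Tn avg
  simp only [ker_zero]
  rw [← mul_sum, sum_mul_left]

lemma avg_Tn (ρ : ℝ) (g : Cube n → ℝ) : avg (Tn ρ g) = avg g := by
  unfold avg Tn
  congr 1
  rw [sum_comm]
  have : ∀ z : Cube n, ∑ y : Cube n, ker ρ z * g (y * z) = ker ρ z * ∑ y, g y := by
    intro z
    rw [← mul_sum, sum_mul_right]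
  simp only [this]
  rw [← sum_mul, ker_sum, one_mul]

lemma avg_const (c : ℝ) : avg (fun _ : Cube n => c) = c := by
  unfold avg
  rw [sum_const, card_univ, Fintype.card_fun, Fintype.card_fin]
  have : Fintype.card ℤˣ = 2 := by decide
  rw [this, nsmul_eq_mul]
  push_cast
  rw [← mul_assoc, ← mul_pow]
  norm_num

lemma avg_add (g h : Cube n → ℝ) : avg (fun x => g x + h x) = avg g + avg h := by
  unfold avg; rw [sum_add_distrib, mul_add]

lemma avg_smul (c : ℝ) (g : Cube n → ℝ) : avg (fun x => c * g x) = c * avg g := by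
  unfold avg; rw [← mul_sum]; ring

lemma avg_mono {g h : Cube n → ℝ} (H : ∀ x, g x ≤ h x) : avg g ≤ avg h := by
  unfold avg
  gcongr
  exact H _

lemma avg_sum {ι : Type*} (s : Finset ι) (g : ι → Cube n → ℝ) :
    avg (fun x => ∑ i ∈ s, g i x) = ∑ i ∈ s, avg (g i) := by
  unfold avg
  rw [sum_comm, mul_sum]

lemma fl_mul_fl (i : Fin n) : fl i * fl i = 1 := cube_mul_self _

lemma avg_fl (i : Fin n) (g : Cube n → ℝ) : avg (fun x => g (x * fl i)) = avg g := by
  unfold avg; rw [sum_mul_right]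

/-- derivative of the kernel -/
lemma hasDerivAt_ker (ρ : ℝ) (z : Cube n) :
    HasDerivAt (fun ρ => ker ρ z)
      (∑ i, (∏ j ∈ univ.erase i, (1 + ρ * rs (z j)) / 2) * (rs (z i) / 2)) ρ := by
  unfold ker
  have h : ∀ i ∈ (univ : Finset (Fin n)), HasDerivAt (fun ρ => (1 + ρ * rs (z i)) / 2)
      (rs (z i) / 2) ρ := by
    intro i _
    have := (((hasDerivAt_id ρ).mul_const (rs (z i))).const_add 1).div_const 2
    simpa using this
  have := HasDerivAt.fun_finsetProd h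
  simpa using this

lemma ker_fl (ρ : ℝ) (z : Cube n) (i : Fin n) :
    ker ρ z - ker ρ (z * fl i) = ρ * rs (z i) * ∏ j ∈ univ.erase i, (1 + ρ * rs (z j)) / 2 := by
  unfold ker
  rw [← mul_prod_erase univ _ (mem_univ i), ← mul_prod_erase univ (fun j =>
    (1 + ρ * rs ((z * fl i) j)) / 2) (mem_univ i)]
  have h1 : ∏ j ∈ univ.erase i, (1 + ρ * rs ((z * fl i) j)) / 2 =
      ∏ j ∈ univ.erase i, (1 + ρ * rs (z j)) / 2 := by
    refine prod_congr rfl fun j hj => ?_
    have : (z * fl i) j = z j := by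
      simp [fl, Pi.mulSingle_eq_of_ne (ne_of_mem_erase hj)]
    rw [this]
  have h2 : (z * fl i) i = -z i := by simp [fl]
  rw [h1, h2, rs_neg]
  ring

lemma hasDerivAt_Tn (ρ : ℝ) (hρ : ρ ≠ 0) (g : Cube n → ℝ) (y : Cube n) :
    HasDerivAt (fun ρ => Tn ρ g y)
      (ρ⁻¹ * ∑ i, (Tn ρ g y - Tn ρ g (y * fl i)) / 2) ρ := by
  unfold Tn
  have h : ∀ z ∈ (univ : Finset (Cube n)), HasDerivAt (fun ρ => ker ρ z * g (y * z))
      ((∑ i, (∏ j ∈ univ.erase i, (1 + ρ * rs (z j)) / 2) * (rs (z i) / 2)) * g (y * z)) ρ :=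
    fun z _ => (hasDerivAt_ker ρ z).mul_const _
  have h1 := HasDerivAt.fun_sum h
  refine h1.congr_deriv ?_
  rw [mul_sum]
  simp only [sum_mul]
  rw [sum_comm]
  refine sum_congr rfl fun i _ => ?_
  have h2 : ∑ z, ker ρ z * g (y * fl i * z) = ∑ z, ker ρ (z * fl i) * g (y * z) := by
    rw [← sum_mul_right (fl i) (fun z => ker ρ z * g (y * fl i * z))]
    refine sum_congr rfl fun z _ => ?_
    congr 2
    rw [mul_comm z (fl i), mul_assoc, ← mul_assoc (fl i), fl_mul_fl, one_mul]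
  rw [h2, ← sum_sub_distrib]
  have h3 : ∀ z : Cube n, ker ρ z * g (y * z) - ker ρ (z * fl i) * g (y * z) =
      (ρ * rs (z i) * ∏ j ∈ univ.erase i, (1 + ρ * rs (z j)) / 2) * g (y * z) := by
    intro z
    rw [← sub_mul, ker_fl]
  simp only [h3]
  rw [sum_div, mul_sum]
  refine sum_congr rfl fun z _ => ?_
  field_simp

end Vale.Agent.P322
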