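import Mathlib
import Vale.Agent.P322.Noise

namespace Vale.Agent.P322

open Finset Real

variable {n : ℕ}

/-- binary entropy (nats) of a bit with mean `t` -/
noncomputable def hh (t : ℝ) : ℝ := binEntropy ((1 + t) / 2)

lemma hh_neg (t : ℝ) : hh (-t) = hh t := by
  unfold hh
  rw [← binEntropy_one_sub]
  congr 1
  ring

lemma continuous_hh : Continuous hh := by unfold hh; fun_prop

lemma hasDerivAt_hh {t : ℝ} (h0 : -1 < t) (h1 : t < 1) : HasDerivAt hh (-artanh t) t := by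
  have ha : (1 + t) / 2 ≠ 0 := by
    have : 0 < (1 + t) / 2 := by linarith
    exact this.ne'
  have hb : (1 + t) / 2 ≠ 1 := by
    have : (1 + t) / 2 < 1 := by linarith
    exact this.ne
  have h2 : HasDerivAt binEntropy (log (1 - (1 + t) / 2) - log ((1 + t) / 2)) ((1 + t) / 2) := by
    have := (differentiableAt_binEntropy ha hb).hasDerivAt
    rwa [deriv_binEntropy] at this
  have h3 : HasDerivAt (fun t : ℝ => (1 + t) / 2) (1 / 2) t := by
    simpa using ((hasDerivAt_id t).const_add 1).div_const 2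
  have h4 := h2.comp t h3
  refine h4.congr_deriv ?_
  have p1 : (1 + t) ≠ 0 := (by linarith : (0:ℝ) < 1 + t).ne'
  have p2 : (1 - t) ≠ 0 := (by linarith : (0:ℝ) < 1 - t).ne'
  rw [artanh_eq_half_log ⟨h0.le, h1.le⟩, log_div p1 p2]
  have e1 : 1 - (1 + t) / 2 = (1 - t) / 2 := by ring
  rw [e1, log_div p2 (by norm_num), log_div p1 (by norm_num)]
  ring

lemma hh_one : hh 1 = 0 := by unfold hh; norm_num
lemma hh_neg_one : hh (-1) = 0 := by unfold hh; norm_num
lemma hh_zero : hh 0 = log 2 := by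
  unfold hh
  have : ((1 : ℝ) + 0) / 2 = 2⁻¹ := by norm_num
  rw [this, binEntropy_two_inv]

lemma hh_le (t : ℝ) : hh t ≤ log 2 := binEntropy_le_log_two

lemma hh_nonneg {t : ℝ} (h0 : -1 ≤ t) (h1 : t ≤ 1) : 0 ≤ hh t :=
  binEntropy_nonneg (by linarith) (by linarith)

/-- real valued version of a Boolean function -/
def rf (f : Cube n → ℤˣ) (x : Cube n) : ℝ := rs (f x)

lemma prod_ite_eq_ker (ε : ℝ) (z : Cube n) :
    ∏ i, (if z i = -1 then ε else 1 - ε) = ker (1 - 2 * ε) z := by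
  unfold ker
  refine prod_congr rfl fun i _ => ?_
  rcases Int.units_eq_one_or (z i) with h | h
  · rw [h, if_neg (by decide), rs_one]; ring
  · rw [h, if_pos rfl, rs_neg, rs_one]; ring

lemma indicator_eq (b u : ℤˣ) : (if u = b then (1 : ℝ) else 0) = (1 + rs b * rs u) / 2 := by
  rcases Int.units_eq_one_or u with h | h <;> rcases Int.units_eq_one_or b with h' | h' <;>
    subst h h' <;> simp [rs]

lemma jointLaw_eq (ε : ℝ) (f : Cube n → ℤˣ) (b : ℤˣ) (y : Cube n) :
    jointLaw ε f b y = (1 / 2 : ℝ) ^ n * ((1 + rs b * Tn (1 - 2 * ε) (rf f) y) / 2) := by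
  unfold jointLaw
  rw [sum_comm]
  have h1 : ∀ z : Cube n, ∑ x : Cube n, (if f x = b ∧ x * z = y then
      (1 / 2 : ℝ) ^ n * ∏ i, (if z i = -1 then ε else 1 - ε) else 0) =
      (1 / 2 : ℝ) ^ n * (ker (1 - 2 * ε) z * ((1 + rs b * rf f (y * z)) / 2)) := by
    intro z
    rw [prod_ite_eq_ker]
    have h2 : ∀ x : Cube n, (if f x = b ∧ x * z = y then
        (1 / 2 : ℝ) ^ n * ker (1 - 2 * ε) z else 0) =
        if x = y * z then (1 / 2 : ℝ) ^ n * ker (1 - 2 * ε) z *
          (if f x = b then 1 else 0) else 0 := by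
      intro x
      have hiff : x * z = y ↔ x = y * z := by
        constructor
        · rintro rfl; rw [mul_assoc, cube_mul_self, mul_one]
        · rintro rfl; rw [mul_assoc, cube_mul_self, mul_one]
      by_cases hx : x = y * z
      · by_cases hf : f x = b
        · rw [if_pos ⟨hf, hiff.2 hx⟩, if_pos hx, if_pos hf, mul_one]
        · rw [if_neg (fun h => hf h.1), if_pos hx, if_neg hf, mul_zero]
      · rw [if_neg (fun h => hx (hiff.1 h.2)), if_neg hx]
    simp only [h2]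
    rw [sum_ite_eq' univ (y * z), if_pos (mem_univ _), indicator_eq, rf]
    ring
  simp only [h1]
  rw [← mul_sum]
  congr 1
  unfold Tn
  have h3 : ∑ z : Cube n, ker (1 - 2 * ε) z * ((1 + rs b * rf f (y * z)) / 2) =
      (∑ z : Cube n, ker (1 - 2 * ε) z + rs b * ∑ z, ker (1 - 2 * ε) z * rf f (y * z)) / 2 := by
    rw [mul_sum, ← sum_add_distrib, sum_div]
    refine sum_congr rfl fun z _ => ?_
    ring
  rw [h3, ker_sum]

lemma abs_rf (f : Cube n → ℤˣ) (x : Cube n) : -1 ≤ rf f x ∧ rf f x ≤ 1 := by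
  unfold rf
  rcases rs_eq (f x) with h | h <;> rw [h] <;> norm_num

lemma Tn_mem {ρ : ℝ} (h0 : -1 ≤ ρ) (h1 : ρ ≤ 1) (g : Cube n → ℝ)
    (hg : ∀ x, -1 ≤ g x ∧ g x ≤ 1) (y : Cube n) : -1 ≤ Tn ρ g y ∧ Tn ρ g y ≤ 1 := by
  unfold Tn
  constructor
  · have : ∑ z : Cube n, ker ρ z * (-1) ≤ ∑ z, ker ρ z * g (y * z) :=
      sum_le_sum fun z _ => mul_le_mul_of_nonneg_left (hg _).1 (ker_nonneg h0 h1 z)
    rw [← sum_mul, ker_sum] at this
    linarith
  · have : ∑ z : Cube n, ker ρ z * g (y * z) ≤ ∑ z, ker ρ z * 1 :=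
      sum_le_sum fun z _ => mul_le_mul_of_nonneg_left (hg _).2 (ker_nonneg h0 h1 z)
    rw [← sum_mul, ker_sum] at this
    linarith

lemma avg_mem {g : Cube n → ℝ} (hg : ∀ x, -1 ≤ g x ∧ g x ≤ 1) : -1 ≤ avg g ∧ avg g ≤ 1 := by
  constructor
  · have := avg_mono (g := fun _ => -1) (h := g) fun x => (hg x).1
    rwa [avg_const] at this
  · have := avg_mono (g := g) (h := fun _ => 1) fun x => (hg x).2
    rwa [avg_const] at this

/-- If the average is `-b` (for `b = ±1`) then the function is constant. -/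
lemma eq_of_avg_extreme {g : Cube n → ℝ} {b : ℝ} (hg : ∀ x, 0 ≤ 1 + b * g x)
    (hb : 1 + b * avg g = 0) (x : Cube n) : 1 + b * g x = 0 := by
  have h1 : avg (fun x => 1 + b * g x) = 0 := by
    rw [avg_add, avg_const, avg_smul]; exact hb
  unfold avg at h1
  have h2 : ∑ x, (1 + b * g x) = 0 := by
    rcases mul_eq_zero.1 h1 with h | h
    · exact absurd h (by positivity)
    · exact h
  exact (sum_eq_zero_iff_of_nonneg fun x _ => hg x).1 h2 x (mem_univ x)

lemma xlog (a b : ℝ) (ha : b = 0 → a = 0) :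
    a * logb 2 (a / b) = (a * log a - a * log b) / log 2 := by
  by_cases h : a = 0
  · simp [h]
  · have hb : b ≠ 0 := fun hb => h (ha hb)
    rw [logb, log_div h hb]
    ring

lemma hh_eq (t : ℝ) : hh t = -((1 + t) / 2 * log ((1 + t) / 2)) -
    (1 - t) / 2 * log ((1 - t) / 2) := by
  unfold hh
  rw [binEntropy]
  have : 1 - (1 + t) / 2 = (1 - t) / 2 := by ring
  rw [this, log_inv, log_inv]
  ring

theorem mutualInfo_eq {ε : ℝ} (h0 : 0 ≤ ε) (h1 : ε ≤ 1 / 2) (f : Cube n → ℤˣ) :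
    mutualInfo (jointLaw ε f) =
      (hh (avg (rf f)) - avg fun y => hh (Tn (1 - 2 * ε) (rf f) y)) / log 2 := by
  set ρ := 1 - 2 * ε with hρ
  have hρ0 : -1 ≤ ρ := by linarith
  have hρ1 : ρ ≤ 1 := by linarith
  set T := Tn ρ (rf f) with hT
  have hTm : ∀ y, -1 ≤ T y ∧ T y ≤ 1 := Tn_mem hρ0 hρ1 _ (abs_rf f)
  have hav : avg T = avg (rf f) := avg_Tn ρ (rf f)
  set m := avg (rf f) with hm
  have hp : (0 : ℝ) < (1 / 2) ^ n := by positivity
  have hcard : ∑ _y : Cube n, (1 / 2 : ℝ) ^ n = 1 := by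
    have := avg_const (n := n) 1
    unfold avg at this
    rw [mul_sum] at this
    simpa only [mul_one] using this
  -- marginals
  have hrow : ∀ b : ℤˣ, ∑ y, jointLaw ε f b y = (1 + rs b * m) / 2 := by
    intro b
    simp only [jointLaw_eq]
    rw [← mul_sum]
    change avg (fun y => (1 + rs b * T y) / 2) = _
    have : (fun y => (1 + rs b * T y) / 2) = fun y => 1 / 2 + (rs b / 2) * T y := by
      funext y; ring
    rw [this, avg_add, avg_const, avg_smul, hav]
    ring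
  have hcol : ∀ y : Cube n, ∑ b, jointLaw ε f b y = (1 / 2 : ℝ) ^ n := by
    intro y
    rw [sum_units]
    simp only [jointLaw_eq, rs_neg, rs_one]
    ring
  have hterm : ∀ (b : ℤˣ) (y : Cube n), jointLaw ε f b y *
      logb 2 (jointLaw ε f b y / ((∑ b', jointLaw ε f b b') * ∑ a', jointLaw ε f a' y)) =
      (1 / 2 : ℝ) ^ n * (((1 + rs b * T y) / 2 * log ((1 + rs b * T y) / 2)
        - (1 + rs b * T y) / 2 * log ((1 + rs b * m) / 2)) / log 2) := by
    intro b y
    rw [hrow, hcol, jointLaw_eq]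
    have e : (1 / 2 : ℝ) ^ n * ((1 + rs b * Tn (1 - 2 * ε) (rf f) y) / 2) /
        ((1 + rs b * m) / 2 * (1 / 2) ^ n) =
        ((1 + rs b * T y) / 2) / ((1 + rs b * m) / 2) := by
      rw [mul_comm ((1 + rs b * m) / 2), mul_div_mul_left _ _ hp.ne']
    rw [e, mul_assoc]
    congr 1
    refine xlog _ _ fun hz => ?_
    have hz' : 1 + rs b * avg T = 0 := by rw [hav]; linarith
    have := eq_of_avg_extreme (g := T) (b := rs b) (fun x => by
      rcases rs_eq b with h | h <;> rw [h] <;> linarith [(hTm x).1, (hTm x).2]) hz' y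
    linarith
  unfold mutualInfo
  simp only [hterm]
  rw [sum_units, ← sum_add_distrib]
  have hpt : ∀ y : Cube n, (1 / 2 : ℝ) ^ n * (((1 + rs 1 * T y) / 2 * log ((1 + rs 1 * T y) / 2)
        - (1 + rs 1 * T y) / 2 * log ((1 + rs 1 * m) / 2)) / log 2) +
      (1 / 2 : ℝ) ^ n * (((1 + rs (-1) * T y) / 2 * log ((1 + rs (-1) * T y) / 2)
        - (1 + rs (-1) * T y) / 2 * log ((1 + rs (-1) * m) / 2)) / log 2) =
      (1 / 2 : ℝ) ^ n * ((- hh (T y) + (-(log ((1 + m) / 2) + log ((1 - m) / 2)) / 2 +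
        (-(log ((1 + m) / 2) - log ((1 - m) / 2)) / 2) * T y)) * (log 2)⁻¹) := by
    intro y
    rw [hh_eq]
    simp only [rs_neg, rs_one, one_mul, neg_one_mul, ← sub_eq_add_neg]
    ring
  simp only [hpt]
  rw [← mul_sum]
  change avg (fun y => (- hh (T y) + (-(log ((1 + m) / 2) + log ((1 - m) / 2)) / 2 +
        (-(log ((1 + m) / 2) - log ((1 - m) / 2)) / 2) * T y)) * (log 2)⁻¹) = _
  have e2 : (fun y => (- hh (T y) + (-(log ((1 + m) / 2) + log ((1 - m) / 2)) / 2 +
        (-(log ((1 + m) / 2) - log ((1 - m) / 2)) / 2) * T y)) * (log 2)⁻¹) =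
      fun y => (log 2)⁻¹ * (((-1) * hh (T y)) + (-(log ((1 + m) / 2) + log ((1 - m) / 2)) / 2 +
        (-(log ((1 + m) / 2) - log ((1 - m) / 2)) / 2) * T y)) := by
    funext y; ring
  rw [e2, avg_smul, avg_add, avg_smul, avg_add, avg_const, avg_smul, hav, hh_eq m]
  ring

end Vale.Agent.P322
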