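import Mathlib
import Vale.Agent.P322.Info

namespace Vale.Agent.P322

open Finset Real Set

variable {n : ℕ}

noncomputable def KK (a b : ℝ) : ℝ := (a - b) * (artanh a - artanh b)

/-- the Dirichlet form -/
noncomputable def EE (g : Cube n → ℝ) : ℝ :=
  (1 / 4) * ∑ i, avg (fun x => KK (g x) (g (x * fl i)))

noncomputable def phi (t : ℝ) : ℝ := log 2 - hh t

/-- nonlinear log-Sobolev inequality for one function -/
def NLSIat (g : Cube n → ℝ) : Prop :=
  ∀ t : ℝ, 0 ≤ t → t < 1 → phi t ≤ hh (avg g) - avg (fun x => hh (g x)) → t * artanh t ≤ EE g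

/-- nonlinear log-Sobolev inequality -/
def NLSI : Prop :=
  ∀ (n : ℕ) (g : Cube n → ℝ), (∀ x, -1 < g x ∧ g x < 1) → NLSIat g

/-- nonlinear log-Sobolev inequality, mean zero -/
def NLSI0 : Prop :=
  ∀ (n : ℕ) (g : Cube n → ℝ), (∀ x, -1 < g x ∧ g x < 1) → avg g = 0 → NLSIat g

lemma compare {D D' : ℝ → ℝ} (hc : Continuous D)
    (hd : ∀ r, 0 < r → r < 1 → HasDerivAt D (D' r) r)
    (hpos : ∀ r, 0 < r → r < 1 → 0 < D r → 0 ≤ D' r) (h1 : D 1 ≤ 0) {r : ℝ}
    (hr0 : 0 < r) (hr1 : r < 1) : D r ≤ 0 := by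
  by_contra hcon
  push Not at hcon
  set S : Set ℝ := Icc r 1 ∩ {x | D x ≤ 0} with hS
  have hSc : IsCompact S := isCompact_Icc.inter_right (isClosed_le hc continuous_const)
  have hSn : S.Nonempty := ⟨1, ⟨hr1.le, le_rfl⟩, h1⟩
  have hm := hSc.sInf_mem hSn
  set x := sInf S with hx
  have hrx : r ≤ x := hm.1.1
  have hx1 : x ≤ 1 := hm.1.2
  have hDx : D x ≤ 0 := hm.2
  have hlt : ∀ y, r ≤ y → y < x → 0 < D y := by
    intro y hy1 hy2
    by_contra hn
    push Not at hn
    have : y ∈ S := ⟨⟨hy1, (hy2.trans_le hx1).le⟩, hn⟩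
    have := csInf_le hSc.bddBelow this
    linarith
  have hmono : MonotoneOn D (Icc r x) := by
    refine monotoneOn_of_deriv_nonneg (convex_Icc r x) hc.continuousOn ?_ ?_
    · rw [interior_Icc]
      intro y hy
      exact (hd y (hr0.trans hy.1) (hy.2.trans_le hx1)).differentiableAt.differentiableWithinAt
    · rw [interior_Icc]
      intro y hy
      rw [(hd y (hr0.trans hy.1) (hy.2.trans_le hx1)).deriv]
      exact hpos y (hr0.trans hy.1) (hy.2.trans_le hx1) (hlt y hy.1.le hy.2)
  have := hmono ⟨le_rfl, hrx⟩ ⟨hrx, le_rfl⟩ hrx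
  linarith

lemma continuous_Tn (g : Cube n → ℝ) (y : Cube n) : Continuous fun ρ => Tn ρ g y := by
  unfold Tn ker
  fun_prop

lemma sym_avg (T : Cube n → ℝ) (A : Cube n → ℝ) (i : Fin n) :
    avg (fun y => A y * (T y - T (y * fl i))) =
      (1 / 2) * avg (fun y => (T y - T (y * fl i)) * (A y - A (y * fl i))) := by
  have h1 := avg_fl i (fun y => A y * (T y - T (y * fl i)))
  have h2 : (fun y : Cube n => A (y * fl i) * (T (y * fl i) - T (y * fl i * fl i))) =
      fun y => A (y * fl i) * (T (y * fl i) - T y) := by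
    funext y
    rw [mul_assoc y, fl_mul_fl, mul_one]
  rw [h2] at h1
  have h3 : (fun y => (T y - T (y * fl i)) * (A y - A (y * fl i))) =
      fun y => A y * (T y - T (y * fl i)) + A (y * fl i) * (T (y * fl i) - T y) := by
    funext y; ring
  rw [h3, avg_add, h1]
  ring

lemma hasDerivAt_G {ρ : ℝ} (hρ : ρ ≠ 0) (g : Cube n → ℝ)
    (hT : ∀ y, -1 < Tn ρ g y ∧ Tn ρ g y < 1) :
    HasDerivAt (fun ρ => avg fun y => hh (Tn ρ g y)) (-(ρ⁻¹ * EE (Tn ρ g))) ρ := by
  unfold avg
  have h : ∀ y ∈ (univ : Finset (Cube n)), HasDerivAt (fun ρ => hh (Tn ρ g y))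
      (-artanh (Tn ρ g y) * (ρ⁻¹ * ∑ i, (Tn ρ g y - Tn ρ g (y * fl i)) / 2)) ρ := fun y _ =>
    HasDerivAt.comp (h₂ := hh) ρ (hasDerivAt_hh (hT y).1 (hT y).2) (hasDerivAt_Tn ρ hρ g y)
  refine ((HasDerivAt.fun_sum h).const_mul ((1 / 2 : ℝ) ^ n)).congr_deriv ?_
  change avg (fun y => -artanh (Tn ρ g y) * (ρ⁻¹ * ∑ i, (Tn ρ g y - Tn ρ g (y * fl i)) / 2)) = _
  set T := Tn ρ g with hTd
  have e1 : (fun y => -artanh (T y) * (ρ⁻¹ * ∑ i, (T y - T (y * fl i)) / 2)) =
      fun y => (-(ρ⁻¹ / 2)) * ∑ i, artanh (T y) * (T y - T (y * fl i)) := by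
    funext y
    rw [← mul_sum, ← sum_div]
    ring
  rw [e1, avg_smul, avg_sum]
  have e2 : ∀ i : Fin n, avg (fun y => artanh (T y) * (T y - T (y * fl i))) =
      (1 / 2) * avg (fun x => KK (T x) (T (x * fl i))) := fun i =>
    sym_avg T (fun y => artanh (T y)) i
  simp only [e2]
  rw [← mul_sum]
  unfold EE
  ring

/-- The comparison argument. -/
theorem ck_of_nlsi (f : Cube n → ℤˣ) (a b : Cube n) (ha : f a = 1) (hb : f b = -1)
    (N : ∀ ρ, 0 < ρ → ρ < 1 → NLSIat (Tn ρ (rf f))) {ρ : ℝ} (h0 : 0 < ρ) (h1 : ρ ≤ 1) :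
    hh (avg (rf f)) - avg (fun y => hh (Tn ρ (rf f) y)) ≤ phi ρ := by
  -- strict bounds
  have hT : ∀ r, 0 < r → r < 1 → ∀ y, -1 < Tn r (rf f) y ∧ Tn r (rf f) y < 1 := by
    intro r hr0 hr1 y
    unfold Tn
    have hk := fun z => ker_pos (n := n) (by linarith : -1 < r) hr1 z
    constructor
    · have : ∑ z : Cube n, ker r z * (-1) < ∑ z, ker r z * rf f (y * z) := by
        refine sum_lt_sum (fun z _ => mul_le_mul_of_nonneg_left (abs_rf f _).1 (hk z).le)
          ⟨y * a, mem_univ _, ?_⟩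
        have : y * (y * a) = a := by rw [← mul_assoc, cube_mul_self, one_mul]
        rw [this, rf, ha, rs_one]
        linarith [hk (y * a)]
      rw [← sum_mul, ker_sum] at this
      linarith
    · have : ∑ z, ker r z * rf f (y * z) < ∑ z : Cube n, ker r z * 1 := by
        refine sum_lt_sum (fun z _ => mul_le_mul_of_nonneg_left (abs_rf f _).2 (hk z).le)
          ⟨y * b, mem_univ _, ?_⟩
        have : y * (y * b) = b := by rw [← mul_assoc, cube_mul_self, one_mul]
        rw [this, rf, hb, rs_neg, rs_one]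
        linarith [hk (y * b)]
      rw [← sum_mul, ker_sum] at this
      linarith
  set D : ℝ → ℝ := fun r => hh (avg (rf f)) - avg (fun y => hh (Tn r (rf f) y)) - phi r with hD
  have hcont : Continuous D := by
    have c1 : Continuous fun r => avg (fun y => hh (Tn r (rf f) y)) := by
      unfold avg
      have : ∀ y, Continuous fun r => hh (Tn r (rf f) y) := fun y =>
        continuous_hh.comp (continuous_Tn _ y)
      fun_prop
    have c2 : Continuous phi := by
      unfold phi
      have := continuous_hh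
      fun_prop
    fun_prop
  have hderiv : ∀ r, 0 < r → r < 1 →
      HasDerivAt D (r⁻¹ * EE (Tn r (rf f)) - artanh r) r := by
    intro r hr0 hr1
    have d1 := hasDerivAt_G hr0.ne' (rf f) (hT r hr0 hr1)
    have d2 := hasDerivAt_hh (by linarith : -1 < r) hr1
    have := ((hasDerivAt_const r (hh (avg (rf f)))).sub d1).sub
      ((hasDerivAt_const r (log 2)).sub d2)
    refine this.congr_deriv ?_
    ring
  have hD1 : D 1 ≤ 0 := by
    simp only [hD]
    have e1 : (fun y => hh (Tn 1 (rf f) y)) = fun _ => (0 : ℝ) := by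
      funext y
      rw [Tn_one, rf]
      rcases rs_eq (f y) with h | h <;> rw [h]
      · exact hh_one
      · exact hh_neg_one
    rw [e1, avg_const, phi, hh_one]
    have := hh_le (avg (rf f))
    linarith
  rcases h1.lt_or_eq with h1 | h1
  · have := compare hcont hderiv (fun r hr0 hr1 hDr => ?_) hD1 h0 h1
    · simp only [hD] at this
      linarith
    · have hN := N r hr0 hr1 r hr0.le hr1 (by
        rw [avg_Tn]
        simp only [hD] at hDr
        linarith)
      have : artanh r ≤ r⁻¹ * EE (Tn r (rf f)) := by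
        rw [inv_mul_eq_div, le_div_iff₀ hr0]
        linarith
      linarith
  · subst h1
    simp only [hD] at hD1
    linarith

lemma h2_eq (ε : ℝ) : 1 - h2 ε = phi (1 - 2 * ε) / log 2 := by
  unfold phi h2
  rw [hh_eq]
  have e1 : (1 + (1 - 2 * ε)) / 2 = 1 - ε := by ring
  have e2 : (1 - (1 - 2 * ε)) / 2 = ε := by ring
  rw [e1, e2, logb, logb]
  have : log 2 ≠ 0 := (log_pos one_lt_two).ne'
  field_simp
  ring

lemma phi_nonneg (t : ℝ) : 0 ≤ phi t := by
  unfold phi
  have := hh_le t
  linarith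

theorem ck_one (f : Cube n → ℤˣ)
    (N : ∀ ρ, 0 < ρ → ρ < 1 → (∀ y, -1 < Tn ρ (rf f) y ∧ Tn ρ (rf f) y < 1) →
      NLSIat (Tn ρ (rf f))) {ε : ℝ} (h0 : 0 ≤ ε) (h1 : ε ≤ 1 / 2) :
    mutualInfo (jointLaw ε f) ≤ 1 - h2 ε := by
  rw [mutualInfo_eq h0 h1, h2_eq]
  have hl : 0 < log 2 := log_pos one_lt_two
  refine div_le_div_of_nonneg_right ?_ hl.le
  by_cases hc : ∃ a, f a = 1
  · by_cases hc' : ∃ b, f b = -1
    · obtain ⟨a, ha⟩ := hc
      obtain ⟨b, hb⟩ := hc'
      have hT : ∀ r, 0 < r → r < 1 → ∀ y, -1 < Tn r (rf f) y ∧ Tn r (rf f) y < 1 := by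
        intro r hr0 hr1 y
        unfold Tn
        have hk := fun z => ker_pos (n := n) (by linarith : -1 < r) hr1 z
        constructor
        · have : ∑ z : Cube n, ker r z * (-1) < ∑ z, ker r z * rf f (y * z) := by
            refine sum_lt_sum (fun z _ => mul_le_mul_of_nonneg_left (abs_rf f _).1 (hk z).le)
              ⟨y * a, mem_univ _, ?_⟩
            have : y * (y * a) = a := by rw [← mul_assoc, cube_mul_self, one_mul]
            rw [this, rf, ha, rs_one]
            linarith [hk (y * a)]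
          rw [← sum_mul, ker_sum] at this
          linarith
        · have : ∑ z, ker r z * rf f (y * z) < ∑ z : Cube n, ker r z * 1 := by
            refine sum_lt_sum (fun z _ => mul_le_mul_of_nonneg_left (abs_rf f _).2 (hk z).le)
              ⟨y * b, mem_univ _, ?_⟩
            have : y * (y * b) = b := by rw [← mul_assoc, cube_mul_self, one_mul]
            rw [this, rf, hb, rs_neg, rs_one]
            linarith [hk (y * b)]
          rw [← sum_mul, ker_sum] at this
          linarith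
      rcases h1.lt_or_eq with h1 | h1
      · exact ck_of_nlsi f a b ha hb (fun ρ r0 r1 => N ρ r0 r1 (hT ρ r0 r1))
          (by linarith) (by linarith)
      · subst h1
        have e : (1 : ℝ) - 2 * (1 / 2) = 0 := by norm_num
        rw [e]
        have : (fun y => hh (Tn 0 (rf f) y)) = fun _ => hh (avg (rf f)) := by
          funext y; rw [Tn_zero]
        rw [this, avg_const, sub_self]
        exact phi_nonneg _
    · push Not at hc'
      have hf : rf f = fun _ => (1 : ℝ) := by
        funext x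
        have : f x = 1 := (Int.units_eq_one_or (f x)).resolve_right (hc' x)
        simp [rf, this]
      have hT : ∀ y, Tn (1 - 2 * ε) (rf f) y = 1 := by
        intro y
        rw [hf]
        unfold Tn
        simp [ker_sum]
      simp only [hT]
      rw [hf, avg_const, avg_const, sub_self]
      exact phi_nonneg _
  · push Not at hc
    have hf : rf f = fun _ => (-1 : ℝ) := by
      funext x
      have : f x = -1 := (Int.units_eq_one_or (f x)).resolve_left (hc x)
      simp [rf, this]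
    have hT : ∀ y, Tn (1 - 2 * ε) (rf f) y = -1 := by
      intro y
      rw [hf]
      unfold Tn
      rw [← sum_mul, ker_sum, one_mul]
    simp only [hT]
    rw [hf, avg_const, avg_const, sub_self]
    exact phi_nonneg _

theorem courtadeKumar_of_NLSI (H : NLSI) : CourtadeKumar := by
  intro n _ f ε h0 h1
  exact ck_one f (fun ρ _ _ hT => H n _ hT) h0 h1

theorem courtadeKumarBalanced_of_NLSI0 (H : NLSI0) : CourtadeKumarBalanced := by
  intro n _ f hf ε h0 h1
  refine ck_one f (fun ρ _ _ hT => H n _ hT ?_) h0 h1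
  rw [avg_Tn]
  unfold avg rf rs
  have : ∑ x, (((f x : ℤ)) : ℝ) = 0 := by
    rw [← Int.cast_sum, hf, Int.cast_zero]
  rw [this, mul_zero]

end Vale.Agent.P322
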