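import Mathlib
import Vale.Agent.P322.Reduction

namespace Vale.Agent.P322

open Finset Real

variable {n : ℕ}

lemma sum_cube_succ (F : Cube (n + 1) → ℝ) :
    ∑ x, F x = ∑ x : Cube n, F (Fin.cons 1 x) + ∑ x : Cube n, F (Fin.cons (-1) x) := by
  have h := Equiv.sum_comp (Fin.consEquiv (fun _ : Fin (n + 1) => ℤˣ)) F
  rw [← h, Fintype.sum_prod_type, sum_units]
  rfl

lemma avg_succ (F : Cube (n + 1) → ℝ) :
    avg F = (avg (fun x : Cube n => F (Fin.cons 1 x)) +
      avg (fun x : Cube n => F (Fin.cons (-1) x))) / 2 := by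
  unfold avg
  rw [sum_cube_succ, pow_succ]
  ring

lemma KK_symm (a b : ℝ) : KK a b = KK b a := by unfold KK; ring

lemma cons_mul_fl_zero (u : ℤˣ) (x : Cube n) :
    (Fin.cons u x : Cube (n + 1)) * fl 0 = Fin.cons (-u) x := by
  funext i
  refine Fin.cases ?_ (fun j => ?_) i
  · simp [fl]
  · simp [fl]

lemma cons_mul_fl_succ (u : ℤˣ) (x : Cube n) (j : Fin n) :
    (Fin.cons u x : Cube (n + 1)) * fl j.succ = Fin.cons u (x * fl j) := by
  funext i
  refine Fin.cases ?_ (fun i' => ?_) i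
  · simp [fl]
  · simp only [Pi.mul_apply, Fin.cons_succ, fl]
    congr 1
    by_cases h : i' = j
    · subst h; simp
    · rw [Pi.mulSingle_eq_of_ne h, Pi.mulSingle_eq_of_ne (by simpa using h)]

lemma EE_succ (g : Cube (n + 1) → ℝ) :
    EE g = (EE (fun x : Cube n => g (Fin.cons 1 x)) + EE (fun x : Cube n => g (Fin.cons (-1) x))) / 2
      + (1 / 4) * avg (fun x : Cube n => KK (g (Fin.cons 1 x)) (g (Fin.cons (-1) x))) := by
  unfold EE
  rw [Fin.sum_univ_succ]
  simp only [avg_succ (n := n), cons_mul_fl_zero, cons_mul_fl_succ, neg_neg]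
  have h : avg (fun x : Cube n => KK (g (Fin.cons (-1) x)) (g (Fin.cons 1 x))) =
      avg (fun x : Cube n => KK (g (Fin.cons 1 x)) (g (Fin.cons (-1) x))) := by
    congr 1; funext x; exact KK_symm _ _
  rw [h, ← sum_div, sum_add_distrib]
  ring

/-- Tensorisation by a two-parameter Bellman function. -/
theorem bellman (Th : ℝ → ℝ → ℝ) (h0 : ∀ m, -1 < m → m < 1 → Th m (hh m) ≤ 0)
    (ind : ∀ (n : ℕ) (A B : Cube n → ℝ), (∀ x, -1 < A x ∧ A x < 1) → (∀ x, -1 < B x ∧ B x < 1) →
      Th ((avg A + avg B) / 2) ((avg (fun x => hh (A x)) + avg (fun x => hh (B x))) / 2) ≤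
        (Th (avg A) (avg fun x => hh (A x)) + Th (avg B) (avg fun x => hh (B x))) / 2
          + (1 / 4) * avg (fun x => KK (A x) (B x))) :
    ∀ (n : ℕ) (g : Cube n → ℝ), (∀ x, -1 < g x ∧ g x < 1) →
      Th (avg g) (avg fun x => hh (g x)) ≤ EE g := by
  intro n
  induction n with
  | zero =>
    intro g hg
    have h1 : ∀ F : Cube 0 → ℝ, avg F = F 1 := by
      intro F
      unfold avg
      rw [Fintype.sum_unique]
      simp
      congr 1
      exact Subsingleton.elim _ _
    rw [h1, h1]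
    have h2 : EE g = 0 := by unfold EE; simp
    rw [h2]
    exact h0 _ (hg 1).1 (hg 1).2
  | succ n ih =>
    intro g hg
    have hA : ∀ x : Cube n, -1 < g (Fin.cons 1 x) ∧ g (Fin.cons 1 x) < 1 := fun x => hg _
    have hB : ∀ x : Cube n, -1 < g (Fin.cons (-1) x) ∧ g (Fin.cons (-1) x) < 1 := fun x => hg _
    have i1 := ih _ hA
    have i2 := ih _ hB
    have i3 := ind n _ _ hA hB
    rw [avg_succ g, avg_succ (fun x => hh (g x)), EE_succ]
    refine i3.trans ?_
    linarith

end Vale.Agent.P322
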