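import Mathlib
import Vale.Agent.P322.Induct

namespace Vale.Agent.P322

open Real

noncomputable def eta (u : ℝ) : ℝ := hh (tanh u)

noncomputable def be (u : ℝ) : ℝ := sinh (2 * u) / (2 * u) - 1

noncomputable def pe (u : ℝ) : ℝ := u * tanh u + eta u * (be u + 2) - 2 * log 2

noncomputable def Aff (u c r : ℝ) : ℝ := if 0 < u then c * pe u - be u * r else 0

noncomputable def PP (c r : ℝ) : ℝ := ⨆ u : ℝ, Aff u c r

open Classical in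
noncomputable def GG (x : ℝ) : ℝ := if h : ∃ u, 0 < u ∧ eta u = x then pe (Classical.choose h) else 0

noncomputable def p0 : ℝ := 1 / (2 * log 2)

noncomputable def cc (m : ℝ) : ℝ := 1 - p0 * m ^ 2 - (11 / 10 - p0) * m ^ 4 + m ^ 6 / 10

noncomputable def ccd (m : ℝ) : ℝ := -2 * p0 * m - 4 * (11 / 10 - p0) * m ^ 3 + 6 / 10 * m ^ 5

noncomputable def chi (m : ℝ) : ℝ := cc m + ccd m * (1 - m)

noncomputable def Th (m r : ℝ) : ℝ := 2 * (hh m - r) + PP (cc m) r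

noncomputable def dl (a b : ℝ) : ℝ := hh ((a + b) / 2) - (hh a + hh b) / 2

noncomputable def Om (m0 m1 r : ℝ) : ℝ :=
  2 * dl m0 m1 + PP (cc ((m0 + m1) / 2)) r - PP ((cc m0 + cc m1) / 2) r

/-! Interfaces: each `Prop` below is to be proved in its module. -/

structure PFacts : Prop where
  nonneg : ∀ c r : ℝ, 0 ≤ c → 0 < r → 0 ≤ PP c r
  mid : ∀ c0 c1 r0 r1 : ℝ, 0 ≤ c0 → 0 ≤ c1 → 0 < r0 → 0 < r1 →
    PP ((c0 + c1) / 2) ((r0 + r1) / 2) ≤ (PP c0 r0 + PP c1 r1) / 2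
  add : ∀ c0 c1 r0 r1 : ℝ, 0 ≤ c0 → 0 ≤ c1 → 0 < r0 → 0 < r1 →
    PP (c0 + c1) (r0 + r1) ≤ PP c0 r0 + PP c1 r1
  hom : ∀ t c r : ℝ, 0 < t → 0 ≤ c → 0 < r → PP (t * c) (t * r) = t * PP c r
  zero : ∀ c r : ℝ, 0 ≤ c → 0 < r → c * log 2 ≤ r → PP c r = 0
  val : ∀ u c : ℝ, 0 < u → 0 < c →
    PP c (c * eta u) = c * (u * tanh u - 2 * (log 2 - eta u))
  mono : ∀ c c' r : ℝ, 0 ≤ c → c ≤ c' → 0 < r → PP c r ≤ PP c' r
  anti : ∀ c r r' : ℝ, 0 ≤ c → 0 < r → r ≤ r' → PP c r' ≤ PP c r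
  deriv : ∀ c r : ℝ, 0 < c → 0 < r → HasDerivAt (fun c => PP c r) (GG (r / c)) c

structure GFacts : Prop where
  nonneg : ∀ x : ℝ, 0 < x → 0 ≤ GG x
  anti : ∀ x y : ℝ, 0 < x → x ≤ y → GG y ≤ GG x
  log_bound : ∀ x y : ℝ, 0 < x → x ≤ y → GG x - GG y ≤ 7 / 10 * log (y / x)

structure CFacts : Prop where
  pos : ∀ m : ℝ, -1 < m → m < 1 → 0 < cc m
  le_hh : ∀ m : ℝ, -1 ≤ m → m ≤ 1 → cc m * log 2 ≤ hh m
  mid_le : ∀ m d : ℝ, 0 ≤ m → 0 ≤ d → d < 1 - m → (cc (m + d) + cc (m - d)) / 2 ≤ cc m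
  chi_nonneg : ∀ m : ℝ, 0 ≤ m → m < 1 → 0 ≤ chi m
  chi_mid : ∀ m d : ℝ, 0 ≤ m → 0 ≤ d → d < 1 - m → chi m ≤ (chi (m + d) + chi (m - d)) / 2
  star2 : ∀ m d : ℝ, 0 ≤ m → 0 < d → d < 1 - m →
    7 / 10 * chi m * log (cc m / ((cc (m + d) + cc (m - d)) / 2)) ≤
      -log (1 - d ^ 2 / (1 + m) ^ 2)

def L2Fact : Prop := ∀ (n : ℕ) (A B : Cube n → ℝ), (∀ x, -1 < A x ∧ A x < 1) →
  (∀ x, -1 < B x ∧ B x < 1) → ∀ a l : ℝ, 0 < a → a < 1 → 0 < l →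
  avg A - avg B = 2 * (l * a) →
  (avg (fun x => hh (A x)) + avg (fun x => hh (B x))) / 2 = l * hh a →
  l * (a * artanh a) ≤ (1 / 4) * avg (fun x => KK (A x) (B x))

def L3Fact : Prop := ∀ (n : ℕ) (A B : Cube n → ℝ), (∀ x, -1 < A x ∧ A x < 1) →
  (∀ x, -1 < B x ∧ B x < 1) → ∀ a b l : ℝ, -1 < b → b < a → a < 1 → 0 ≤ a + b → 0 < l → l ≤ 1 →
  avg A = 1 - l * (1 - a) → avg B = 1 - l * (1 - b) →
  (avg (fun x => hh (A x)) + avg (fun x => hh (B x))) / 2 = l * ((hh a + hh b) / 2) →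
  l * (KK a b / 4) ≤ (1 / 4) * avg (fun x => KK (A x) (B x))

/-- one bit inequality -/
def N1Fact : Prop := ∀ a b c : ℝ, -1 < b → b < a → a < 1 → 0 ≤ c →
  c * log 2 ≤ hh ((a + b) / 2) →
  2 * dl a b + PP c ((hh a + hh b) / 2) ≤ KK a b / 4

/-- the nonlinear log-Sobolev inequality with potential `Th` -/
def ThIneq : Prop := ∀ (n : ℕ) (g : Cube n → ℝ), (∀ x, -1 < g x ∧ g x < 1) →
  Th (avg g) (avg fun x => hh (g x)) ≤ EE g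

/-- ODE comparison, to be proved -/
def FFact : Prop := ThIneq → CourtadeKumar

end Vale.Agent.P322
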