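import Mathlib
import Vale.Agent.P322.Iface

namespace Vale.Agent.P322

open Real Set

lemma hh_ident {x : ℝ} (h0 : -1 < x) (h1 : x < 1) :
    hh x - artanh x * (1 - x) = log 2 - log (1 + x) := by
  have p1 : (1 + x) ≠ 0 := (by linarith : (0:ℝ) < 1 + x).ne'
  have p2 : (1 - x) ≠ 0 := (by linarith : (0:ℝ) < 1 - x).ne'
  rw [hh_eq, artanh_eq_half_log ⟨h0.le, h1.le⟩, log_div p1 p2, log_div p1 two_ne_zero,
    log_div p2 two_ne_zero]
  ring

lemma hh_ident2 {x : ℝ} (h0 : -1 < x) (h1 : x < 1) :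
    hh x + artanh x * x = log 2 - log (1 - x ^ 2) / 2 := by
  have p1 : (1 + x) ≠ 0 := (by linarith : (0:ℝ) < 1 + x).ne'
  have p2 : (1 - x) ≠ 0 := (by linarith : (0:ℝ) < 1 - x).ne'
  have e : 1 - x ^ 2 = (1 + x) * (1 - x) := by ring
  rw [hh_eq, artanh_eq_half_log ⟨h0.le, h1.le⟩, log_div p1 p2, log_div p1 two_ne_zero,
    log_div p2 two_ne_zero, e, log_mul p1 p2]
  ring

/-- derivative of `hh (1 - s k) / s` -/
lemma hasDerivAt_hh_div {s k : ℝ} (hs : 0 < s) (h0 : -1 < 1 - s * k) (h1 : 1 - s * k < 1) :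
    HasDerivAt (fun s => hh (1 - s * k) / s) (-(log 2 - log (1 + (1 - s * k))) / s ^ 2) s := by
  have d1 : HasDerivAt (fun s : ℝ => 1 - s * k) (-k) s := by
    simpa using ((hasDerivAt_id s).mul_const k).const_sub 1
  have d2 : HasDerivAt (fun s : ℝ => hh (1 - s * k)) (-artanh (1 - s * k) * (-k)) s :=
    HasDerivAt.comp (h₂ := hh) s (hasDerivAt_hh h0 h1) d1
  have d3 := d2.div (hasDerivAt_id s) hs.ne'
  refine d3.congr_deriv ?_
  have := hh_ident h0 h1
  simp only [id]
  rw [← this]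
  congr 1
  ring

lemma hasDerivAt_cc (m : ℝ) : HasDerivAt cc (ccd m) m := by
  unfold cc ccd
  have h : HasDerivAt (fun m : ℝ => 1 - p0 * m ^ 2 - (11 / 10 - p0) * m ^ 4 + m ^ 6 / 10)
      (0 - p0 * (2 * m ^ 1) - (11 / 10 - p0) * (4 * m ^ 3) + (6 * m ^ 5) / 10) m := by
    have h2 := (hasDerivAt_pow 2 m).const_mul p0
    have h4 := (hasDerivAt_pow 4 m).const_mul (11 / 10 - p0)
    have h6 := (hasDerivAt_pow 6 m).div_const 10
    have := (((hasDerivAt_const m (1:ℝ)).sub h2).sub h4).add h6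
    refine this.congr_deriv ?_
    norm_num
  refine h.congr_deriv ?_
  ring

lemma cc_neg (m : ℝ) : cc (-m) = cc m := by unfold cc; ring
lemma ccd_neg (m : ℝ) : ccd (-m) = -ccd m := by unfold ccd; ring
lemma cc_zero : cc 0 = 1 := by unfold cc; ring
lemma chi_zero : chi 0 = 1 := by unfold chi cc ccd; ring

/-- derivative of `cc (1 - s k) / s` -/
lemma hasDerivAt_cc_div {s k : ℝ} (hs : 0 < s) :
    HasDerivAt (fun s => cc (1 - s * k) / s) (-(chi (1 - s * k)) / s ^ 2) s := by
  have d1 : HasDerivAt (fun s : ℝ => 1 - s * k) (-k) s := by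
    simpa using ((hasDerivAt_id s).mul_const k).const_sub 1
  have d2 : HasDerivAt (fun s : ℝ => cc (1 - s * k)) (ccd (1 - s * k) * (-k)) s :=
    HasDerivAt.comp (h₂ := cc) s (hasDerivAt_cc _) d1
  have d3 := d2.div (hasDerivAt_id s) hs.ne'
  refine d3.congr_deriv ?_
  simp only [id, chi]
  congr 1
  ring

theorem star (hG : GFacts) (hC : CFacts) {m d r : ℝ} (hm : 0 ≤ m) (hd : 0 < d) (hdm : d < 1 - m)
    (hr : 0 < r) :
    chi m * GG (r / cc m) -
      (chi (m + d) + chi (m - d)) / 2 * GG (r / ((cc (m + d) + cc (m - d)) / 2)) ≤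
      -log (1 - d ^ 2 / (1 + m) ^ 2) := by
  have c0 : 0 < cc m := hC.pos m (by linarith) (by linarith)
  have c1 : 0 < cc (m + d) := hC.pos _ (by linarith) (by linarith)
  have c2 : 0 < cc (m - d) := hC.pos _ (by linarith) (by linarith)
  have c3 := hC.mid_le m d hm hd.le hdm
  have c4 := hC.chi_nonneg m hm (by linarith)
  have c5 := hC.chi_mid m d hm hd.le hdm
  set Cb := (cc (m + d) + cc (m - d)) / 2 with hCb
  set Xb := (chi (m + d) + chi (m - d)) / 2 with hXb
  have hCbp : 0 < Cb := by rw [hCb]; linarith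
  have x1 : 0 < r / cc m := div_pos hr c0
  have x2 : 0 < r / Cb := div_pos hr hCbp
  have x3 : r / cc m ≤ r / Cb := div_le_div_of_nonneg_left hr.le hCbp c3
  have g0 := hG.nonneg _ x2
  have g1 := hG.log_bound _ _ x1 x3
  have e : (r / Cb) / (r / cc m) = cc m / Cb := by field_simp
  rw [e] at g1
  have s2 := hC.star2 m d hm hd hdm
  have k1 : chi m * (GG (r / cc m) - GG (r / Cb)) ≤ chi m * (7 / 10 * log (cc m / Cb)) :=
    mul_le_mul_of_nonneg_left g1 c4
  have k2 : chi m * GG (r / Cb) ≤ Xb * GG (r / Cb) := mul_le_mul_of_nonneg_right c5 g0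
  have k3 : chi m * (7 / 10 * log (cc m / Cb)) = 7 / 10 * chi m * log (cc m / Cb) := by ring
  have k4 : 7 / 10 * chi m * log (cc m / Cb) ≤ -log (1 - d ^ 2 / (1 + m) ^ 2) := s2
  linarith [k1, k2, k3, k4]

/-- Scaling toward the frozen point `(1,1)`. -/
theorem scale (hP : PFacts) (hG : GFacts) (hC : CFacts) {μ0 μ1 R t : ℝ} (h0 : μ0 < 1)
    (h1 : -1 < μ1) (h01 : μ1 < μ0) (hm : 0 ≤ μ0 + μ1) (hR : 0 < R) (ht0 : 0 < t) (ht1 : t ≤ 1) :
    Om (1 - t * (1 - μ0)) (1 - t * (1 - μ1)) (t * R) ≤ t * Om μ0 μ1 R := by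
  set k0 := 1 - μ0 with hk0
  set k1 := 1 - μ1 with hk1
  set k := (k0 + k1) / 2 with hk
  have k0p : 0 < k0 := by linarith
  have k1p : 0 < k1 := by linarith
  have k1l : k1 < 2 := by linarith
  have k0l : k0 < k1 := by linarith
  have kp : 0 < k := by linarith
  have kl : k ≤ 1 := by linarith
  -- the scaled functional
  set W : ℝ → ℝ := fun s => 2 * (hh (1 - s * k) / s) - (hh (1 - s * k0) / s + hh (1 - s * k1) / s)
    + PP (cc (1 - s * k) / s) R - PP ((cc (1 - s * k0) / s + cc (1 - s * k1) / s) / 2) R with hW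
  have bnd : ∀ s : ℝ, 0 < s → s ≤ 1 → ∀ κ : ℝ, 0 < κ → κ < 2 → -1 < 1 - s * κ ∧ 1 - s * κ < 1 := by
    intro s hs0 hs1 κ hκ0 hκ2
    constructor
    · nlinarith
    · nlinarith
  have hWval : ∀ s, 0 < s → s ≤ 1 → Om (1 - s * k0) (1 - s * k1) (s * R) = s * W s := by
    intro s hs0 hs1
    have b := bnd s hs0 hs1 k kp (by linarith)
    have b0 := bnd s hs0 hs1 k0 k0p (by linarith)
    have b1 := bnd s hs0 hs1 k1 k1p k1l
    have e1 : (1 - s * k0 + (1 - s * k1)) / 2 = 1 - s * k := by rw [hk]; ring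
    have q1 := hC.pos _ b.1 b.2
    have q2 := hC.pos _ b0.1 b0.2
    have q3 := hC.pos _ b1.1 b1.2
    have e2 : PP (cc (1 - s * k)) (s * R) = s * PP (cc (1 - s * k) / s) R := by
      rw [← hP.hom s _ R hs0 (by positivity) hR]
      congr 1
      field_simp
    have e3 : PP ((cc (1 - s * k0) + cc (1 - s * k1)) / 2) (s * R) =
        s * PP ((cc (1 - s * k0) / s + cc (1 - s * k1) / s) / 2) R := by
      rw [← hP.hom s _ R hs0 (by positivity) hR]
      congr 1
      field_simp
    unfold Om dl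
    rw [e1, e2, e3, hW]
    field_simp
  have hder : ∀ s, 0 < s → s ≤ 1 → ∃ W', HasDerivAt W W' s ∧ 0 ≤ W' := by
    intro s hs0 hs1
    have b := bnd s hs0 hs1 k kp (by linarith)
    have b0 := bnd s hs0 hs1 k0 k0p (by linarith)
    have b1 := bnd s hs0 hs1 k1 k1p k1l
    have q1 := hC.pos _ b.1 b.2
    have q2 := hC.pos _ b0.1 b0.2
    have q3 := hC.pos _ b1.1 b1.2
    have d1 := hasDerivAt_hh_div hs0 b.1 b.2
    have d2 := hasDerivAt_hh_div hs0 b0.1 b0.2
    have d3 := hasDerivAt_hh_div hs0 b1.1 b1.2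
    have c1 := hasDerivAt_cc_div (k := k) hs0
    have c2 := hasDerivAt_cc_div (k := k0) hs0
    have c3 := hasDerivAt_cc_div (k := k1) hs0
    have c4 := (c2.add c3).div_const 2
    have p1 : HasDerivAt (fun s => PP (cc (1 - s * k) / s) R)
        (GG (R / (cc (1 - s * k) / s)) * (-(chi (1 - s * k)) / s ^ 2)) s :=
      HasDerivAt.comp (h₂ := fun c => PP c R) s (hP.deriv _ R (by positivity) hR) c1
    have p2 : HasDerivAt (fun s => PP ((cc (1 - s * k0) / s + cc (1 - s * k1) / s) / 2) R)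
        (GG (R / ((cc (1 - s * k0) / s + cc (1 - s * k1) / s) / 2)) *
          ((-(chi (1 - s * k0)) / s ^ 2 + -(chi (1 - s * k1)) / s ^ 2) / 2)) s :=
      HasDerivAt.comp (h₂ := fun c => PP c R) s (hP.deriv _ R (by positivity) hR) c4
    have dW := (((d1.const_mul 2).sub (d2.add d3)).add p1).sub p2
    refine ⟨_, dW, ?_⟩
    set m := 1 - s * k with hm'
    set d := s * (k1 - k0) / 2 with hd'
    have hmd1 : 1 - s * k0 = m + d := by rw [hm', hd', hk]; ring
    have hmd2 : 1 - s * k1 = m - d := by rw [hm', hd', hk]; ring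
    have hm0 : 0 ≤ m := by rw [hm']; nlinarith
    have hdp : 0 < d := by
      rw [hd']
      have : 0 < k1 - k0 := by linarith
      positivity
    have hdl : d < 1 - m := by
      have : 0 < s * k0 := by positivity
      linarith
    have st := star hG hC hm0 hdp hdl (mul_pos hs0 hR)
    rw [hmd1] at b0 q2 ⊢
    rw [hmd2] at b1 q3 ⊢
    have r1 : R / (cc m / s) = s * R / cc m := by field_simp
    have r2 : R / ((cc (m + d) / s + cc (m - d) / s) / 2) =
        s * R / ((cc (m + d) + cc (m - d)) / 2) := by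
      have : cc (m + d) + cc (m - d) ≠ 0 := by positivity
      field_simp
    rw [r1, r2]
    have l1 : log (1 - d ^ 2 / (1 + m) ^ 2) =
        log (1 + (m + d)) + log (1 + (m - d)) - 2 * log (1 + m) := by
      have a1 : (1 + (m + d)) ≠ 0 := by linarith [b0.1]
      have a2 : (1 + (m - d)) ≠ 0 := by linarith [b1.1]
      have a3 : (1 + m) ≠ 0 := by linarith
      have : 1 - d ^ 2 / (1 + m) ^ 2 = (1 + (m + d)) * (1 + (m - d)) / (1 + m) ^ 2 := by
        field_simp
        ring
      rw [this, log_div (mul_ne_zero a1 a2) (pow_ne_zero 2 a3), log_mul a1 a2, log_pow]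
      push_cast
      ring
    rw [l1] at st
    have key : 2 * (-(log 2 - log (1 + m)) / s ^ 2) -
        (-(log 2 - log (1 + (m + d))) / s ^ 2 + -(log 2 - log (1 + (m - d))) / s ^ 2) +
        GG (s * R / cc m) * (-(chi m) / s ^ 2) -
        GG (s * R / ((cc (m + d) + cc (m - d)) / 2)) *
          ((-(chi (m + d)) / s ^ 2 + -(chi (m - d)) / s ^ 2) / 2) =
        (-(log (1 + (m + d)) + log (1 + (m - d)) - 2 * log (1 + m)) -
          (chi m * GG (s * R / cc m) - (chi (m + d) + chi (m - d)) / 2 *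
            GG (s * R / ((cc (m + d) + cc (m - d)) / 2)))) / s ^ 2 := by
      ring
    rw [key]
    apply div_nonneg _ (by positivity)
    linarith
  have hmono : MonotoneOn W (Icc t 1) := by
    refine monotoneOn_of_deriv_nonneg (convex_Icc t 1) ?_ ?_ ?_
    · intro s hs
      obtain ⟨W', hW', -⟩ := hder s (ht0.trans_le hs.1) hs.2
      exact hW'.continuousAt.continuousWithinAt
    · rw [interior_Icc]
      intro s hs
      obtain ⟨W', hW', -⟩ := hder s (ht0.trans hs.1) hs.2.le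
      exact hW'.differentiableAt.differentiableWithinAt
    · rw [interior_Icc]
      intro s hs
      obtain ⟨W', hW', h'⟩ := hder s (ht0.trans hs.1) hs.2.le
      rw [hW'.deriv]
      exact h'
  have hle : W t ≤ W 1 := hmono ⟨le_rfl, ht1⟩ ⟨ht1, le_rfl⟩ ht1
  have v1 := hWval 1 one_pos le_rfl
  have vt := hWval t ht0 ht1
  have e0 : 1 - 1 * k0 = μ0 := by rw [hk0]; ring
  have e1 : 1 - 1 * k1 = μ1 := by rw [hk1]; ring
  rw [e0, e1, one_mul, one_mul] at v1
  rw [vt, v1]
  exact mul_le_mul_of_nonneg_left hle ht0.le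

lemma hh_posS {x : ℝ} (h0 : -1 < x) (h1 : x < 1) : 0 < hh x := by
  unfold hh
  exact binEntropy_pos (by linarith) (by linarith)

/-- Value at dictators. -/
lemma Om_dict (hP : PFacts) (hC : CFacts) {a : ℝ} (h0 : 0 < a) (h1 : a < 1) :
    Om a (-a) (hh a) = a * artanh a := by
  unfold Om dl
  have e : (a + -a) / 2 = 0 := by ring
  have hh0 := hh_posS (by linarith : -1 < a) h1
  rw [e, cc_zero, cc_neg, hh_neg, hh_zero]
  have e2 : (cc a + cc a) / 2 = cc a := by ring
  rw [e2, hP.zero (cc a) (hh a) (hC.pos a (by linarith) h1).le hh0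
    (hC.le_hh a (by linarith) h1.le)]
  have hu : 0 < artanh a := artanh_pos ⟨h0, h1⟩
  have ht : tanh (artanh a) = a := tanh_artanh ⟨by linarith, h1⟩
  have := hP.val (artanh a) 1 hu one_pos
  rw [eta, ht, one_mul, one_mul] at this
  rw [this]
  ring

/-- Scaling on the line of mean zero. -/
theorem scale0 (hP : PFacts) (hG : GFacts) (hC : CFacts) {a l : ℝ} (h0 : 0 < a) (h1 : a < 1)
    (hl0 : 0 < l) (hl1 : l ≤ 1) :
    Om (l * a) (-(l * a)) (l * hh a) ≤ l * (a * artanh a) := by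
  have hha := hh_posS (by linarith : -1 < a) h1
  set V : ℝ → ℝ := fun s => 2 * ((log 2 - hh (s * a)) / s) + PP (1 / s) (hh a) -
    PP (cc (s * a) / s) (hh a) with hV
  have bnd : ∀ s, 0 < s → s ≤ 1 → 0 < s * a ∧ s * a < 1 := by
    intro s hs0 hs1
    constructor
    · positivity
    · nlinarith
  have hVval : ∀ s, 0 < s → s ≤ 1 → Om (s * a) (-(s * a)) (s * hh a) = s * V s := by
    intro s hs0 hs1
    have b := bnd s hs0 hs1
    have q1 := hC.pos (s * a) (by linarith) b.2
    have e1 : (s * a + -(s * a)) / 2 = 0 := by ring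
    have e2 : PP 1 (s * hh a) = s * PP (1 / s) (hh a) := by
      rw [← hP.hom s _ _ hs0 (by positivity) hha]
      congr 1
      field_simp
    have e3 : PP ((cc (s * a) + cc (s * a)) / 2) (s * hh a) =
        s * PP (cc (s * a) / s) (hh a) := by
      rw [← hP.hom s _ _ hs0 (by positivity) hha]
      congr 1
      field_simp
      ring
    unfold Om dl
    rw [e1, hh_zero, hh_neg, cc_neg, cc_zero, e2, e3, hV]
    field_simp
    ring
  have hder : ∀ s, 0 < s → s ≤ 1 → ∃ V', HasDerivAt V V' s ∧ 0 ≤ V' := by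
    intro s hs0 hs1
    have b := bnd s hs0 hs1
    have q1 := hC.pos (s * a) (by linarith) b.2
    have dx : HasDerivAt (fun s : ℝ => s * a) a s := by
      simpa using (hasDerivAt_id s).mul_const a
    have d1 : HasDerivAt (fun s : ℝ => hh (s * a)) (-artanh (s * a) * a) s :=
      HasDerivAt.comp (h₂ := hh) s (hasDerivAt_hh (by linarith) b.2) dx
    have d2 := (d1.const_sub (log 2)).div (hasDerivAt_id s) hs0.ne'
    have c1 : HasDerivAt (fun s : ℝ => cc (s * a)) (ccd (s * a) * a) s :=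
      HasDerivAt.comp (h₂ := cc) s (hasDerivAt_cc _) dx
    have c2 := c1.div (hasDerivAt_id s) hs0.ne'
    have c3 := (hasDerivAt_const s (1:ℝ)).div (hasDerivAt_id s) hs0.ne'
    simp only [id] at d2 c2 c3
    have p1 : HasDerivAt (fun s => PP (1 / s) (hh a))
        (GG (hh a / (1 / s)) * ((0 * s - 1 * 1) / s ^ 2)) s :=
      HasDerivAt.comp (h₂ := fun c => PP c (hh a)) s (hP.deriv _ (hh a) (by positivity) hha) c3
    have p2 : HasDerivAt (fun s => PP (cc (s * a) / s) (hh a))
        (GG (hh a / (cc (s * a) / s)) * ((ccd (s * a) * a * s - cc (s * a) * 1) / s ^ 2)) s :=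
      HasDerivAt.comp (h₂ := fun c => PP c (hh a)) s (hP.deriv _ (hh a) (by positivity) hha) c2
    have dV := ((d2.const_mul 2).add p1).sub p2
    refine ⟨_, dV, ?_⟩
    have st := star hG hC (le_refl (0:ℝ)) b.1 (by linarith [b.2]) (mul_pos hs0 hha)
    set x := s * a with hx
    rw [chi_zero, cc_zero] at st
    simp only [zero_add, zero_sub, cc_neg, add_zero, one_pow, div_one, one_mul] at st
    have e1 : (cc x + cc x) / 2 = cc x := by ring
    have e2 : (chi x + chi (-x)) / 2 = cc x - x * ccd x := by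
      unfold chi
      rw [cc_neg, ccd_neg]
      ring
    rw [e1, e2] at st
    have r1 : hh a / (1 / s) = s * hh a := by field_simp
    have r2 : hh a / (cc x / s) = s * hh a / cc x := by field_simp
    rw [r1, r2]
    have i2 := hh_ident2 (by linarith [b.1] : -1 < x) b.2
    have key : 2 * ((-(-artanh x * a) * s - (log 2 - hh x) * 1) / s ^ 2) +
        GG (s * hh a) * ((0 * s - 1 * 1) / s ^ 2) -
        GG (s * hh a / cc x) * ((ccd x * a * s - cc x * 1) / s ^ 2) =
        (2 * (hh x + artanh x * x - log 2) - (GG (s * hh a) - (cc x - x * ccd x) *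
          GG (s * hh a / cc x))) / s ^ 2 := by
      rw [hx]
      ring
    rw [key, i2]
    apply div_nonneg _ (by positivity)
    linarith
  have hmono : MonotoneOn V (Icc l 1) := by
    refine monotoneOn_of_deriv_nonneg (convex_Icc l 1) ?_ ?_ ?_
    · intro s hs
      obtain ⟨W', hW', -⟩ := hder s (hl0.trans_le hs.1) hs.2
      exact hW'.continuousAt.continuousWithinAt
    · rw [interior_Icc]
      intro s hs
      obtain ⟨W', hW', -⟩ := hder s (hl0.trans hs.1) hs.2.le
      exact hW'.differentiableAt.differentiableWithinAt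
    · rw [interior_Icc]
      intro s hs
      obtain ⟨W', hW', h'⟩ := hder s (hl0.trans hs.1) hs.2.le
      rw [hW'.deriv]
      exact h'
  have hle : V l ≤ V 1 := hmono ⟨le_rfl, hl1⟩ ⟨hl1, le_rfl⟩ hl1
  have v1 := hVval 1 one_pos le_rfl
  rw [one_mul, one_mul, one_mul, Om_dict hP hC h0 h1] at v1
  rw [hVval l hl0 hl1, v1]
  exact mul_le_mul_of_nonneg_left hle hl0.le

end Vale.Agent.P322
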