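import Mathlib
import Vale.Agent.P322.Scale

namespace Vale.Agent.P322

open Real Set

variable {n : ℕ}

lemma artanh_neg' (x : ℝ) : artanh (-x) = -artanh x := by
  unfold artanh
  rw [← log_inv, ← sqrt_inv, inv_div]
  congr 3
  ring

lemma KK_neg {a b : ℝ} : KK (-a) (-b) = KK a b := by
  unfold KK
  rw [artanh_neg', artanh_neg']
  ring

lemma Om_symm (a b r : ℝ) : Om a b r = Om b a r := by
  unfold Om dl
  rw [add_comm a b, add_comm (hh a), add_comm (cc a)]

lemma Om_neg (a b r : ℝ) : Om (-a) (-b) r = Om a b r := by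
  unfold Om dl
  have : (-a + -b) / 2 = -((a + b) / 2) := by ring
  rw [this, hh_neg, hh_neg, hh_neg, cc_neg, cc_neg, cc_neg]

lemma Om_self (a r : ℝ) : Om a a r = 0 := by
  unfold Om dl
  have h1 : (a + a) / 2 = a := by ring
  have h2 : (hh a + hh a) / 2 = hh a := by ring
  have h3 : (cc a + cc a) / 2 = cc a := by ring
  rw [h1, h2, h3]
  ring

lemma avg_neg (A : Cube n → ℝ) : avg (fun x => -A x) = -avg A := by
  have := avg_smul (n := n) (-1) A
  simpa using this

lemma avg_strict_mem {A : Cube n → ℝ} (hA : ∀ x, -1 < A x ∧ A x < 1) : -1 < avg A ∧ avg A < 1 := by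
  have hp : (0 : ℝ) < (1 / 2) ^ n := by positivity
  have h1 := avg_const (n := n) (-1 : ℝ)
  have h2 := avg_const (n := n) (1 : ℝ)
  constructor
  · rw [← h1]
    unfold avg
    exact mul_lt_mul_of_pos_left (Finset.sum_lt_sum_of_nonempty Finset.univ_nonempty
      fun x _ => (hA x).1) hp
  · rw [← h2]
    unfold avg
    exact mul_lt_mul_of_pos_left (Finset.sum_lt_sum_of_nonempty Finset.univ_nonempty
      fun x _ => (hA x).2) hp

lemma avg_pos {A : Cube n → ℝ} (hA : ∀ x, 0 < A x) : 0 < avg A := by
  unfold avg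
  exact mul_pos (by positivity) (Finset.sum_pos (fun x _ => hA x) Finset.univ_nonempty)

lemma avg_nonneg {A : Cube n → ℝ} (hA : ∀ x, 0 ≤ A x) : 0 ≤ avg A := by
  unfold avg
  exact mul_nonneg (by positivity) (Finset.sum_nonneg (fun x _ => hA x))

lemma hh_tangent {x m : ℝ} (hx : -1 < x ∧ x < 1) (hm : -1 < m ∧ m < 1) :
    hh x ≤ hh m - artanh m * (x - m) := by
  have p1 : (0:ℝ) < (1 + m) / 2 := by linarith [hm.1]
  have p2 : (0:ℝ) < (1 - m) / 2 := by linarith [hm.2]
  have q1 : (0:ℝ) < (1 + x) / 2 := by linarith [hx.1]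
  have q2 : (0:ℝ) < (1 - x) / 2 := by linarith [hx.2]
  have k1 : (1 + x) / 2 * (log ((1 + m) / 2) - log ((1 + x) / 2)) ≤ (1 + m) / 2 - (1 + x) / 2 := by
    rw [← log_div p1.ne' q1.ne']
    have := log_le_sub_one_of_pos (div_pos p1 q1)
    calc (1 + x) / 2 * log ((1 + m) / 2 / ((1 + x) / 2))
        ≤ (1 + x) / 2 * ((1 + m) / 2 / ((1 + x) / 2) - 1) := mul_le_mul_of_nonneg_left this q1.le
      _ = _ := by rw [mul_sub, mul_div_cancel₀ _ q1.ne', mul_one]
  have k2 : (1 - x) / 2 * (log ((1 - m) / 2) - log ((1 - x) / 2)) ≤ (1 - m) / 2 - (1 - x) / 2 := by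
    rw [← log_div p2.ne' q2.ne']
    have := log_le_sub_one_of_pos (div_pos p2 q2)
    calc (1 - x) / 2 * log ((1 - m) / 2 / ((1 - x) / 2))
        ≤ (1 - x) / 2 * ((1 - m) / 2 / ((1 - x) / 2) - 1) := mul_le_mul_of_nonneg_left this q2.le
      _ = _ := by rw [mul_sub, mul_div_cancel₀ _ q2.ne', mul_one]
  have e : artanh m = (log ((1 + m) / 2) - log ((1 - m) / 2)) / 2 := by
    rw [artanh_eq_half_log ⟨hm.1.le, hm.2.le⟩, ← log_div p1.ne' p2.ne']
    have : (1 + m) / 2 / ((1 - m) / 2) = (1 + m) / (1 - m) := by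
      have : 1 - m ≠ 0 := by linarith [hm.2]
      field_simp
    rw [this]
    ring
  rw [hh_eq, hh_eq, e]
  nlinarith [k1, k2]

lemma avg_hh_le {A : Cube n → ℝ} (hA : ∀ x, -1 < A x ∧ A x < 1) :
    avg (fun x => hh (A x)) ≤ hh (avg A) := by
  have hm := avg_strict_mem hA
  have h1 : avg (fun x => hh (A x)) ≤
      avg (fun x => (hh (avg A) + artanh (avg A) * avg A) + (-artanh (avg A)) * A x) :=
    avg_mono fun x => by
      have := hh_tangent (hA x) hm
      linarith
  rw [avg_add, avg_const, avg_smul] at h1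
  linarith

lemma KK_nonneg {a b : ℝ} (ha : -1 < a ∧ a < 1) (hb : -1 < b ∧ b < 1) : 0 ≤ KK a b := by
  unfold KK
  rcases le_total a b with h | h
  · have : artanh a ≤ artanh b := by
      rcases h.lt_or_eq with h | h
      · exact (strictMonoOn_artanh ⟨ha.1, ha.2⟩ ⟨hb.1, hb.2⟩ h).le
      · rw [h]
    exact mul_nonneg_of_nonpos_of_nonpos (by linarith) (by linarith)
  · have : artanh b ≤ artanh a := by
      rcases h.lt_or_eq with h | h
      · exact (strictMonoOn_artanh ⟨hb.1, hb.2⟩ ⟨ha.1, ha.2⟩ h).le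
      · rw [h]
    exact mul_nonneg (by linarith) (by linarith)

/-- The two-point inequality, main case. -/
theorem C_main (hP : PFacts) (hG : GFacts) (hC : CFacts) (h2 : L2Fact) (h3 : L3Fact)
    (hN : N1Fact) (A B : Cube n → ℝ) (hA : ∀ x, -1 < A x ∧ A x < 1)
    (hB : ∀ x, -1 < B x ∧ B x < 1) (hlt : avg B < avg A) (hm : 0 ≤ avg A + avg B) :
    Om (avg A) (avg B) ((avg (fun x => hh (A x)) + avg (fun x => hh (B x))) / 2) ≤
      (1 / 4) * avg (fun x => KK (A x) (B x)) := by
  obtain ⟨-, hm0⟩ := avg_strict_mem hA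
  obtain ⟨hm1, -⟩ := avg_strict_mem hB
  have hrA := avg_hh_le hA
  have hrB := avg_hh_le hB
  have hrA0 : 0 < avg (fun x => hh (A x)) := avg_pos fun x => hh_posS (hA x).1 (hA x).2
  have hrB0 : 0 < avg (fun x => hh (B x)) := avg_pos fun x => hh_posS (hB x).1 (hB x).2
  set m0 := avg A with hm0d
  set m1 := avg B with hm1d
  set r := (avg (fun x => hh (A x)) + avg (fun x => hh (B x))) / 2 with hr
  have hr0 : 0 < r := by linarith
  have hrmax : r ≤ (hh m0 + hh m1) / 2 := by linarith
  set D := (m0 - m1) / 2 with hD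
  set k := 1 - (m0 + m1) / 2 with hk
  have hDp : 0 < D := by linarith
  have hkp : 0 < k := by linarith
  have hk1 : k ≤ 1 := by linarith
  have hDk : D < k := by linarith
  have ha2 : D / k < 1 := (div_lt_one hkp).2 hDk
  have ha2p : 0 < D / k := div_pos hDp hkp
  by_cases hcase : r < k * hh (D / k)
  · -- frozen points on both sides
    have hcont : ContinuousOn (fun a => D * hh a / a) (Icc (D / k) 1) := by
      have := continuous_hh
      refine ContinuousOn.div (by fun_prop) continuousOn_id ?_
      intro x hx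
      exact (ha2p.trans_le hx.1).ne'
    have hfa : D * hh (D / k) / (D / k) = k * hh (D / k) := by field_simp
    have hmem : r ∈ Icc (D * hh 1 / 1) (D * hh (D / k) / (D / k)) := by
      rw [hh_one, hfa]
      constructor
      · simpa using hr0.le
      · exact hcase.le
    obtain ⟨a, ha, hfa'⟩ := intermediate_value_Icc' ha2.le hcont hmem
    have ha0 : 0 < a := ha2p.trans_le ha.1
    have ha1 : a < 1 := by
      rcases ha.2.lt_or_eq with h | h
      · exact h
      · rw [h] at hfa'
        simp only [hh_one] at hfa'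
        norm_num at hfa'
        linarith
    have ha2' : D / k < a := by
      rcases ha.1.lt_or_eq with h | h
      · exact h
      · rw [← h] at hfa'
        simp only [hfa] at hfa'
        linarith
    simp only at hfa'
    set l := D / a with hl
    have hl0 : 0 < l := div_pos hDp ha0
    have hla : l * a = D := by rw [hl]; field_simp
    have hlr : l * hh a = r := by rw [hl, ← hfa']; ring
    have hlk : l < k := by
      rw [hl, div_lt_iff₀ ha0]
      rwa [div_lt_iff₀ hkp, mul_comm] at ha2'
    set l0 := l / k with hl0d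
    have hl00 : 0 < l0 := div_pos hl0 hkp
    have hl01 : l0 < 1 := (div_lt_one hkp).2 hlk
    have hkl0 : k * l0 = l := by rw [hl0d]; field_simp
    have hl0a : l0 * a < 1 := by nlinarith
    have hl0ap : 0 < l0 * a := by positivity
    have hhap := hh_posS (by linarith : -1 < a) ha1
    have s1 := scale hP hG hC (μ0 := l0 * a) (μ1 := -(l0 * a)) (R := l0 * hh a) (t := k) hl0a
      (by linarith) (by linarith) (by linarith) (by positivity) hkp hk1
    have s2 := scale0 hP hG hC ha0 ha1 hl00 hl01.le
    have e1 : 1 - k * (1 - l0 * a) = m0 := by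
      have : k * (l0 * a) = D := by rw [← mul_assoc, hkl0, hla]
      have h' : 1 - k * (1 - l0 * a) = 1 - k + k * (l0 * a) := by ring
      rw [h', this, hk, hD]
      ring
    have e2 : 1 - k * (1 - -(l0 * a)) = m1 := by
      have : k * (l0 * a) = D := by rw [← mul_assoc, hkl0, hla]
      have h' : 1 - k * (1 - -(l0 * a)) = 1 - k - k * (l0 * a) := by ring
      rw [h', this, hk, hD]
      ring
    have e3 : k * (l0 * hh a) = r := by rw [← mul_assoc, hkl0, hlr]
    rw [e1, e2, e3] at s1
    have s3 := h2 n A B hA hB a l ha0 ha1 hl0 (by rw [hla, hD]; ring) (by rw [hlr])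
    calc Om m0 m1 r ≤ k * Om (l0 * a) (-(l0 * a)) (l0 * hh a) := s1
      _ ≤ k * (l0 * (a * artanh a)) := mul_le_mul_of_nonneg_left s2 hkp.le
      _ = l * (a * artanh a) := by rw [← mul_assoc, hkl0]
      _ ≤ _ := s3
  · -- frozen points on one side
    push Not at hcase
    set f : ℝ → ℝ := fun l => l * ((hh (1 - (1 - m0) / l) + hh (1 - (1 - m1) / l)) / 2) with hf
    have hcont : ContinuousOn f (Icc k 1) := by
      have := continuous_hh
      rw [hf]
      have hne : ∀ x ∈ Icc k 1, x ≠ 0 := fun x hx => (hkp.trans_le hx.1).ne'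
      have c0 : ContinuousOn (fun l : ℝ => 1 - (1 - m0) / l) (Icc k 1) :=
        continuousOn_const.sub (continuousOn_const.div continuousOn_id hne)
      have c1 : ContinuousOn (fun l : ℝ => 1 - (1 - m1) / l) (Icc k 1) :=
        continuousOn_const.sub (continuousOn_const.div continuousOn_id hne)
      exact continuousOn_id.mul (((this.comp_continuousOn c0).add
        (this.comp_continuousOn c1)).div_const 2)
    have hfk : f k = k * hh (D / k) := by
      have e1 : 1 - (1 - m0) / k = D / k := by
        field_simp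
        rw [hk, hD]
        ring
      have e2 : 1 - (1 - m1) / k = -(D / k) := by
        field_simp
        rw [hk, hD]
        ring
      simp only [hf]
      rw [e1, e2, hh_neg]
      ring
    have hf1 : f 1 = (hh m0 + hh m1) / 2 := by
      simp only [hf, div_one, one_mul]
      congr 2
      · congr 1; ring
      · congr 1; ring
    have hmem : r ∈ Icc (f k) (f 1) := by
      rw [hfk, hf1]
      exact ⟨hcase, hrmax⟩
    obtain ⟨l, hl, hfl⟩ := intermediate_value_Icc hk1 hcont hmem
    have hl0 : 0 < l := hkp.trans_le hl.1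
    set a := 1 - (1 - m0) / l with ha
    set b := 1 - (1 - m1) / l with hb
    have ha1 : a < 1 := by
      have : 0 < (1 - m0) / l := div_pos (by linarith) hl0
      linarith
    have hb1 : -1 < b := by
      have : (1 - m1) / l < 2 := by
        rw [div_lt_iff₀ hl0]
        have := hl.1
        linarith
      linarith
    have hab : b < a := by
      have : (1 - m0) / l < (1 - m1) / l := div_lt_div_of_pos_right (by linarith) hl0
      linarith
    have hab0 : 0 ≤ a + b := by
      have : (1 - m0) / l + (1 - m1) / l ≤ 2 := by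
        rw [← add_div, div_le_iff₀ hl0]
        have := hl.1
        linarith
      linarith
    have e1 : 1 - l * (1 - a) = m0 := by rw [ha]; field_simp; ring
    have e2 : 1 - l * (1 - b) = m1 := by rw [hb]; field_simp; ring
    have hR : 0 < (hh a + hh b) / 2 := by
      have := hh_posS (by linarith : -1 < a) ha1
      have := hh_posS hb1 (by linarith)
      linarith
    have e3 : l * ((hh a + hh b) / 2) = r := hfl
    have s1 := scale hP hG hC (μ0 := a) (μ1 := b) (R := (hh a + hh b) / 2) (t := l) ha1 hb1 hab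
      hab0 hR hl0 hl.2
    rw [e1, e2, e3] at s1
    have hcM : 0 < cc ((a + b) / 2) := hC.pos _ (by linarith) (by linarith)
    have s2 := hN a b (cc ((a + b) / 2)) hb1 hab ha1 hcM.le
      (hC.le_hh _ (by linarith) (by linarith))
    have s3 : 0 ≤ PP ((cc a + cc b) / 2) ((hh a + hh b) / 2) := by
      have q1 := hC.pos a (by linarith) ha1
      have q2 := hC.pos b hb1 (by linarith)
      exact hP.nonneg _ _ (by linarith) hR
    have s4 : Om a b ((hh a + hh b) / 2) ≤ KK a b / 4 := by
      unfold Om
      linarith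
    have s5 := h3 n A B hA hB a b l hb1 hab ha1 hab0 hl0 hl.2 e1.symm e2.symm e3.symm
    calc Om m0 m1 r ≤ l * Om a b ((hh a + hh b) / 2) := s1
      _ ≤ l * (KK a b / 4) := mul_le_mul_of_nonneg_left s4 hl0.le
      _ ≤ _ := s5

/-- The two-point inequality. -/
theorem C_all (hP : PFacts) (hG : GFacts) (hC : CFacts) (h2 : L2Fact) (h3 : L3Fact)
    (hN : N1Fact) (A B : Cube n → ℝ) (hA : ∀ x, -1 < A x ∧ A x < 1)
    (hB : ∀ x, -1 < B x ∧ B x < 1) :
    Om (avg A) (avg B) ((avg (fun x => hh (A x)) + avg (fun x => hh (B x))) / 2) ≤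
      (1 / 4) * avg (fun x => KK (A x) (B x)) := by
  -- reduction to nonnegative sum of means
  have key : ∀ A B : Cube n → ℝ, (∀ x, -1 < A x ∧ A x < 1) → (∀ x, -1 < B x ∧ B x < 1) →
      0 ≤ avg A + avg B →
      Om (avg A) (avg B) ((avg (fun x => hh (A x)) + avg (fun x => hh (B x))) / 2) ≤
      (1 / 4) * avg (fun x => KK (A x) (B x)) := by
    intro A B hA hB hs
    rcases lt_trichotomy (avg B) (avg A) with h | h | h
    · exact C_main hP hG hC h2 h3 hN A B hA hB h hs
    · rw [h, Om_self]
      have : 0 ≤ avg (fun x => KK (A x) (B x)) := avg_nonneg fun x => KK_nonneg (hA x) (hB x)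
      linarith
    · have := C_main hP hG hC h2 h3 hN B A hB hA h (by linarith)
      have e : (fun x => KK (B x) (A x)) = fun x => KK (A x) (B x) := by
        funext x; exact KK_symm _ _
      rw [e] at this
      rw [Om_symm, add_comm (avg fun x => hh (A x))]
      exact this
  rcases le_total 0 (avg A + avg B) with hs | hs
  · exact key A B hA hB hs
  · have := key (fun x => -A x) (fun x => -B x)
      (fun x => ⟨by linarith [(hA x).2], by linarith [(hA x).1]⟩)
      (fun x => ⟨by linarith [(hB x).2], by linarith [(hB x).1]⟩)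
      (by rw [avg_neg, avg_neg]; linarith)
    simp only [avg_neg, hh_neg, KK_neg, Om_neg] at this
    exact this

theorem thIneq_of (hP : PFacts) (hG : GFacts) (hC : CFacts) (h2 : L2Fact) (h3 : L3Fact)
    (hN : N1Fact) : ThIneq := by
  refine bellman Th ?_ ?_
  · intro m h0 h1
    unfold Th
    rw [hP.zero (cc m) (hh m) (hC.pos m h0 h1).le (hh_posS h0 h1) (hC.le_hh m h0.le h1.le)]
    linarith
  · intro n A B hA hB
    have hC' := C_all hP hG hC h2 h3 hN A B hA hB
    obtain ⟨a1, a2⟩ := avg_strict_mem hA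
    obtain ⟨b1, b2⟩ := avg_strict_mem hB
    have hrA0 : 0 < avg (fun x => hh (A x)) := avg_pos fun x => hh_posS (hA x).1 (hA x).2
    have hrB0 : 0 < avg (fun x => hh (B x)) := avg_pos fun x => hh_posS (hB x).1 (hB x).2
    have hmid := hP.mid (cc (avg A)) (cc (avg B)) (avg fun x => hh (A x)) (avg fun x => hh (B x))
      (hC.pos _ a1 a2).le (hC.pos _ b1 b2).le hrA0 hrB0
    unfold Om dl at hC'
    unfold Th
    linarith

theorem courtadeKumar_of (hP : PFacts) (hG : GFacts) (hC : CFacts) (h2 : L2Fact) (h3 : L3Fact)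
    (hN : N1Fact) (hF : FFact) : CourtadeKumar :=
  hF (thIneq_of hP hG hC h2 h3 hN)

/-- value of the potential at mean zero -/
lemma Th_zero (hP : PFacts) {t : ℝ} (h0 : 0 < t) (h1 : t < 1) : Th 0 (hh t) = t * artanh t := by
  unfold Th
  rw [cc_zero, hh_zero]
  have hu : 0 < artanh t := artanh_pos ⟨h0, h1⟩
  have ht : tanh (artanh t) = t := tanh_artanh ⟨by linarith, h1⟩
  have := hP.val (artanh t) 1 hu one_pos
  rw [eta, ht, one_mul, one_mul] at this
  rw [this]
  ring

/-- balanced case -/
theorem NLSI0_of (hP : PFacts) (hT : ThIneq) : NLSI0 := by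
  intro n g hg hav t h0 h1 hle
  rcases h0.lt_or_eq with h0 | h0
  · have := hT n g hg
    rw [hav] at this hle
    rw [hh_zero] at hle
    unfold phi at hle
    have hr : avg (fun x => hh (g x)) ≤ hh t := by linarith
    have hr0 : 0 < avg (fun x => hh (g x)) := avg_pos fun x => hh_posS (hg x).1 (hg x).2
    have e := Th_zero hP h0 h1
    have mono : Th 0 (hh t) ≤ Th 0 (avg fun x => hh (g x)) := by
      unfold Th
      have := hP.anti (cc 0) _ _ (by rw [cc_zero]; norm_num) hr0 hr
      linarith
    linarith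
  · rw [← h0]
    simp only [zero_mul]
    unfold EE
    have : ∀ i : Fin n, 0 ≤ avg (fun x => KK (g x) (g (x * fl i))) := fun i =>
      avg_nonneg fun x => KK_nonneg (hg _) (hg _)
    have := Finset.sum_nonneg (s := Finset.univ) fun i _ => this i
    positivity

theorem courtadeKumarBalanced_of (hP : PFacts) (hG : GFacts) (hC : CFacts) (h2 : L2Fact)
    (h3 : L3Fact) (hN : N1Fact) : CourtadeKumarBalanced :=
  courtadeKumarBalanced_of_NLSI0 (NLSI0_of hP (thIneq_of hP hG hC h2 h3 hN))

end Vale.Agent.P322
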