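import Mathlib
import Vale.Agent.P322.Reduction

namespace Vale.Agent.P322.Ode79

open Finset Real Set

variable {n : ℕ}

/-- Lower bound of the Dirichlet form by `2 (h(m) - r) + P(c, r)`, where `P` is the perspective
of the convex function taking the value `t artanh t - 2 phi t` at `hh t`, in parametric form. -/
def PBound (c : ℝ) (g : Cube n → ℝ) : Prop :=
  2 * (hh (avg g) - avg (fun x => hh (g x))) ≤ EE g ∧
  ∀ t : ℝ, 0 ≤ t → t < 1 → avg (fun x => hh (g x)) ≤ c * hh t →
    2 * (hh (avg g) - avg (fun x => hh (g x))) + c * (t * artanh t - 2 * phi t) ≤ EE g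

lemma compare_on {D D' : ℝ → ℝ} {a : ℝ} (hc : ContinuousOn D (Icc a 1))
    (hd : ∀ r, a < r → r < 1 → HasDerivAt D (D' r) r)
    (hpos : ∀ r, a < r → r < 1 → 0 < D r → 0 ≤ D' r) (h1 : D 1 ≤ 0) {r : ℝ}
    (hr0 : a ≤ r) (hr1 : r ≤ 1) : D r ≤ 0 := by
  by_contra hcon
  push Not at hcon
  have hsub : Icc r 1 ⊆ Icc a 1 := Icc_subset_Icc_left hr0
  set S : Set ℝ := Icc r 1 ∩ D ⁻¹' Iic 0 with hS
  have hSc : IsCompact S :=
    isCompact_Icc.of_isClosed_subset ((hc.mono hsub).preimage_isClosed_of_isClosed isClosed_Icc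
      isClosed_Iic) inter_subset_left
  have hSn : S.Nonempty := ⟨1, ⟨hr1, le_rfl⟩, h1⟩
  have hm := hSc.sInf_mem hSn
  set x := sInf S with hx
  have hrx : r ≤ x := hm.1.1
  have hx1 : x ≤ 1 := hm.1.2
  have hDx : D x ≤ 0 := hm.2
  have hlt : ∀ y, r ≤ y → y < x → 0 < D y := by
    intro y hy1 hy2
    by_contra hn
    push Not at hn
    have : y ∈ S := ⟨⟨hy1, (hy2.trans_le hx1).le⟩, hn⟩
    have := csInf_le hSc.bddBelow this
    linarith
  have hmono : MonotoneOn D (Icc r x) := by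
    refine monotoneOn_of_deriv_nonneg (convex_Icc r x)
      (hc.mono (Icc_subset_Icc hr0 hx1)) ?_ ?_
    · rw [interior_Icc]
      intro y hy
      exact (hd y (hr0.trans_lt hy.1) (hy.2.trans_le hx1)).differentiableAt.differentiableWithinAt
    · rw [interior_Icc]
      intro y hy
      rw [(hd y (hr0.trans_lt hy.1) (hy.2.trans_le hx1)).deriv]
      exact hpos y (hr0.trans_lt hy.1) (hy.2.trans_le hx1) (hlt y hy.1.le hy.2)
  have := hmono ⟨le_rfl, hrx⟩ ⟨hrx, le_rfl⟩ hrx
  linarith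

lemma Tn_strict (f : Cube n → ℤˣ) (a b : Cube n) (ha : f a = 1) (hb : f b = -1) :
    ∀ r, 0 < r → r < 1 → ∀ y, -1 < Tn r (rf f) y ∧ Tn r (rf f) y < 1 := by
  intro r hr0 hr1 y
  unfold Tn
  have hk := fun z => ker_pos (n := n) (by linarith : -1 < r) hr1 z
  constructor
  · have : ∑ z : Cube n, ker r z * (-1) < ∑ z, ker r z * rf f (y * z) := by
      refine sum_lt_sum (fun z _ => mul_le_mul_of_nonneg_left (abs_rf f _).1 (hk z).le)
        ⟨y * a, mem_univ _, ?_⟩
      have : y * (y * a) = a := by rw [← mul_assoc, cube_mul_self, one_mul]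
      rw [this, rf, ha, rs_one]
      linarith [hk (y * a)]
    rw [← sum_mul, ker_sum] at this
    linarith
  · have : ∑ z, ker r z * rf f (y * z) < ∑ z : Cube n, ker r z * 1 := by
      refine sum_lt_sum (fun z _ => mul_le_mul_of_nonneg_left (abs_rf f _).2 (hk z).le)
        ⟨y * b, mem_univ _, ?_⟩
      have : y * (y * b) = b := by rw [← mul_assoc, cube_mul_self, one_mul]
      rw [this, rf, hb, rs_neg, rs_one]
      linarith [hk (y * b)]
    rw [← sum_mul, ker_sum] at this
    linarith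

/-- information (nats) as a function of the noise correlation -/
noncomputable def II (f : Cube n → ℤˣ) (r : ℝ) : ℝ :=
  hh (avg (rf f)) - avg (fun y => hh (Tn r (rf f) y))

lemma continuous_II (f : Cube n → ℤˣ) : Continuous (II f) := by
  have c1 : Continuous fun r => avg (fun y => hh (Tn r (rf f) y)) := by
    unfold avg
    have : ∀ y, Continuous fun r => hh (Tn r (rf f) y) := fun y =>
      continuous_hh.comp (continuous_Tn _ y)
    fun_prop
  unfold II
  fun_prop

lemma II_one (f : Cube n → ℤˣ) : II f 1 = hh (avg (rf f)) := by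
  unfold II
  have e1 : (fun y => hh (Tn 1 (rf f) y)) = fun _ => (0 : ℝ) := by
    funext y
    rw [Tn_one, rf]
    rcases rs_eq (f y) with h | h <;> rw [h]
    · exact hh_one
    · exact hh_neg_one
  rw [e1, avg_const, sub_zero]

lemma hasDerivAt_II (f : Cube n → ℤˣ) {r : ℝ} (hr : r ≠ 0)
    (hT : ∀ y, -1 < Tn r (rf f) y ∧ Tn r (rf f) y < 1) :
    HasDerivAt (II f) (r⁻¹ * EE (Tn r (rf f))) r := by
  have d1 := hasDerivAt_G hr (rf f) hT
  have := (hasDerivAt_const r (hh (avg (rf f)))).sub d1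
  refine this.congr_deriv ?_
  ring

lemma II_ratio (f : Cube n → ℤˣ)
    (hT : ∀ r, 0 < r → r < 1 → ∀ y, -1 < Tn r (rf f) y ∧ Tn r (rf f) y < 1)
    (N : ∀ r, 0 < r → r < 1 → 2 * II f r ≤ EE (Tn r (rf f))) {r s : ℝ} (h0 : 0 < r) (h1 : r ≤ s)
    (h2 : s ≤ 1) : II f r * s ^ 2 ≤ II f s * r ^ 2 := by
  have hs : 0 < s := h0.trans_le h1
  have hmono : MonotoneOn (fun x => II f x / x ^ 2) (Icc r s) := by
    refine monotoneOn_of_deriv_nonneg (convex_Icc r s) ?_ ?_ ?_
    · refine (continuous_II f).continuousOn.div (by fun_prop) ?_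
      intro x hx
      have : 0 < x := h0.trans_le hx.1
      positivity
    · rw [interior_Icc]
      intro y hy
      have hy0 : 0 < y := h0.trans hy.1
      have d := (hasDerivAt_II f hy0.ne' (hT y hy0 (hy.2.trans_le h2))).div
        (hasDerivAt_pow 2 y) (by positivity)
      exact d.differentiableAt.differentiableWithinAt
    · rw [interior_Icc]
      intro y hy
      have hy0 : 0 < y := h0.trans hy.1
      have hy1 : y < 1 := hy.2.trans_le h2
      have d := (hasDerivAt_II f hy0.ne' (hT y hy0 hy1)).div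
        (hasDerivAt_pow 2 y) (by positivity)
      have e : deriv (fun x => II f x / x ^ 2) y = _ := d.deriv
      rw [e]
      refine div_nonneg ?_ (by positivity)
      have hN := N y hy0 hy1
      have e2 : y⁻¹ * EE (Tn y (rf f)) * y ^ 2 - II f y * (((2 : ℕ) : ℝ) * y ^ (2 - 1)) =
          y * (EE (Tn y (rf f)) - 2 * II f y) := by
        field_simp
        push_cast
        ring
      rw [e2]
      exact mul_nonneg hy0.le (by linarith)
  have h := hmono ⟨le_rfl, h1⟩ ⟨h1, le_rfl⟩ h1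
  simp only at h
  rwa [div_le_div_iff₀ (by positivity) (by positivity)] at h

lemma phi_zero : phi 0 = 0 := by unfold phi; rw [hh_zero, sub_self]
lemma phi_one : phi 1 = log 2 := by unfold phi; rw [hh_one, sub_zero]

lemma continuous_phi : Continuous phi := by
  unfold phi
  have := continuous_hh
  fun_prop

lemma hasDerivAt_phi {t : ℝ} (h0 : -1 < t) (h1 : t < 1) : HasDerivAt phi (artanh t) t := by
  have := (hasDerivAt_const t (log 2)).sub (hasDerivAt_hh h0 h1)
  refine this.congr_deriv ?_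
  ring

lemma artanh_hasDerivAt {t : ℝ} (h0 : -1 < t) (h1 : t < 1) :
    HasDerivAt (fun x : ℝ => (1 / 2) * (log (1 + x) - log (1 - x))) (1 / (1 - t ^ 2)) t := by
  have p1 : (1 + t) ≠ 0 := (by linarith : (0:ℝ) < 1 + t).ne'
  have p2 : (1 - t) ≠ 0 := (by linarith : (0:ℝ) < 1 - t).ne'
  have d1 : HasDerivAt (fun x : ℝ => log (1 + x)) (1 / (1 + t)) t :=
    ((hasDerivAt_id t).const_add 1).log p1
  have d2 : HasDerivAt (fun x : ℝ => log (1 - x)) (-1 / (1 - t)) t :=
    ((hasDerivAt_id t).const_sub 1).log p2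
  refine ((d1.sub d2).const_mul (1 / 2)).congr_deriv ?_
  have p3 : (1 - t ^ 2) ≠ 0 := by
    have : (1 - t ^ 2) = (1 + t) * (1 - t) := by ring
    rw [this]; exact mul_ne_zero p1 p2
  field_simp
  ring

lemma artanh_eq' {t : ℝ} (h0 : -1 < t) (h1 : t < 1) :
    artanh t = (1 / 2) * (log (1 + t) - log (1 - t)) := by
  have p1 : (1 + t) ≠ 0 := (by linarith : (0:ℝ) < 1 + t).ne'
  have p2 : (1 - t) ≠ 0 := (by linarith : (0:ℝ) < 1 - t).ne'
  rw [artanh_eq_half_log ⟨h0.le, h1.le⟩, log_div p1 p2]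

lemma le_artanh {t : ℝ} (h0 : 0 ≤ t) (h1 : t < 1) : t ≤ artanh t := by
  have hmono : MonotoneOn (fun x : ℝ => (1 / 2) * (log (1 + x) - log (1 - x)) - x) (Icc 0 t) := by
    have hd : ∀ x ∈ Icc 0 t, HasDerivAt (fun x : ℝ => (1 / 2) * (log (1 + x) - log (1 - x)) - x)
        (1 / (1 - x ^ 2) - 1) x := fun x hx =>
      (artanh_hasDerivAt (by linarith [hx.1]) (hx.2.trans_lt h1)).sub (hasDerivAt_id x)
    refine monotoneOn_of_deriv_nonneg (convex_Icc 0 t) (fun x hx =>
      (hd x hx).continuousAt.continuousWithinAt) (fun x hx =>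
      (hd x (interior_subset hx)).differentiableAt.differentiableWithinAt) fun x hx => ?_
    rw [(hd x (interior_subset hx)).deriv]
    have hx' := interior_subset hx
    have : 0 < 1 - x ^ 2 := by nlinarith [hx'.1, hx'.2]
    rw [sub_nonneg, le_div_iff₀ this]
    nlinarith [sq_nonneg x]
  have := hmono ⟨le_rfl, h0⟩ ⟨h0, le_rfl⟩ h0
  simp only [add_zero, sub_zero, log_one, sub_self, mul_zero] at this
  rw [artanh_eq' (by linarith) h1]
  linarith

lemma artanh_le {t : ℝ} (h0 : 0 ≤ t) (h1 : t < 1) : artanh t * (1 - t ^ 2) ≤ t := by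
  have hmono : MonotoneOn (fun x : ℝ => x / (1 - x ^ 2) -
      (1 / 2) * (log (1 + x) - log (1 - x))) (Icc 0 t) := by
    have hd : ∀ x ∈ Icc 0 t, HasDerivAt (fun x : ℝ => x / (1 - x ^ 2) -
        (1 / 2) * (log (1 + x) - log (1 - x)))
        ((1 * (1 - x ^ 2) - x * (-(2 * x))) / (1 - x ^ 2) ^ 2 - 1 / (1 - x ^ 2)) x := by
      intro x hx
      have hp : 0 < 1 - x ^ 2 := by nlinarith [hx.1, hx.2]
      have d1 : HasDerivAt (fun x : ℝ => 1 - x ^ 2) (-(2 * x)) x := by
        have := (hasDerivAt_pow 2 x).const_sub 1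
        refine this.congr_deriv ?_
        push_cast
        ring
      exact ((hasDerivAt_id x).div d1 hp.ne').sub
        (artanh_hasDerivAt (by linarith [hx.1]) (hx.2.trans_lt h1))
    refine monotoneOn_of_deriv_nonneg (convex_Icc 0 t) (fun x hx =>
      (hd x hx).continuousAt.continuousWithinAt) (fun x hx =>
      (hd x (interior_subset hx)).differentiableAt.differentiableWithinAt) fun x hx => ?_
    rw [(hd x (interior_subset hx)).deriv]
    have hx' := interior_subset hx
    have hp : 0 < 1 - x ^ 2 := by nlinarith [hx'.1, hx'.2]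
    rw [sub_nonneg, div_le_div_iff₀ hp (by positivity)]
    have : (1 * (1 - x ^ 2) - x * (-(2 * x))) * (1 - x ^ 2) - 1 * (1 - x ^ 2) ^ 2 =
        2 * x ^ 2 * (1 - x ^ 2) := by ring
    nlinarith [mul_nonneg (sq_nonneg x) hp.le]
  have := hmono ⟨le_rfl, h0⟩ ⟨h0, le_rfl⟩ h0
  simp only [add_zero, sub_zero, log_one, sub_self, mul_zero, zero_div] at this
  rw [← artanh_eq' (by linarith) h1] at this
  have hp : 0 < 1 - t ^ 2 := by nlinarith
  have h2 : artanh t ≤ t / (1 - t ^ 2) := by linarith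
  rwa [le_div_iff₀ hp] at h2

lemma phi_sub_mono {s t : ℝ} (h0 : 0 ≤ s) (h1 : s ≤ t) (h2 : t ≤ 1) :
    (t ^ 2 - s ^ 2) / 2 ≤ phi t - phi s := by
  have hmono : MonotoneOn (fun x : ℝ => phi x - x ^ 2 / 2) (Icc s t) := by
    have hd : ∀ x ∈ Ioo s t, HasDerivAt (fun x : ℝ => phi x - x ^ 2 / 2) (artanh x - x) x := by
      intro x hx
      have := (hasDerivAt_phi (by linarith [hx.1]) (hx.2.trans_le h2)).sub
        ((hasDerivAt_pow 2 x).div_const 2)
      refine this.congr_deriv ?_
      push_cast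
      ring
    refine monotoneOn_of_deriv_nonneg (convex_Icc s t) ?_ ?_ ?_
    · have := continuous_phi
      fun_prop
    · rw [interior_Icc]
      exact fun x hx => (hd x hx).differentiableAt.differentiableWithinAt
    · rw [interior_Icc]
      intro x hx
      rw [(hd x hx).deriv]
      linarith [le_artanh (h0.trans hx.1.le) (hx.2.trans_le h2)]
  have := hmono ⟨le_rfl, h1⟩ ⟨h1, le_rfl⟩ h1
  simp only at this
  linarith

lemma sq_le_phi {t : ℝ} (h0 : 0 ≤ t) (h1 : t ≤ 1) : t ^ 2 / 2 ≤ phi t := by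
  have := phi_sub_mono le_rfl h0 h1
  rw [phi_zero] at this
  linarith

end Vale.Agent.P322.Ode79
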