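import Mathlib
import Vale.Agent.P322.Ode

namespace Vale.Agent.P322.Ode79

open Finset Real Set

variable {n : ℕ}

/-- the barrier change of variables, in terms of the square of the correlation -/
noncomputable def bq (k u : ℝ) : ℝ := u - k * (1 - u + u * log u)

lemma bq_one (k : ℝ) : bq k 1 = 1 := by unfold bq; simp

lemma hasDerivAt_bq (k : ℝ) {u : ℝ} (hu : 0 < u) : HasDerivAt (bq k) (1 - k * log u) u := by
  have d1 : HasDerivAt (fun u : ℝ => u * log u) (1 * log u + u * u⁻¹) u :=
    (hasDerivAt_id u).mul (hasDerivAt_log hu.ne')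
  have d2 : HasDerivAt (fun u : ℝ => u - k * (1 - u + u * log u))
      (1 - k * (-1 + (1 * log u + u * u⁻¹))) u := by
    have d3 : HasDerivAt (fun u : ℝ => 1 - u) (-1) u := by
      simpa using (hasDerivAt_id u).const_sub 1
    exact (hasDerivAt_id u).sub ((d3.add d1).const_mul k)
  refine d2.congr_deriv ?_
  rw [mul_inv_cancel₀ hu.ne']
  ring

lemma bq_le {k u : ℝ} (hk : 0 ≤ k) (hu : 0 < u) : bq k u ≤ u := by
  unfold bq
  have h := one_sub_inv_le_log_of_pos hu
  have h2 : u * (1 - u⁻¹) ≤ u * log u := mul_le_mul_of_nonneg_left h hu.le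
  rw [mul_sub, mul_inv_cancel₀ hu.ne'] at h2
  have : 0 ≤ k * (1 - u + u * log u) := mul_nonneg hk (by linarith)
  linarith

lemma continuousOn_bq (k : ℝ) {a : ℝ} (ha : 0 < a) : ContinuousOn (bq k) (Icc a 1) := fun _ hx =>
  (hasDerivAt_bq k (ha.trans_le hx.1)).continuousAt.continuousWithinAt

lemma bq_strictMono {k a : ℝ} (hk : 0 ≤ k) (ha : 0 < a) : StrictMonoOn (bq k) (Icc a 1) := by
  refine strictMonoOn_of_deriv_pos (convex_Icc a 1) (continuousOn_bq k ha) ?_
  rw [interior_Icc]
  intro x hx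
  rw [(hasDerivAt_bq k (ha.trans hx.1)).deriv]
  have : log x ≤ 0 := log_nonpos (ha.trans hx.1).le hx.2.le
  nlinarith [mul_nonneg hk (neg_nonneg.2 this)]

lemma bq_root {k a : ℝ} (ha : 0 < a) (ha1 : a < 1) (hr : bq k a ≤ 0) :
    ∃ u, a ≤ u ∧ u < 1 ∧ bq k u = 0 := by
  have := intermediate_value_Icc ha1.le (continuousOn_bq k ha)
  obtain ⟨u, hu, h⟩ := this ⟨hr, by rw [bq_one]; exact zero_le_one⟩
  refine ⟨u, hu.1, lt_of_le_of_ne hu.2 ?_, h⟩
  rintro rfl
  rw [bq_one] at h
  exact one_ne_zero h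

lemma hasDerivAt_phisqrt {q : ℝ → ℝ} {q' x : ℝ} (hq : HasDerivAt q q' x) (h0 : 0 < q x)
    (h1 : q x < 1) :
    HasDerivAt (fun x => phi (√(q x))) (artanh (√(q x)) * (q' / (2 * √(q x)))) x := by
  have d1 := hq.sqrt h0.ne'
  have hs0 : 0 < √(q x) := sqrt_pos.2 h0
  have hs1 : √(q x) < 1 := by
    rw [sqrt_lt' one_pos]; simpa using h1
  have hs2 : -1 < √(q x) := by linarith
  exact HasDerivAt.comp (h₂ := phi) x (hasDerivAt_phi hs2 hs1) d1

lemma one_sub_log_anti {a u : ℝ} (ha : 0 < a) (hu : a ≤ u) : 1 - log u ≤ 1 - log a := by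
  have := log_le_log ha hu
  linarith

/-- The comparison argument for the perspective potential. -/
theorem II_le_phi (f : Cube n → ℤˣ) (a b : Cube n) (ha : f a = 1) (hb : f b = -1) {c E : ℝ}
    (hc : 0 < c) (hE : 0 < E) (hE1 : 2 * E < 1) (hcE : hh (avg (rf f)) - c * log 2 ≤ E)
    (hstar : 2 * E * (1 - log (2 * E)) ≤ 1 - c)
    (N : ∀ r, 0 < r → r < 1 → PBound c (Tn r (rf f))) {r : ℝ} (h0 : 0 < r) (h1 : r ≤ 1) :
    II f r ≤ phi r := by
  have hT := Tn_strict f a b ha hb
  have hav : ∀ r, avg (Tn r (rf f)) = avg (rf f) := fun r => avg_Tn r _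
  have N2 : ∀ r, 0 < r → r < 1 → 2 * II f r ≤ EE (Tn r (rf f)) := by
    intro r hr0 hr1
    have := (N r hr0 hr1).1
    rw [hav] at this
    exact this
  set k : ℝ := 2 * E / c with hk
  have hk0 : 0 < k := by positivity
  have hck : c * k = 2 * E := by rw [hk]; field_simp
  have hc1 : c < 1 := by
    have h1 : 0 < 2 * E * (1 - log (2 * E)) := by
      have : log (2 * E) < 0 := log_neg (by linarith) hE1
      have : 0 < 1 - log (2 * E) := by linarith
      positivity
    linarith
  -- the root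
  have hroot : bq k (2 * E) ≤ 0 := by
    have : c * bq k (2 * E) ≤ 0 := by
      unfold bq
      have e : c * (2 * E - k * (1 - 2 * E + 2 * E * log (2 * E))) =
        2 * E * (c - (1 - 2 * E * (1 - log (2 * E)))) := by
        have : c * (k * (1 - 2 * E + 2 * E * log (2 * E))) =
          2 * E * (1 - 2 * E + 2 * E * log (2 * E)) := by rw [← mul_assoc, hck]
        rw [mul_sub, this]; ring
      rw [e]
      exact mul_nonpos_of_nonneg_of_nonpos (by linarith) (by linarith)
    by_contra hcon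
    push Not at hcon
    nlinarith [mul_pos hc hcon]
  obtain ⟨u2, hu2a, hu2b, hu2⟩ := bq_root (by linarith : 0 < 2 * E) hE1 hroot
  have hu20 : 0 < u2 := by linarith
  set r2 : ℝ := √u2 with hr2
  have hr20 : 0 < r2 := sqrt_pos.2 hu20
  have hr2s : r2 ^ 2 = u2 := sq_sqrt hu20.le
  have hr21 : r2 < 1 := by
    rw [hr2, sqrt_lt' one_pos]; simpa using hu2b
  -- positivity of q
  have hqpos : ∀ x, r2 < x → x ≤ 1 → 0 < bq k (x ^ 2) := by
    intro x hx hx1
    have hx0 : 0 < x := hr20.trans hx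
    have hlt : u2 < x ^ 2 := by rw [← hr2s]; nlinarith
    have := bq_strictMono hk0.le hu20 ⟨le_rfl, hu2b.le⟩ ⟨hlt.le, by nlinarith⟩ hlt
    rwa [hu2] at this
  have hqlt : ∀ x, r2 < x → x < 1 → bq k (x ^ 2) < 1 := by
    intro x hx hx1
    have hx0 : 0 < x := hr20.trans hx
    exact (bq_le hk0.le (by positivity)).trans_lt (by nlinarith)
  set B : ℝ → ℝ := fun x => c * phi (√(bq k (x ^ 2))) + E with hB
  have hcontB : ContinuousOn B (Icc r2 1) := by
    have c1 : ContinuousOn (fun x : ℝ => bq k (x ^ 2)) (Icc r2 1) := by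
      have : MapsTo (fun x : ℝ => x ^ 2) (Icc r2 1) (Icc u2 1) := by
        intro x hx
        have hx0 : 0 < x := hr20.trans_le hx.1
        refine ⟨?_, ?_⟩
        · change u2 ≤ x ^ 2
          rw [← hr2s]; nlinarith [hx.1]
        · change x ^ 2 ≤ 1
          nlinarith [hx.2]
      exact (continuousOn_bq k hu20).comp (by fun_prop) this
    have c2 : ContinuousOn (fun x : ℝ => phi (√(bq k (x ^ 2)))) (Icc r2 1) :=
      continuous_phi.comp_continuousOn (continuous_sqrt.comp_continuousOn c1)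
    exact (c2.const_smul c).add continuousOn_const
  have hderB : ∀ x, r2 < x → x < 1 → HasDerivAt B
      (c * (artanh (√(bq k (x ^ 2))) *
        (((1 - k * log (x ^ 2)) * (2 * x)) / (2 * √(bq k (x ^ 2)))))) x := by
    intro x hx hx1
    have hx0 : 0 < x := hr20.trans hx
    have d1 : HasDerivAt (fun x : ℝ => x ^ 2) (2 * x) x := by
      refine (hasDerivAt_pow 2 x).congr_deriv ?_
      push_cast
      ring
    have d2 : HasDerivAt (fun x : ℝ => bq k (x ^ 2)) ((1 - k * log (x ^ 2)) * (2 * x)) x :=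
      HasDerivAt.comp (h₂ := bq k) x (hasDerivAt_bq k (by positivity)) d1
    exact ((hasDerivAt_phisqrt d2 (hqpos x hx hx1.le) (hqlt x hx hx1)).const_mul c).add_const E
  have hmain : ∀ x, r2 ≤ x → x ≤ 1 → II f x - B x ≤ 0 := by
    intro x hx hx1
    refine compare_on (D := fun x => II f x - B x) (a := r2)
      ((continuous_II f).continuousOn.sub hcontB)
      (fun r hr0 hr1 => (hasDerivAt_II f (hr20.trans hr0).ne'
        (hT r (hr20.trans hr0) hr1)).sub (hderB r hr0 hr1)) ?_ ?_ hx hx1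
    · intro y hy0 hy1 hD
      have hy : 0 < y := hr20.trans hy0
      have hq0 := hqpos y hy0 hy1.le
      have hq1 := hqlt y hy0 hy1
      set q := bq k (y ^ 2) with hq
      set t := √q with ht
      have ht0 : 0 < t := sqrt_pos.2 hq0
      have ht1 : t < 1 := by rw [ht, sqrt_lt' one_pos]; simpa using hq1
      have ht2 : t ^ 2 = q := sq_sqrt hq0.le
      have hD' : c * phi t + E < II f y := by
        have : 0 < II f y - (c * phi t + E) := hD
        linarith
      have hN := (N y hy hy1).2 t ht0.le ht1 (by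
        unfold II at hD'
        unfold phi at hD'
        have e : c * (log 2 - hh t) = c * log 2 - c * hh t := by ring
        rw [e] at hD'
        linarith)
      rw [hav] at hN
      have hII : hh (avg (rf f)) - avg (fun x => hh (Tn y (rf f) x)) = II f y := rfl
      rw [hII] at hN
      have hEE : 2 * E + c * (t * artanh t) ≤ EE (Tn y (rf f)) := by nlinarith
      have hA := le_artanh ht0.le ht1
      have hA' := artanh_le ht0.le ht1
      have hA0 : 0 ≤ artanh t := ht0.le.trans hA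
      -- key inequality
      have hy2 : (0 : ℝ) < y ^ 2 := by positivity
      have hqle : q ≤ y ^ 2 := bq_le hk0.le hy2
      have key : y ^ 2 * (1 - k * log (y ^ 2)) = q + k * (1 - y ^ 2) := by
        rw [hq]; unfold bq; ring
      have hkey : artanh t * (y ^ 2 * (1 - k * log (y ^ 2))) ≤ t * (k + t * artanh t) := by
        rw [key, ← ht2]
        have h3 : artanh t * (1 - y ^ 2) ≤ artanh t * (1 - t ^ 2) :=
          mul_le_mul_of_nonneg_left (by rw [ht2]; linarith) hA0
        have h4 : k * (artanh t * (1 - y ^ 2)) ≤ k * t :=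
          mul_le_mul_of_nonneg_left (h3.trans hA') hk0.le
        nlinarith
      have hfin : c * (artanh t * (((1 - k * log (y ^ 2)) * (2 * y)) / (2 * t))) ≤
          y⁻¹ * (2 * E + c * (t * artanh t)) := by
        rw [inv_mul_eq_div, le_div_iff₀ hy]
        have e : c * (artanh t * (((1 - k * log (y ^ 2)) * (2 * y)) / (2 * t))) * y =
            c * ((artanh t * (y ^ 2 * (1 - k * log (y ^ 2)))) / t) := by
          field_simp
        rw [e, ← hck]
        have h5 : (artanh t * (y ^ 2 * (1 - k * log (y ^ 2)))) / t ≤ k + t * artanh t := by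
          rw [div_le_iff₀ ht0]; linarith
        have := mul_le_mul_of_nonneg_left h5 hc.le
        linarith
      have hlast : y⁻¹ * (2 * E + c * (t * artanh t)) ≤ y⁻¹ * EE (Tn y (rf f)) :=
        mul_le_mul_of_nonneg_left hEE (by positivity)
      linarith
    · change II f 1 - (c * phi (√(bq k (1 ^ 2))) + E) ≤ 0
      rw [II_one, one_pow, bq_one, sqrt_one, phi_one]
      linarith
  by_cases hr : r2 ≤ r
  · have h2 := hmain r hr h1
    have h3 : II f r ≤ c * phi (√(bq k (r ^ 2))) + E := by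
      have : II f r - (c * phi (√(bq k (r ^ 2))) + E) ≤ 0 := h2
      linarith
    refine h3.trans ?_
    set q := bq k (r ^ 2) with hq
    have hr2' : (0 : ℝ) < r ^ 2 := by positivity
    have hu : u2 ≤ r ^ 2 := by rw [← hr2s]; nlinarith
    have hq0 : 0 ≤ q := by
      rcases hr.lt_or_eq with h | h
      · exact (hqpos r h h1).le
      · rw [hq, ← h, hr2s, hu2]
    have hqle : q ≤ r ^ 2 := bq_le hk0.le hr2'
    have hs : √q ≤ r := by
      rw [sqrt_le_left h0.le]; exact hqle
    have h4 := phi_sub_mono (sqrt_nonneg q) hs h1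
    rw [sq_sqrt hq0] at h4
    have h5 := sq_le_phi h0.le h1
    have h6 : (1 - c) * (r ^ 2 / 2) ≤ (1 - c) * phi r :=
      mul_le_mul_of_nonneg_left h5 (by linarith)
    have h7 : c * ((r ^ 2 - q) / 2) ≤ c * (phi r - phi (√q)) :=
      mul_le_mul_of_nonneg_left h4 hc.le
    have h8 : c * (r ^ 2 - q) = 2 * E * (1 - r ^ 2 * (1 - log (r ^ 2))) := by
      rw [hq, ← hck]; unfold bq; ring
    have h9 : 2 * E * (1 - log (r ^ 2)) ≤ 1 - c := by
      refine le_trans ?_ hstar
      exact mul_le_mul_of_nonneg_left (one_sub_log_anti (by linarith) (hu2a.trans hu))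
        (by linarith)
    have h10 : r ^ 2 * (2 * E * (1 - log (r ^ 2))) ≤ r ^ 2 * (1 - c) :=
      mul_le_mul_of_nonneg_left h9 hr2'.le
    nlinarith
  · push Not at hr
    have h2 := II_ratio f hT N2 h0 hr.le hr21.le
    have h3 : II f r2 ≤ E := by
      have h4 : II f r2 - (c * phi (√(bq k (r2 ^ 2))) + E) ≤ 0 := hmain r2 le_rfl hr21.le
      rw [hr2s, hu2, sqrt_zero, phi_zero] at h4
      linarith
    have h5 : II f r * u2 ≤ u2 * (r ^ 2 / 2) := by
      rw [hr2s] at h2
      refine h2.trans ?_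
      have : II f r2 * r ^ 2 ≤ E * r ^ 2 := mul_le_mul_of_nonneg_right h3 (sq_nonneg r)
      nlinarith [sq_nonneg r]
    have h6 : II f r ≤ r ^ 2 / 2 := by
      rw [mul_comm] at h5
      exact le_of_mul_le_mul_left h5 hu20
    exact h6.trans (sq_le_phi h0.le h1)

/-- When `h(m) ≤ 1/2` the logarithmic Sobolev inequality suffices. -/
theorem II_le_phi_of_small (f : Cube n → ℤˣ) (a b : Cube n) (ha : f a = 1) (hb : f b = -1)
    (hm : hh (avg (rf f)) ≤ 1 / 2)
    (N2 : ∀ r, 0 < r → r < 1 → 2 * II f r ≤ EE (Tn r (rf f))) {r : ℝ} (h0 : 0 < r) (h1 : r ≤ 1) :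
    II f r ≤ phi r := by
  have h2 := II_ratio f (Tn_strict f a b ha hb) N2 h0 h1 le_rfl
  rw [II_one] at h2
  have h3 := sq_le_phi h0.le h1
  nlinarith [sq_nonneg r]

end Vale.Agent.P322.Ode79
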