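import Mathlib
import Vale.Agent.P322.Reduction

/-! Basic calculus for `tanh`, `artanh`, and a single-crossing lemma. -/

namespace Vale.Agent.P322

open Real Set

lemma hasDerivAt_tanh (u : ℝ) : HasDerivAt tanh (1 / cosh u ^ 2) u := by
  have hc : cosh u ≠ 0 := (cosh_pos u).ne'
  have h := (hasDerivAt_sinh u).div (hasDerivAt_cosh u) hc
  have e : (tanh : ℝ → ℝ) = fun x => sinh x / cosh x := by
    funext x; exact tanh_eq_sinh_div_cosh x
  rw [e]
  refine h.congr_deriv ?_
  have := cosh_sq u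
  field_simp
  linarith

lemma continuous_tanh' : Continuous (tanh : ℝ → ℝ) :=
  continuous_iff_continuousAt.2 fun u => (hasDerivAt_tanh u).continuousAt

lemma hasDerivAt_artanh {t : ℝ} (h0 : -1 < t) (h1 : t < 1) :
    HasDerivAt artanh (1 / (1 - t ^ 2)) t := by
  have p1 : (0:ℝ) < 1 + t := by linarith
  have p2 : (0:ℝ) < 1 - t := by linarith
  have e : artanh =ᶠ[nhds t] fun x => 1 / 2 * (log (1 + x) - log (1 - x)) := by
    filter_upwards [Ioo_mem_nhds h0 h1] with x hx
    have q1 : (0:ℝ) < 1 + x := by linarith [hx.1]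
    have q2 : (0:ℝ) < 1 - x := by linarith [hx.2]
    rw [artanh_eq_half_log ⟨hx.1.le, hx.2.le⟩, log_div q1.ne' q2.ne']
  have d1 : HasDerivAt (fun x : ℝ => log (1 + x)) (1 / (1 + t)) t :=
    ((hasDerivAt_id t).const_add 1).log p1.ne'
  have d2 : HasDerivAt (fun x : ℝ => log (1 - x)) (-1 / (1 - t)) t :=
    ((hasDerivAt_id t).const_sub 1).log p2.ne'
  have h := (d1.sub d2).const_mul (1 / 2 : ℝ)
  refine (h.congr_of_eventuallyEq e).congr_deriv ?_
  have : 1 - t ^ 2 = (1 + t) * (1 - t) := by ring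
  rw [this]
  field_simp
  ring

lemma tanh_pos' {u : ℝ} (hu : 0 < u) : 0 < tanh u := by
  rw [tanh_eq_sinh_div_cosh]
  exact div_pos (sinh_pos_iff.2 hu) (cosh_pos u)

/-- If the derivative changes sign at most once, from plus to minus, then the function is
at least the smaller endpoint value. -/
lemma nonneg_of_single_crossing {F F' : ℝ → ℝ} {a b : ℝ}
    (hF : ∀ z ∈ Icc a b, HasDerivAt F (F' z) z)
    (hs : ∀ y ∈ Ioo a b, 0 ≤ F' y → ∀ z ∈ Ioo a y, 0 ≤ F' z)
    (ha : 0 ≤ F a) (hb : 0 ≤ F b) : ∀ z ∈ Icc a b, 0 ≤ F z := by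
  intro z hz
  rcases eq_or_lt_of_le hz.1 with h | h1
  · rw [← h]; exact ha
  rcases eq_or_lt_of_le hz.2 with h | h2
  · rw [h]; exact hb
  by_cases hp : 0 ≤ F' z
  · have hm : MonotoneOn F (Icc a z) := by
      refine monotoneOn_of_deriv_nonneg (convex_Icc a z) ?_ ?_ ?_
      · intro x hx
        exact (hF x ⟨hx.1, hx.2.trans hz.2⟩).continuousAt.continuousWithinAt
      · rw [interior_Icc]
        intro x hx
        exact (hF x ⟨hx.1.le, hx.2.le.trans hz.2⟩).differentiableAt.differentiableWithinAt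
      · rw [interior_Icc]
        intro x hx
        rw [(hF x ⟨hx.1.le, hx.2.le.trans hz.2⟩).deriv]
        exact hs z ⟨h1, h2⟩ hp x hx
    exact ha.trans (hm ⟨le_rfl, h1.le⟩ ⟨h1.le, le_rfl⟩ h1.le)
  · have hn : ∀ x ∈ Ioo z b, F' x ≤ 0 := by
      intro x hx
      by_contra hc
      push Not at hc
      exact hp (hs x ⟨h1.trans hx.1, hx.2⟩ hc.le z ⟨h1, hx.1⟩)
    have hm : AntitoneOn F (Icc z b) := by
      refine antitoneOn_of_deriv_nonpos (convex_Icc z b) ?_ ?_ ?_
      · intro x hx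
        exact (hF x ⟨hz.1.trans hx.1, hx.2⟩).continuousAt.continuousWithinAt
      · rw [interior_Icc]
        intro x hx
        exact (hF x ⟨hz.1.trans hx.1.le, hx.2.le⟩).differentiableAt.differentiableWithinAt
      · rw [interior_Icc]
        intro x hx
        rw [(hF x ⟨hz.1.trans hx.1.le, hx.2.le⟩).deriv]
        exact hn x hx
    exact hb.trans (hm ⟨le_rfl, h2.le⟩ ⟨h2.le, le_rfl⟩ h2.le)

lemma monotoneOn_of_hasDerivAt {F F' : ℝ → ℝ} {s : Set ℝ} (hs : Convex ℝ s)
    (hF : ∀ z ∈ s, HasDerivAt F (F' z) z) (hp : ∀ z ∈ interior s, 0 ≤ F' z) :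
    MonotoneOn F s := by
  refine monotoneOn_of_deriv_nonneg hs ?_ ?_ ?_
  · intro x hx
    exact (hF x hx).continuousAt.continuousWithinAt
  · intro x hx
    exact (hF x (interior_subset hx)).differentiableAt.differentiableWithinAt
  · intro x hx
    rw [(hF x (interior_subset hx)).deriv]
    exact hp x hx

lemma antitoneOn_of_hasDerivAt {F F' : ℝ → ℝ} {s : Set ℝ} (hs : Convex ℝ s)
    (hF : ∀ z ∈ s, HasDerivAt F (F' z) z) (hp : ∀ z ∈ interior s, F' z ≤ 0) :
    AntitoneOn F s := by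
  refine antitoneOn_of_deriv_nonpos hs ?_ ?_ ?_
  · intro x hx
    exact (hF x hx).continuousAt.continuousWithinAt
  · intro x hx
    exact (hF x (interior_subset hx)).differentiableAt.differentiableWithinAt
  · intro x hx
    rw [(hF x (interior_subset hx)).deriv]
    exact hp x hx

lemma le_artanh {t : ℝ} (h0 : 0 ≤ t) (h1 : t < 1) : t ≤ artanh t := by
  have hm : MonotoneOn (fun x => artanh x - x) (Ico 0 1) := by
    refine monotoneOn_of_hasDerivAt (F' := fun x => 1 / (1 - x ^ 2) - 1) (convex_Ico 0 1) ?_ ?_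
    · intro x hx
      exact (hasDerivAt_artanh (by linarith [hx.1]) hx.2).sub (hasDerivAt_id x)
    · rw [interior_Ico]
      intro x hx
      have h2 : 0 < 1 - x ^ 2 := by nlinarith [hx.1, hx.2]
      rw [sub_nonneg, le_div_iff₀ h2]
      nlinarith [sq_nonneg x]
  have := hm ⟨le_rfl, one_pos⟩ ⟨h0, h1⟩ h0
  simp only [artanh_zero] at this
  linarith

end Vale.Agent.P322
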