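import Mathlib
import Vale.Agent.P322.Iface
import Vale.Agent.P322.Hyp

/-!
`CFacts.star2` from the one-variable inequality `star3`.
-/

namespace Vale.Agent.P322

namespace Star2

open Real Set

lemma p0_lb : (0.7213 : ℝ) < p0 := by
  have h := Real.log_two_lt_d9
  have h2 := Real.log_two_gt_d9
  unfold p0
  rw [lt_div_iff₀ (by linarith)]
  nlinarith

lemma p0_ub : p0 < (0.7214 : ℝ) := by
  have h := Real.log_two_lt_d9
  have h2 := Real.log_two_gt_d9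
  unfold p0
  rw [div_lt_iff₀ (by linarith)]
  nlinarith

noncomputable def ff (x : ℝ) : ℝ := 1 + (1 - p0) * x - x ^ 2 / 10

lemma cc_eq (m : ℝ) : cc m = (1 - m ^ 2) * ff (m ^ 2) := by
  unfold cc ff; ring

lemma ff_pos {x : ℝ} (h0 : 0 ≤ x) (h1 : x ≤ 1) : 0 < ff x := by
  have := p0_ub
  unfold ff
  nlinarith [mul_nonneg (by linarith : (0:ℝ) ≤ 1 - p0) h0]

lemma one_le_ff {x : ℝ} (h0 : 0 ≤ x) (h1 : x ≤ 1) : 1 ≤ ff x := by
  have := p0_ub
  unfold ff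
  nlinarith [mul_nonneg (by linarith : (0:ℝ) ≤ 0.9 - p0) h0, mul_nonneg h0 (by linarith : 0 ≤ 1 - x)]

lemma chi_eq (m : ℝ) : chi m = (1 - m) ^ 2 *
    (1 + (2 - 2 * p0) * m + (3 - 3 * p0) * m ^ 2 - 4 / 10 * m ^ 3 - 5 / 10 * m ^ 4) := by
  unfold chi cc ccd; ring

lemma chi_nn {m : ℝ} (h0 : 0 ≤ m) (h1 : m ≤ 1) : 0 ≤ chi m := by
  rw [chi_eq]
  apply mul_nonneg (sq_nonneg _)
  have := p0_ub
  have m2 : m ^ 2 ≤ 1 := by nlinarith
  have m3 : m ^ 3 ≤ 1 := by nlinarith [sq_nonneg m]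
  have m4 : m ^ 4 ≤ 1 := by nlinarith [sq_nonneg m, sq_nonneg (m ^ 2)]
  nlinarith [mul_nonneg (by linarith : (0:ℝ) ≤ 1 - p0) h0,
    mul_nonneg (by linarith : (0:ℝ) ≤ 1 - p0) (sq_nonneg m)]

lemma chi_le {m : ℝ} (h0 : 0 ≤ m) (h1 : m ≤ 1) : chi m ≤ 1 - m := by
  rw [chi_eq]
  have hp := p0_lb
  have e : 1 - m - (1 - m) ^ 2 *
    (1 + (2 - 2 * p0) * m + (3 - 3 * p0) * m ^ 2 - 4 / 10 * m ^ 3 - 5 / 10 * m ^ 4) =
    (1 - m) * m * (1 - (2 - 2 * p0) + ((2 - 2 * p0) - (3 - 3 * p0)) * m + (3 - 3 * p0 + 4 / 10) * m ^ 2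
      + (5 / 10 - 4 / 10) * m ^ 3 - 5 / 10 * m ^ 4) := by ring
  have h : 0 ≤ (1 - m) * m * (1 - (2 - 2 * p0) + ((2 - 2 * p0) - (3 - 3 * p0)) * m +
      (3 - 3 * p0 + 4 / 10) * m ^ 2 + (5 / 10 - 4 / 10) * m ^ 3 - 5 / 10 * m ^ 4) := by
    apply mul_nonneg (mul_nonneg (by linarith) h0)
    have hp2 := p0_ub
    have a1 : ((2 - 2 * p0) - (3 - 3 * p0)) * m ≥ -0.2787 * m := by nlinarith
    have a2 : (3 - 3 * p0 + 4 / 10) * m ^ 2 ≥ 1.2 * m ^ 2 := by nlinarith [sq_nonneg m]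
    have a3 : 0 ≤ m ^ 3 := by positivity
    have a4 : m ^ 4 ≤ m ^ 2 := by nlinarith [sq_nonneg m, mul_nonneg (sq_nonneg m) (mul_nonneg (by linarith : 0 ≤ 1 - m) (by linarith : 0 ≤ 1 + m))]
    nlinarith [sq_nonneg m]
  linarith [e]

/-- averaged `c` as a function of `w = d²` -/
noncomputable def Cb (v w : ℝ) : ℝ := 1 - p0 * (v + w) - (11 / 10 - p0) * (v ^ 2 + 6 * v * w + w ^ 2)
  + (v ^ 3 + 15 * v ^ 2 * w + 15 * v * w ^ 2 + w ^ 3) / 10

noncomputable def ct (v w : ℝ) : ℝ := p0 + (11 / 10 - p0) * (6 * v + 2 * w) -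
  (15 * v ^ 2 + 30 * v * w + 3 * w ^ 2) / 10

lemma Cb_eq (m d : ℝ) : (cc (m + d) + cc (m - d)) / 2 = Cb (m ^ 2) (d ^ 2) := by
  unfold cc Cb; ring

lemma Cb_zero (m : ℝ) : Cb (m ^ 2) 0 = cc m := by unfold Cb cc; ring

lemma hasDerivAt_Cb (v w : ℝ) : HasDerivAt (fun w => Cb v w) (-ct v w) w := by
  have h : (fun w => Cb v w) = fun w => (1 - p0 * v - (11 / 10 - p0) * v ^ 2 + v ^ 3 / 10) +
      ((-p0 - (11 / 10 - p0) * (6 * v) + 15 * v ^ 2 / 10) * w +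
      ((-(11 / 10 - p0) + 15 * v / 10) * w ^ 2 + (1 / 10) * w ^ 3)) := by
    funext w; unfold Cb; ring
  rw [h]
  have d1 := (hasDerivAt_id w).const_mul (-p0 - (11 / 10 - p0) * (6 * v) + 15 * v ^ 2 / 10)
  have d2 := (hasDerivAt_pow 2 w).const_mul (-(11 / 10 - p0) + 15 * v / 10)
  have d3 := (hasDerivAt_pow 3 w).const_mul (1 / 10 : ℝ)
  refine ((d1.add (d2.add d3)).const_add _).congr_deriv ?_
  unfold ct
  push_cast
  ring

lemma cc_pos {x : ℝ} (h0 : -1 < x) (h1 : x < 1) : 0 < cc x := by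
  rw [cc_eq]
  exact mul_pos (by nlinarith) (ff_pos (sq_nonneg x) (by nlinarith))

lemma cc_nonneg {x : ℝ} (h0 : -1 ≤ x) (h1 : x ≤ 1) : 0 ≤ cc x := by
  rw [cc_eq]
  exact mul_nonneg (by nlinarith) (ff_pos (sq_nonneg x) (by nlinarith)).le

lemma Cb_pos {m w : ℝ} (h0 : 0 < m) (h1 : m < 1) (hw0 : 0 ≤ w) (hw1 : w ≤ (1 - m) ^ 2) :
    0 < Cb (m ^ 2) w := by
  have hs := Real.sq_sqrt hw0
  have hs0 := Real.sqrt_nonneg w
  have hs1 : √w ≤ 1 - m := by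
    apply abs_le_of_sq_le_sq' _ (by linarith) |>.2
    rw [hs]; exact hw1
  rw [← hs, ← Cb_eq]
  have a := cc_nonneg (x := m + √w) (by linarith) (by linarith)
  have b := cc_pos (x := m - √w) (by linarith) (by linarith)
  linarith

/-- lower bound of `ct` -/
lemma ct_lb {m w : ℝ} (h0 : 0 ≤ m) (h1 : m ≤ 1) (hw0 : 0 ≤ w) (hw1 : w ≤ (1 - m) ^ 2) :
    0.72 ≤ ct (m ^ 2) w := by
  have hp := p0_lb
  have hp2 := p0_ub
  have hs := Real.sq_sqrt hw0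
  have hs0 := Real.sqrt_nonneg w
  have hs1 : √w ≤ 1 - m := by
    apply abs_le_of_sq_le_sq' _ (by linarith) |>.2
    rw [hs]; exact hw1
  set d := √w with hd
  rw [← hs]
  unfold ct
  have hmd : m * d ≤ 1 / 4 := by nlinarith [sq_nonneg (m - d)]
  have hmd0 : 0 ≤ m * d := mul_nonneg h0 hs0
  have hmd2 : m ^ 2 * d ^ 2 ≤ 1 / 4 * (m * d) := by nlinarith
  have hm4 : m ^ 4 ≤ m ^ 2 := by
    nlinarith [sq_nonneg m, mul_nonneg (sq_nonneg m) (mul_nonneg (by linarith : 0 ≤ 1 - m) (by linarith : 0 ≤ 1 + m))]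
  have hd1 : d ≤ 1 := by linarith
  have hd4 : d ^ 4 ≤ d ^ 2 := by
    nlinarith [sq_nonneg d, mul_nonneg (sq_nonneg d) (mul_nonneg (by linarith : 0 ≤ 1 - d) (by linarith : 0 ≤ 1 + d))]
  have key : (11 / 10 - p0) * (6 * m ^ 2 + 2 * d ^ 2) ≥ 0.378 * (6 * m ^ 2 + 2 * d ^ 2) := by
    nlinarith [sq_nonneg m, sq_nonneg d]
  nlinarith [sq_nonneg (m - d), sq_nonneg m, sq_nonneg d]

lemma Nmono {m k : ℝ} (h0 : 0 < m) (h1 : m < 1) (hk0 : 0 ≤ k) (hk1 : k ≤ 7 / 10 * (1 - m)) :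
    AntitoneOn (fun w => Cb (m ^ 2) w - k * ct (m ^ 2) w * ((1 + m) ^ 2 - w))
      (Icc 0 ((1 - m) ^ 2)) := by
  have hp := p0_lb
  have hp2 := p0_ub
  refine antitoneOn_of_hasDerivAt (F' := fun w => -ct (m ^ 2) w -
    (k * (2 * (11 / 10 - p0) - 3 * m ^ 2 - 6 / 10 * w) * ((1 + m) ^ 2 - w) +
      k * ct (m ^ 2) w * (-1))) (convex_Icc _ _) ?_ ?_
  · intro w _
    have d1 := hasDerivAt_Cb (m ^ 2) w
    have d2 : HasDerivAt (fun w => k * ct (m ^ 2) w)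
        (k * (2 * (11 / 10 - p0) - 3 * m ^ 2 - 6 / 10 * w)) w := by
      have h : (fun w => k * ct (m ^ 2) w) = fun w => k * (p0 + (11 / 10 - p0) * (6 * m ^ 2) -
          15 * m ^ 4 / 10) + (k * (2 * (11 / 10 - p0) - 3 * m ^ 2) * w + (-k * 3 / 10) * w ^ 2) := by
        funext w; unfold ct; ring
      rw [h]
      have a1 := (hasDerivAt_id w).const_mul (k * (2 * (11 / 10 - p0) - 3 * m ^ 2))
      have a2 := (hasDerivAt_pow 2 w).const_mul (-k * 3 / 10)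
      refine ((a1.add a2).const_add _).congr_deriv ?_
      push_cast
      ring
    have d3 : HasDerivAt (fun w : ℝ => (1 + m) ^ 2 - w) (-1) w := by
      simpa using (hasDerivAt_id w).const_sub ((1 + m) ^ 2)
    exact d1.sub (d2.mul d3)
  · rw [interior_Icc]
    intro w hw
    have hw0 : 0 ≤ w := hw.1.le
    have hw1 : w ≤ (1 - m) ^ 2 := hw.2.le
    have hc := ct_lb h0.le h1.le hw0 hw1
    have hkk : k ≤ 1 := by linarith
    -- lower bound of the derivative of ct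
    have hA : 0 ≤ (1 + m) ^ 2 - w := by nlinarith
    have hD : -(3 * m ^ 2 - 0.75 + 0.6 * (1 - m) ^ 2) ≤
        2 * (11 / 10 - p0) - 3 * m ^ 2 - 6 / 10 * w := by nlinarith
    rcases le_total 0 (2 * (11 / 10 - p0) - 3 * m ^ 2 - 6 / 10 * w) with hs | hs
    · have := mul_nonneg (mul_nonneg hk0 hs) hA
      nlinarith
    · have e1 : -(k * (2 * (11 / 10 - p0) - 3 * m ^ 2 - 6 / 10 * w) * ((1 + m) ^ 2 - w)) ≤
          7 / 10 * (1 - m) * (3 * m ^ 2 - 0.75 + 0.6 * (1 - m) ^ 2) * (1 + m) ^ 2 := by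
        have b1 : -(2 * (11 / 10 - p0) - 3 * m ^ 2 - 6 / 10 * w) ≤
          3 * m ^ 2 - 0.75 + 0.6 * (1 - m) ^ 2 := by linarith
        have b2 : 0 ≤ -(2 * (11 / 10 - p0) - 3 * m ^ 2 - 6 / 10 * w) := by linarith
        have b3 : (1 + m) ^ 2 - w ≤ (1 + m) ^ 2 := by linarith
        calc -(k * (2 * (11 / 10 - p0) - 3 * m ^ 2 - 6 / 10 * w) * ((1 + m) ^ 2 - w))
            = k * (-(2 * (11 / 10 - p0) - 3 * m ^ 2 - 6 / 10 * w)) * ((1 + m) ^ 2 - w) := by ring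
          _ ≤ (7 / 10 * (1 - m)) * (3 * m ^ 2 - 0.75 + 0.6 * (1 - m) ^ 2) * (1 + m) ^ 2 := by
              apply mul_le_mul (mul_le_mul hk1 b1 b2 (by linarith)) b3 hA
              exact mul_nonneg (by linarith) (b2.trans b1)
      have e2 : 7 / 10 * (1 - m) * (3 * m ^ 2 - 0.75 + 0.6 * (1 - m) ^ 2) * (1 + m) ^ 2 ≤
          0.72 * (1 - 7 / 10 * (1 - m)) := by
        nlinarith [mul_nonneg h0.le (sq_nonneg (m ^ 2 - 0.6084)), sq_nonneg (m ^ 2 - 0.6084),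
          mul_nonneg h0.le (sq_nonneg (m - 0.78)), sq_nonneg (m - 0.78),
          mul_nonneg (mul_nonneg h0.le h0.le) (sq_nonneg (m - 0.78)),
          mul_nonneg (mul_nonneg (mul_nonneg h0.le h0.le) h0.le) (sq_nonneg (m - 0.78)),
          mul_nonneg (sub_nonneg.2 h1.le) (sq_nonneg (m - 0.78)),
          mul_nonneg (mul_nonneg h0.le (sub_nonneg.2 h1.le)) (sq_nonneg (m - 0.78)),
          mul_nonneg (mul_nonneg (mul_nonneg h0.le h0.le) (sub_nonneg.2 h1.le))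
            (sq_nonneg (m - 0.78))]
      have e3 : 0.72 * (1 - 7 / 10 * (1 - m)) ≤ ct (m ^ 2) w * (1 - k) := by
        apply mul_le_mul hc (by linarith) (by linarith) (by linarith)
      nlinarith

/-- `star2` for `m = 0` -/
lemma star2_zero {d : ℝ} (hd0 : 0 < d) (hd1 : d < 1) :
    7 / 10 * chi 0 * log (cc 0 / ((cc (0 + d) + cc (0 - d)) / 2)) ≤
      -log (1 - d ^ 2 / (1 + 0) ^ 2) := by
  have hchi : chi 0 = 1 := by unfold chi cc ccd; norm_num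
  have hcc : cc 0 = 1 := by unfold cc; norm_num
  have e : (cc (0 + d) + cc (0 - d)) / 2 = (1 - d ^ 2) * ff (d ^ 2) := by
    rw [← cc_eq]; unfold cc; ring
  have h1 : 0 < 1 - d ^ 2 := by nlinarith
  have h2 : 0 < ff (d ^ 2) := ff_pos (sq_nonneg d) (by nlinarith)
  rw [hchi, hcc, e, one_div, log_inv, log_mul h1.ne' h2.ne']
  have h3 : 0 ≤ log (ff (d ^ 2)) := log_nonneg (one_le_ff (sq_nonneg d) (by nlinarith))
  have h4 : log (1 - d ^ 2) ≤ 0 := log_nonpos h1.le (by nlinarith [sq_nonneg d])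
  have e5 : (1 : ℝ) - d ^ 2 / (1 + 0) ^ 2 = 1 - d ^ 2 := by norm_num
  rw [e5]
  linarith

/-- `star2` from `star3` -/
theorem star2_of (h3 : ∀ m : ℝ, 0 < m → m < 1 →
      7 / 10 * chi m * log ((1 + m) * ff (m ^ 2) / (2 * m * ff ((2 * m - 1) ^ 2))) ≤
        log ((1 + m) ^ 2 / (4 * m))) :
    ∀ m d : ℝ, 0 ≤ m → 0 < d → d < 1 - m →
    7 / 10 * chi m * log (cc m / ((cc (m + d) + cc (m - d)) / 2)) ≤
      -log (1 - d ^ 2 / (1 + m) ^ 2) := by
  intro m d hm hd0 hd1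
  rcases hm.eq_or_lt with h | hm0
  · rw [← h] at hd1 ⊢
    exact star2_zero hd0 (by linarith)
  have hm1 : m < 1 := by linarith
  set k := 7 / 10 * chi m with hk
  have hk0 : 0 ≤ k := mul_nonneg (by norm_num) (chi_nn hm hm1.le)
  have hk1 : k ≤ 7 / 10 * (1 - m) := by
    rw [hk]; linarith [chi_le hm hm1.le]
  have hC : 0 < cc m := cc_pos (by linarith) hm1
  set A := (1 + m) ^ 2 with hA
  have hApos : 0 < A := by positivity
  have hwA : ∀ w, w ≤ (1 - m) ^ 2 → 0 < A - w := by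
    intro w hw; nlinarith
  have hN := Nmono hm0 hm1 hk0 hk1
  -- the function `F`
  have key := nonneg_of_single_crossing
    (F := fun w => -log (1 - w / A) + k * (log (Cb (m ^ 2) w) - log (cc m)))
    (F' := fun w => -(-(1 / A) / (1 - w / A)) + k * (-ct (m ^ 2) w / Cb (m ^ 2) w))
    (a := 0) (b := (1 - m) ^ 2) ?_ ?_ ?_ ?_ (d ^ 2) ⟨sq_nonneg d, by nlinarith⟩
  · have hCb : 0 < Cb (m ^ 2) (d ^ 2) := Cb_pos hm0 hm1 (sq_nonneg d) (by nlinarith)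
    rw [Cb_eq, log_div hC.ne' hCb.ne']
    linarith [mul_sub k (log (cc m)) (log (Cb (m ^ 2) (d ^ 2))),
      mul_sub k (log (Cb (m ^ 2) (d ^ 2))) (log (cc m))]
  · intro w hw
    have h1 : (1 : ℝ) - w / A ≠ 0 := by
      have := hwA w hw.2
      have : 0 < 1 - w / A := by
        rw [sub_pos, div_lt_one hApos]; linarith
      exact this.ne'
    have hCb : 0 < Cb (m ^ 2) w := Cb_pos hm0 hm1 hw.1 hw.2
    have d1 : HasDerivAt (fun w : ℝ => 1 - w / A) (-(1 / A)) w :=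
      ((hasDerivAt_id w).div_const A).const_sub 1
    have d2 := (hasDerivAt_Cb (m ^ 2) w).log hCb.ne'
    exact (d1.log h1).neg.add ((d2.sub_const (log (cc m))).const_mul k)
  · -- single crossing
    have hF : ∀ w, 0 ≤ w → w ≤ (1 - m) ^ 2 →
        -(-(1 / A) / (1 - w / A)) + k * (-ct (m ^ 2) w / Cb (m ^ 2) w) =
        (Cb (m ^ 2) w - k * ct (m ^ 2) w * (A - w)) / ((A - w) * Cb (m ^ 2) w) := by
      intro w hw0 hw1
      have h1 := (hwA w hw1).ne'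
      have h2 := (Cb_pos hm0 hm1 hw0 hw1).ne'
      have h4 : 1 - w / A = (A - w) / A := by field_simp
      rw [h4]
      field_simp
      ring
    intro y hy hFy z hz
    have hy0 : 0 ≤ y := hy.1.le
    have hz0 : 0 ≤ z := hz.1.le
    have hz1 : z ≤ (1 - m) ^ 2 := (hz.2.trans hy.2).le
    rw [hF y hy0 hy.2.le] at hFy
    rw [hF z hz0 hz1]
    have p1 : 0 < (A - y) * Cb (m ^ 2) y := mul_pos (hwA y hy.2.le) (Cb_pos hm0 hm1 hy0 hy.2.le)
    have p2 : 0 < (A - z) * Cb (m ^ 2) z := mul_pos (hwA z hz1) (Cb_pos hm0 hm1 hz0 hz1)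
    apply div_nonneg _ p2.le
    have h5 : 0 ≤ Cb (m ^ 2) y - k * ct (m ^ 2) y * (A - y) := by
      by_contra hc
      push Not at hc
      exact absurd hFy (not_le.2 (div_neg_of_neg_of_pos hc p1))
    exact h5.trans (hN ⟨hz0, hz1⟩ ⟨hy0, hy.2.le⟩ hz.2.le)
  · simp only [zero_div, sub_zero, log_one, neg_zero, zero_add]
    rw [Cb_zero]
    simp
  · -- right endpoint
    have h5 := h3 m hm0 hm1
    have hf1 : 0 < ff (m ^ 2) := ff_pos (sq_nonneg m) (by nlinarith)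
    have hf2 : 0 < ff ((2 * m - 1) ^ 2) := ff_pos (sq_nonneg _) (by nlinarith)
    have hCb : 0 < Cb (m ^ 2) ((1 - m) ^ 2) := Cb_pos hm0 hm1 (sq_nonneg _) le_rfl
    have e1 : Cb (m ^ 2) ((1 - m) ^ 2) = 2 * m * (1 - m) * ff ((2 * m - 1) ^ 2) := by
      rw [← Cb_eq, cc_eq, cc_eq]
      have : m + (1 - m) = 1 := by ring
      rw [this]
      have : m - (1 - m) = 2 * m - 1 := by ring
      rw [this]
      ring
    have e2 : (1 + m) * ff (m ^ 2) / (2 * m * ff ((2 * m - 1) ^ 2)) =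
        cc m / Cb (m ^ 2) ((1 - m) ^ 2) := by
      rw [e1, cc_eq]
      have : (1 - m) ≠ 0 := by linarith
      have hm' := hm0.ne'
      field_simp
      ring
    have e3 : (1 : ℝ) - (1 - m) ^ 2 / A = (4 * m) / (1 + m) ^ 2 := by
      rw [hA]
      have : (1 + m) ≠ 0 := by linarith
      field_simp
      ring
    have e4 : -log ((4 * m) / (1 + m) ^ 2) = log ((1 + m) ^ 2 / (4 * m)) := by
      rw [← log_inv, inv_div]
    rw [e2, log_div hC.ne' hCb.ne', ← hk] at h5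
    rw [e3, e4]
    linarith [mul_sub k (log (cc m)) (log (Cb (m ^ 2) ((1 - m) ^ 2))),
      mul_sub k (log (Cb (m ^ 2) ((1 - m) ^ 2))) (log (cc m))]

end Star2

end Vale.Agent.P322
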