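import Mathlib
import Vale.Agent.P322.Iface
import Vale.Agent.P322.Hyp

namespace Vale.Agent.P322

open Real Set

lemma p0_gt : 7213 / 10000 < p0 := by
  unfold p0
  have h := Real.log_two_lt_d9
  have h0 : 0 < log 2 := log_pos one_lt_two
  rw [lt_div_iff₀ (by positivity)]
  linarith

lemma p0_lt : p0 < 7214 / 10000 := by
  unfold p0
  have h := Real.log_two_gt_d9
  have h0 : 0 < log 2 := log_pos one_lt_two
  rw [div_lt_iff₀ (by positivity)]
  linarith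

lemma p0_mul_log : p0 * log 2 = 1 / 2 := by
  unfold p0
  have h0 : 0 < log 2 := log_pos one_lt_two
  field_simp

lemma cc_fac (m : ℝ) : cc m = (1 - m ^ 2) * (1 + (1 - p0) * m ^ 2 - m ^ 4 / 10) := by
  unfold cc; ring

lemma chi_fac (m : ℝ) :
    chi m = (1 - m) ^ 2 * (1 + 2 * (1 - p0) * m + 3 * (1 - p0) * m ^ 2 - 2 / 5 * m ^ 3
      - m ^ 4 / 2) := by
  unfold chi cc ccd; ring

lemma cc_pos {m : ℝ} (h0 : -1 < m) (h1 : m < 1) : 0 < cc m := by
  rw [cc_fac]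
  have h2 : m ^ 2 < 1 := by nlinarith
  have h4 : m ^ 4 ≤ 1 := by nlinarith [sq_nonneg m, sq_nonneg (m ^ 2)]
  have := p0_lt
  refine mul_pos (by linarith) ?_
  nlinarith [sq_nonneg m, mul_nonneg (by linarith : (0 : ℝ) ≤ 1 - p0) (sq_nonneg m)]

lemma chi_nonneg' {m : ℝ} (h0 : 0 ≤ m) (h1 : m ≤ 1) : 0 ≤ chi m := by
  rw [chi_fac]
  have := p0_lt
  have h3 : m ^ 3 ≤ 1 := pow_le_one₀ h0 h1
  have h4 : m ^ 4 ≤ 1 := pow_le_one₀ h0 h1
  refine mul_nonneg (by positivity) ?_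
  nlinarith [mul_nonneg (by linarith : (0 : ℝ) ≤ 1 - p0) h0,
    mul_nonneg (by linarith : (0 : ℝ) ≤ 1 - p0) (sq_nonneg m)]

lemma cc_mid {m d : ℝ} (h0 : 0 ≤ m) (hd : 0 ≤ d) (h1 : d < 1 - m) :
    (cc (m + d) + cc (m - d)) / 2 ≤ cc m := by
  have e : cc m - (cc (m + d) + cc (m - d)) / 2 = d ^ 2 * (p0 + (11 / 10 - p0) * (6 * m ^ 2 + d ^ 2)
      - (15 * m ^ 4 + 15 * m ^ 2 * d ^ 2 + d ^ 4) / 10) := by
    unfold cc; ring
  have hp := p0_lt
  have hp' := p0_gt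
  have hs : m ^ 2 + d ^ 2 ≤ 1 := by nlinarith
  have hd2 : d ^ 2 ≤ 1 := by nlinarith [sq_nonneg m]
  have : 0 ≤ d ^ 2 * (p0 + (11 / 10 - p0) * (6 * m ^ 2 + d ^ 2)
      - (15 * m ^ 4 + 15 * m ^ 2 * d ^ 2 + d ^ 4) / 10) := by
    refine mul_nonneg (sq_nonneg d) ?_
    have a1 : m ^ 2 * (m ^ 2 + d ^ 2) ≤ m ^ 2 * 1 :=
      mul_le_mul_of_nonneg_left hs (sq_nonneg m)
    have a2 : d ^ 2 * d ^ 2 ≤ d ^ 2 * 1 := mul_le_mul_of_nonneg_left hd2 (sq_nonneg d)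
    have a3 : 0 ≤ (11 / 10 - p0 - 3 / 8) * (6 * m ^ 2 + d ^ 2) :=
      mul_nonneg (by linarith) (by positivity)
    nlinarith [sq_nonneg m, sq_nonneg d]
  linarith

lemma B0_pos {m p : ℝ} (h0 : 0 ≤ m) (h1 : m ≤ 1) (hp : 7213 / 10000 < p) (hp' : p < 7214 / 10000) :
    1 / 20 ≤ p - 12 * (11 / 10 - p) * m + 18 * (11 / 10 - p) * m ^ 2 + 6 * m ^ 3
      - 15 / 2 * m ^ 4 := by
  have e1 : p - 12 * (11 / 10 - p) * m + 18 * (11 / 10 - p) * m ^ 2 + 6 * m ^ 3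
      - 15 / 2 * m ^ 4 = (7213 / 10000 - 12 * (3787 / 10000) * m + 18 * (3787 / 10000) * m ^ 2
        + 6 * m ^ 3 - 15 / 2 * m ^ 4) + (p - 7213 / 10000) * (1 + 12 * m - 18 * m ^ 2) := by ring
  have e2 : -(1 / 1000 : ℝ) ≤ (p - 7213 / 10000) * (1 + 12 * m - 18 * m ^ 2) := by
    nlinarith [mul_nonneg h0 (sub_nonneg.2 h1), mul_nonneg (sub_nonneg.2 hp.le) h0,
      mul_nonneg (sub_nonneg.2 hp.le) (sub_nonneg.2 h1),
      mul_nonneg (mul_nonneg (sub_nonneg.2 hp.le) h0) (sub_nonneg.2 h1)]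
  have e3 : (51 / 1000 : ℝ) ≤ 7213 / 10000 - 12 * (3787 / 10000) * m + 18 * (3787 / 10000) * m ^ 2
        + 6 * m ^ 3 - 15 / 2 * m ^ 4 := by
    nlinarith [mul_nonneg h0 (sub_nonneg.2 h1), mul_nonneg (mul_nonneg h0 (sub_nonneg.2 h1)) h0,
      sq_nonneg (m - 7 / 25), mul_nonneg h0 (sq_nonneg (m - 7 / 25)),
      mul_nonneg (sub_nonneg.2 h1) (sq_nonneg (m - 7 / 25)),
      mul_nonneg (mul_nonneg h0 (sub_nonneg.2 h1)) (sq_nonneg (m - 7 / 25))]
  linarith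

lemma chi_mid' {m d : ℝ} (h0 : 0 ≤ m) (hd : 0 ≤ d) (h1 : d < 1 - m) :
    chi m ≤ (chi (m + d) + chi (m - d)) / 2 := by
  have e : (chi (m + d) + chi (m - d)) / 2 - chi m = d ^ 2 *
      ((p0 - 12 * (11 / 10 - p0) * m + 18 * (11 / 10 - p0) * m ^ 2 + 6 * m ^ 3 - 15 / 2 * m ^ 4)
        + d ^ 2 * (3 * (11 / 10 - p0) + 3 * m - 15 / 2 * m ^ 2 - d ^ 2 / 2)) := by
    unfold chi cc ccd; ring
  have hp := p0_lt
  have hp' := p0_gt
  have hm1 : m ≤ 1 := by linarith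
  have hd2 : d ^ 2 ≤ (1 - m) ^ 2 := by nlinarith
  have hB := B0_pos h0 hm1 hp' hp
  have : 0 ≤ d ^ 2 *
      ((p0 - 12 * (11 / 10 - p0) * m + 18 * (11 / 10 - p0) * m ^ 2 + 6 * m ^ 3 - 15 / 2 * m ^ 4)
        + d ^ 2 * (3 * (11 / 10 - p0) + 3 * m - 15 / 2 * m ^ 2 - d ^ 2 / 2)) := by
    refine mul_nonneg (sq_nonneg d) ?_
    rcases le_total m (3 / 5) with h | h
    · have : 0 ≤ d ^ 2 * (3 * (11 / 10 - p0) + 3 * m - 15 / 2 * m ^ 2 - d ^ 2 / 2) := by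
        refine mul_nonneg (sq_nonneg d) ?_
        nlinarith
      linarith
    · have hB' : 7 / 10 ≤ p0 - 12 * (11 / 10 - p0) * m + 18 * (11 / 10 - p0) * m ^ 2 + 6 * m ^ 3
          - 15 / 2 * m ^ 4 := by
        have a1 : 0 ≤ (m - 3 / 5) * (1 - m) := mul_nonneg (by linarith) (by linarith)
        have a2 : 0 ≤ (p0 - 7213 / 10000) * (1 + 12 * m - 18 * m ^ 2 + 6) :=
          mul_nonneg (by linarith) (by nlinarith)
        nlinarith [mul_nonneg a1 h0, mul_nonneg a1 (sq_nonneg m), mul_nonneg a1 (sub_nonneg.2 hm1)]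
      have hd3 : d ^ 2 ≤ 16 / 100 := by nlinarith
      have h5 : -(7 / 2 : ℝ) ≤ 3 * (11 / 10 - p0) + 3 * m - 15 / 2 * m ^ 2 - d ^ 2 / 2 := by
        nlinarith
      nlinarith [sq_nonneg d]
  linarith

/-- single crossing, with the function only continuous at the endpoints -/
lemma nonneg_of_crossing {F F' : ℝ → ℝ} {a b : ℝ} (hc : ContinuousOn F (Icc a b))
    (hF : ∀ z ∈ Ioo a b, HasDerivAt F (F' z) z)
    (hs : ∀ y ∈ Ioo a b, 0 ≤ F' y → ∀ z ∈ Ioo a y, 0 ≤ F' z)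
    (ha : 0 ≤ F a) (hb : 0 ≤ F b) : ∀ z ∈ Icc a b, 0 ≤ F z := by
  intro z hz
  rcases eq_or_lt_of_le hz.1 with h | h1
  · rw [← h]; exact ha
  rcases eq_or_lt_of_le hz.2 with h | h2
  · rw [h]; exact hb
  by_cases hp : 0 ≤ F' z
  · have hm : MonotoneOn F (Icc a z) := by
      refine monotoneOn_of_deriv_nonneg (convex_Icc a z) (hc.mono (Icc_subset_Icc_right hz.2))
        ?_ ?_
      · rw [interior_Icc]
        intro x hx
        exact (hF x ⟨hx.1, hx.2.trans_le hz.2⟩).differentiableAt.differentiableWithinAt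
      · rw [interior_Icc]
        intro x hx
        rw [(hF x ⟨hx.1, hx.2.trans_le hz.2⟩).deriv]
        exact hs z ⟨h1, h2⟩ hp x hx
    exact ha.trans (hm ⟨le_rfl, h1.le⟩ ⟨h1.le, le_rfl⟩ h1.le)
  · have hn : ∀ x ∈ Ioo z b, F' x ≤ 0 := by
      intro x hx
      by_contra hc'
      push Not at hc'
      exact hp (hs x ⟨h1.trans hx.1, hx.2⟩ hc'.le z ⟨h1, hx.1⟩)
    have hm : AntitoneOn F (Icc z b) := by
      refine antitoneOn_of_deriv_nonpos (convex_Icc z b) (hc.mono (Icc_subset_Icc_left hz.1))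
        ?_ ?_
      · rw [interior_Icc]
        intro x hx
        exact (hF x ⟨h1.trans hx.1, hx.2⟩).differentiableAt.differentiableWithinAt
      · rw [interior_Icc]
        intro x hx
        rw [(hF x ⟨h1.trans hx.1, hx.2⟩).deriv]
        exact hn x hx
    exact hb.trans (hm ⟨le_rfl, h2.le⟩ ⟨h2.le, le_rfl⟩ h2.le)

/-- auxiliary: `h(m) ≥ log 2 - m²/2 - (log 2 - 1/2) m⁴` -/
lemma hh_ge4 {m : ℝ} (h0 : 0 ≤ m) (h1 : m ≤ 1) :
    log 2 - m ^ 2 / 2 - (log 2 - 1 / 2) * m ^ 4 ≤ hh m := by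
  set k : ℝ := log 2 - 1 / 2 with hk
  have hl1 := Real.log_two_gt_d9
  have hl2 := Real.log_two_lt_d9
  set F : ℝ → ℝ := fun m => hh m - log 2 + m ^ 2 / 2 + k * m ^ 4 with hF
  set G : ℝ → ℝ := fun m => m + 4 * k * m ^ 3 - artanh m with hG
  have hFc : Continuous F := by
    have := continuous_hh
    fun_prop
  have hFd : ∀ s, 0 ≤ s → s < 1 → HasDerivAt F (G s) s := by
    intro s hs0 hs1
    have d1 := hasDerivAt_hh (by linarith : -1 < s) hs1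
    have d2 := ((d1.sub_const (log 2)).add ((hasDerivAt_pow 2 s).div_const 2)).add
      ((hasDerivAt_pow 4 s).const_mul k)
    refine (d2.congr_deriv ?_)
    simp only [hG]
    norm_num
    ring
  have hGd : ∀ s, 0 ≤ s → s < 1 → HasDerivAt G (1 + 12 * k * s ^ 2 - 1 / (1 - s ^ 2)) s := by
    intro s hs0 hs1
    have d1 := hasDerivAt_artanh (by linarith : -1 < s) hs1
    have d2 := ((hasDerivAt_id s).add ((hasDerivAt_pow 3 s).const_mul (4 * k))).sub d1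
    refine d2.congr_deriv ?_
    norm_num
    ring
  have key := nonneg_of_crossing (a := 0) (b := 1) hFc.continuousOn
    (fun z hz => hFd z hz.1.le hz.2) ?_ ?_ ?_ m ⟨h0, h1⟩
  · simp only [hF] at key
    linarith
  · intro y hy hGy z hz
    have hz1 : z < 1 := hz.2.trans hy.2
    refine nonneg_of_crossing (F := G) (F' := fun s => 1 + 12 * k * s ^ 2 - 1 / (1 - s ^ 2))
      (a := 0) (b := y) ?_ ?_ ?_ ?_ hGy z ⟨hz.1.le, hz.2.le⟩
    · intro s hs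
      exact (hGd s hs.1 (hs.2.trans_lt hy.2)).continuousAt.continuousWithinAt
    · intro s hs
      exact hGd s hs.1.le (hs.2.trans hy.2)
    · intro t ht hpos s hs
      have hs1 : s < 1 := (hs.2.trans ht.2).trans hy.2
      have ht1 : t < 1 := ht.2.trans hy.2
      have hs0 : 0 < s := hs.1
      have q1 : 0 < 1 - s ^ 2 := by nlinarith
      have q2 : 0 < 1 - t ^ 2 := by nlinarith [hs.2]
      have hpos' : 0 ≤ 1 + 12 * k * t ^ 2 - 1 / (1 - t ^ 2) := hpos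
      rw [sub_nonneg, div_le_iff₀ q2] at hpos'
      show 0 ≤ 1 + 12 * k * s ^ 2 - 1 / (1 - s ^ 2)
      rw [sub_nonneg, div_le_iff₀ q1]
      have ht0 : 0 < t := hs0.trans hs.2
      have h3 : 0 ≤ t ^ 2 * (12 * k - 1 - 12 * k * t ^ 2) := by nlinarith
      have h4 : 0 ≤ 12 * k - 1 - 12 * k * t ^ 2 := by
        by_contra hcon
        push Not at hcon
        nlinarith [mul_pos ht0 ht0]
      have h5 : s ^ 2 ≤ t ^ 2 := by nlinarith [hs.2]
      have h6 : 0 ≤ 12 * k - 1 - 12 * k * s ^ 2 := by nlinarith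
      nlinarith [mul_nonneg (sq_nonneg s) h6]
    · simp [hG]
  · simp only [hF, hh_zero]
    norm_num
  · simp only [hF, hh_one]
    rw [hk]
    norm_num

lemma cc_le_hh {m : ℝ} (h0 : -1 ≤ m) (h1 : m ≤ 1) : cc m * log 2 ≤ hh m := by
  have main : ∀ m : ℝ, 0 ≤ m → m ≤ 1 → cc m * log 2 ≤ hh m := by
    intro m h0 h1
    refine le_trans ?_ (hh_ge4 h0 h1)
    have hp := p0_mul_log
    have e : cc m * log 2 = log 2 - p0 * log 2 * m ^ 2 - (11 / 10 * log 2 - p0 * log 2) * m ^ 4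
        + log 2 / 10 * m ^ 6 := by unfold cc; ring
    rw [e, hp]
    have hl : 0 < log 2 := log_pos one_lt_two
    have h6 : m ^ 6 ≤ m ^ 4 := pow_le_pow_of_le_one h0 h1 (by norm_num)
    nlinarith
  rcases le_total 0 m with h | h
  · exact main m h h1
  · have := main (-m) (by linarith) (by linarith)
    rw [hh_neg] at this
    have e : cc (-m) = cc m := by unfold cc; ring
    rwa [e] at this

/-- all of `CFacts` except `star2` -/
theorem cFacts_of (star2 : ∀ m d : ℝ, 0 ≤ m → 0 < d → d < 1 - m →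
    7 / 10 * chi m * log (cc m / ((cc (m + d) + cc (m - d)) / 2)) ≤
      -log (1 - d ^ 2 / (1 + m) ^ 2)) : CFacts where
  pos := fun _ h0 h1 => cc_pos h0 h1
  le_hh := fun _ h0 h1 => cc_le_hh h0 h1
  mid_le := fun _ _ h0 hd h1 => cc_mid h0 hd h1
  chi_nonneg := fun _ h0 h1 => chi_nonneg' h0 h1.le
  chi_mid := fun _ _ h0 hd h1 => chi_mid' h0 hd h1
  star2 := star2

end Vale.Agent.P322
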