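import Mathlib
import Vale.Agent.P322.Star

namespace Vale.Agent.P322

open Real Set

noncomputable def ff (x : ℝ) : ℝ := 1 + (1 - p0) * x - x ^ 2 / 10

namespace Star3

lemma log_pade {t : ℝ} (ht : 0 ≤ t) : log (1 + t) ≤ t * (6 + t) / (6 + 4 * t) := by
  have hd : ∀ x : ℝ, 0 ≤ x → HasDerivAt (fun x : ℝ => x * (6 + x) / (6 + 4 * x) - log (1 + x))
      (4 * x ^ 3 / ((6 + 4 * x) ^ 2 * (1 + x))) x := by
    intro x hx
    have h1 : HasDerivAt (fun x : ℝ => x * (6 + x)) (1 * (6 + x) + x * 1) x :=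
      (hasDerivAt_id' x).mul ((hasDerivAt_id' x).const_add 6)
    have h2 : HasDerivAt (fun x : ℝ => 6 + 4 * x) 4 x := by
      have := ((hasDerivAt_id x).const_mul 4).const_add 6
      simpa using this
    have h3 : HasDerivAt (fun x : ℝ => log (1 + x)) (1 / (1 + x)) x := by
      have := ((hasDerivAt_id x).const_add 1).log (by simp; linarith)
      simpa using this
    have h := (h1.div h2 (by positivity)).sub h3
    have e : ((1 * (6 + x) + x * 1) * (6 + 4 * x) - x * (6 + x) * 4) / (6 + 4 * x) ^ 2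
        - 1 / (1 + x) = 4 * x ^ 3 / ((6 + 4 * x) ^ 2 * (1 + x)) := by
      have : (1 : ℝ) + x ≠ 0 := by linarith
      have : (6 : ℝ) + 4 * x ≠ 0 := by linarith
      field_simp
      ring
    rw [← e]
    exact h
  have hm : MonotoneOn (fun x : ℝ => x * (6 + x) / (6 + 4 * x) - log (1 + x)) (Ici 0) := by
    refine monotoneOn_of_deriv_nonneg (convex_Ici 0) ?_ ?_ ?_
    · intro x hx
      exact (hd x hx).continuousAt.continuousWithinAt
    · intro x hx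
      rw [interior_Ici] at hx
      exact (hd x (le_of_lt hx)).differentiableAt.differentiableWithinAt
    · intro x hx
      rw [interior_Ici] at hx
      rw [(hd x (le_of_lt hx)).deriv]
      have : (0 : ℝ) < x := hx
      positivity
  have := hm (mem_Ici.2 le_rfl) (mem_Ici.2 ht) ht
  simp at this
  linarith

lemma polyB {m : ℝ} (h0 : 1 / 3 ≤ m) (h1 : m ≤ 1) :
    7 / 10 * (1 + 2 * (28 / 100) * m + 3 * (28 / 100) * m ^ 2 - 2 / 5 * m ^ 3 - m ^ 4 / 2)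
      * (1 + 6 * m + m ^ 2)
      * (((1 + m) * (1 + 28 / 100 * m ^ 2 - (m ^ 2) ^ 2 / 10)
          - 2 * m * (1 + 28 / 100 * (2 * m - 1) ^ 2 - ((2 * m - 1) ^ 2) ^ 2 / 10))
        * ((1 + m) * (1 + 28 / 100 * m ^ 2 - (m ^ 2) ^ 2 / 10)
          + 5 * (2 * m * (1 + 28 / 100 * (2 * m - 1) ^ 2 - ((2 * m - 1) ^ 2) ^ 2 / 10))))
    ≤ 4 * ((2 * m * (1 + 27 / 100 * (2 * m - 1) ^ 2 - ((2 * m - 1) ^ 2) ^ 2 / 10))
      * (2 * ((1 + m) * (1 + 27 / 100 * m ^ 2 - (m ^ 2) ^ 2 / 10))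
        + 2 * m * (1 + 27 / 100 * (2 * m - 1) ^ 2 - ((2 * m - 1) ^ 2) ^ 2 / 10))) := by
  have key : ∀ x y : ℝ, 0 ≤ x → 0 ≤ y → 0 ≤ 302766843247 / 1280000000 * x ^ 0 * y ^ 16
      + 1443061567481 / 1280000000 * x ^ 1 * y ^ 15 + 5440717265741 / 2560000000 * x ^ 2 * y ^ 14
      + 200731520159 / 102400000 * x ^ 3 * y ^ 13 + 5076737592143 / 5120000000 * x ^ 4 * y ^ 12
      + 1257206882459 / 1280000000 * x ^ 5 * y ^ 11 + 111332302113 / 51200000 * x ^ 6 * y ^ 10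
      + 7751615027439 / 2560000000 * x ^ 7 * y ^ 9 + 13486793461213 / 5120000000 * x ^ 8 * y ^ 8
      + 1995529541219 / 1280000000 * x ^ 9 * y ^ 7 + 335828955041 / 512000000 * x ^ 10 * y ^ 6
      + 509757170357 / 2560000000 * x ^ 11 * y ^ 5 + 221860169273 / 5120000000 * x ^ 12 * y ^ 4
      + 8413193689 / 1280000000 * x ^ 13 * y ^ 3 + 3360439 / 5120000 * x ^ 14 * y ^ 2
      + 789273 / 20480000 * x ^ 15 * y ^ 1 + 41067 / 40960000 * x ^ 16 * y ^ 0 := by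
    intro x y hx hy
    positivity
  have h := key (3 * m - 1) (1 - m) (by linarith) (by linarith)
  rw [← sub_nonneg]
  refine h.trans_eq ?_
  ring

lemma polyA {m : ℝ} (h0 : 0 ≤ m) (h1 : m ≤ 1 / 3) :
    0 ≤ (1 - 7 / 10 * ((1 - m) ^ 2 * (1 + 2 * (28 / 100) * m + 3 * (28 / 100) * m ^ 2
        - 2 / 5 * m ^ 3 - m ^ 4 / 2))) * (2 * (1 - 3 * m) * (2 + m)) + 2 * m * (1 + 5 * m)
      - 49 / 100 * ((1 - m) ^ 2 * (1 + 2 * (28 / 100) * m + 3 * (28 / 100) * m ^ 2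
        - 2 / 5 * m ^ 3 - m ^ 4 / 2)) * ((1 + 5 * m) * (2 + m)) := by
  have key : ∀ x y : ℝ, 0 ≤ x → 0 ≤ y → 0 ≤ 11 / 50 * x ^ 0 * y ^ 8
      + 10833 / 2500 * x ^ 1 * y ^ 7 + 22667 / 625 * x ^ 2 * y ^ 6
      + 427149 / 2500 * x ^ 3 * y ^ 5 + 1271999 / 2500 * x ^ 4 * y ^ 4
      + 5092823 / 5000 * x ^ 5 * y ^ 3 + 1732347 / 1250 * x ^ 6 * y ^ 2
      + 1476079 / 1250 * x ^ 7 * y ^ 1 + 294172 / 625 * x ^ 8 * y ^ 0 := by
    intro x y hx hy
    positivity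
  have h := key m (1 - 3 * m) h0 (by linarith)
  refine h.trans_eq ?_
  ring

lemma ff_mono {x y : ℝ} (_hx : 0 ≤ x) (hxy : x ≤ y) (hy : y ≤ 1) : ff x ≤ ff y := by
  have hp := p0_lt
  have e : ff y - ff x = (y - x) * ((1 - p0) - (x + y) / 10) := by unfold ff; ring
  have : 0 ≤ (y - x) * ((1 - p0) - (x + y) / 10) :=
    mul_nonneg (by linarith) (by linarith)
  linarith

lemma ff_pos {x : ℝ} (hx : 0 ≤ x) (hy : x ≤ 1) : 0 < ff x := by
  have h := ff_mono le_rfl hx hy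
  have h0 : ff 0 = 1 := by unfold ff; ring
  linarith

lemma star3_a {m : ℝ} (h0 : 0 < m) (h1 : m ≤ 1 / 3) :
    7 / 10 * chi m * log ((1 + m) * ff (m ^ 2) / (2 * m * ff ((2 * m - 1) ^ 2)))
      ≤ log ((1 + m) ^ 2 / (4 * m)) := by
  have hp := p0_lt
  have hp' := p0_gt
  have hchi := chi_nonneg' h0.le (by linarith : m ≤ 1)
  have f1 : 0 < ff (m ^ 2) := ff_pos (sq_nonneg _) (by nlinarith)
  have f2 : 0 < ff ((2 * m - 1) ^ 2) := ff_pos (sq_nonneg _) (by nlinarith)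
  have f3 : ff (m ^ 2) ≤ ff ((2 * m - 1) ^ 2) := ff_mono (sq_nonneg _) (by nlinarith) (by nlinarith)
  have g1 : log ((1 + m) * ff (m ^ 2) / (2 * m * ff ((2 * m - 1) ^ 2)))
      ≤ log ((1 + m) / (2 * m)) := by
    refine log_le_log (by positivity) ?_
    rw [div_le_div_iff₀ (by positivity) (by positivity)]
    have : 0 < (1 + m) * (2 * m) := by positivity
    nlinarith
  have g2 : log ((1 + m) ^ 2 / (4 * m)) = log ((1 + m) / (2 * m)) + log (1 + m) - log 2 := by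
    have e : (1 + m) ^ 2 / (4 * m) = (1 + m) / (2 * m) * (1 + m) / 2 := by field_simp; ring
    rw [e, log_div (by positivity) (by norm_num), log_mul (by positivity) (by positivity)]
  have g3 : log 2 + 2 * (1 - 3 * m) / (1 + 5 * m) ≤ log ((1 + m) / (2 * m)) := by
    have e : (1 + m) / (2 * m) = 2 * (1 + (1 - 3 * m) / (4 * m)) := by field_simp; ring
    have hs : 0 ≤ (1 - 3 * m) / (4 * m) := div_nonneg (by linarith) (by linarith)
    have h := le_log_one_add_of_nonneg hs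
    have e2 : 2 * ((1 - 3 * m) / (4 * m)) / ((1 - 3 * m) / (4 * m) + 2)
        = 2 * (1 - 3 * m) / (1 + 5 * m) := by
      have : (1 - 3 * m) / (4 * m) + 2 = (1 + 5 * m) / (4 * m) := by field_simp; ring
      rw [this]
      field_simp
    rw [e, log_mul (by norm_num) (by positivity)]
    linarith
  have g4 : 2 * m / (m + 2) ≤ log (1 + m) := le_log_one_add_of_nonneg h0.le
  have hl := Real.log_two_lt_d9
  have hl0 : 0 < log 2 := log_pos one_lt_two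
  set c1 := (1 - m) ^ 2 * (1 + 2 * (28 / 100) * m + 3 * (28 / 100) * m ^ 2
        - 2 / 5 * m ^ 3 - m ^ 4 / 2) with hc1
  have k1 : chi m ≤ c1 := by
    rw [chi_fac, hc1]
    refine mul_le_mul_of_nonneg_left ?_ (sq_nonneg _)
    nlinarith [sq_nonneg m]
  have k2 : c1 ≤ 1 := by
    have a1 : 1 + 2 * (28 / 100) * m + 3 * (28 / 100) * m ^ 2 - 2 / 5 * m ^ 3 - m ^ 4 / 2
        ≤ 1 + 2 * m := by
      nlinarith [pow_pos h0 3, pow_pos h0 4]
    have a2 : c1 ≤ (1 - m) ^ 2 * (1 + 2 * m) := mul_le_mul_of_nonneg_left a1 (sq_nonneg _)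
    have a3 : (1 - m) ^ 2 * (1 + 2 * m) ≤ 1 := by nlinarith [sq_nonneg m]
    linarith
  have hA := polyA h0.le h1
  rw [← hc1] at hA
  have hA2 : 49 / 100 * c1 ≤ (1 - 7 / 10 * c1) * (2 * (1 - 3 * m) / (1 + 5 * m))
      + 2 * m / (m + 2) := by
    have e : (1 - 7 / 10 * c1) * (2 * (1 - 3 * m) / (1 + 5 * m)) + 2 * m / (m + 2)
        - 49 / 100 * c1 = ((1 - 7 / 10 * c1) * (2 * (1 - 3 * m) * (2 + m)) + 2 * m * (1 + 5 * m)
      - 49 / 100 * c1 * ((1 + 5 * m) * (2 + m))) / ((1 + 5 * m) * (2 + m)) := by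
      have : m + 2 = 2 + m := by ring
      rw [this]
      field_simp
    have : 0 ≤ ((1 - 7 / 10 * c1) * (2 * (1 - 3 * m) * (2 + m)) + 2 * m * (1 + 5 * m)
      - 49 / 100 * c1 * ((1 + 5 * m) * (2 + m))) / ((1 + 5 * m) * (2 + m)) :=
      div_nonneg hA (by positivity)
    linarith
  have hv : 0 ≤ 2 * (1 - 3 * m) / (1 + 5 * m) := div_nonneg (by linarith) (by linarith)
  set v := 2 * (1 - 3 * m) / (1 + 5 * m) with hvd
  set L := log ((1 + m) / (2 * m)) with hL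
  have b1 : 7 / 10 * chi m * log ((1 + m) * ff (m ^ 2) / (2 * m * ff ((2 * m - 1) ^ 2)))
      ≤ 7 / 10 * chi m * L := mul_le_mul_of_nonneg_left g1 (by positivity)
  have b2 : (1 - 7 / 10 * chi m) * (log 2 + v) ≤ (1 - 7 / 10 * chi m) * L :=
    mul_le_mul_of_nonneg_left g3 (by linarith)
  have b3 : (1 - 7 / 10 * c1) * (log 2 + v) ≤ (1 - 7 / 10 * chi m) * (log 2 + v) :=
    mul_le_mul_of_nonneg_right (by linarith) (by positivity)
  have b4 : c1 * log 2 ≤ c1 * (7 / 10) := by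
    refine mul_le_mul_of_nonneg_left (by linarith) (by linarith)
  rw [g2]
  nlinarith

noncomputable def Nf (q m : ℝ) : ℝ := (1 + m) * (1 + q * m ^ 2 - (m ^ 2) ^ 2 / 10)

noncomputable def Df (q m : ℝ) : ℝ :=
  2 * m * (1 + q * (2 * m - 1) ^ 2 - ((2 * m - 1) ^ 2) ^ 2 / 10)

noncomputable def Rf (q m : ℝ) : ℝ :=
  1 + 2 * q * m + 3 * q * m ^ 2 - 2 / 5 * m ^ 3 - m ^ 4 / 2

lemma polyB' {m : ℝ} (h0 : 1 / 3 ≤ m) (h1 : m ≤ 1) :
    7 / 10 * Rf (28 / 100) m * (1 + 6 * m + m ^ 2)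
      * ((Nf (28 / 100) m - Df (28 / 100) m) * (Nf (28 / 100) m + 5 * Df (28 / 100) m))
    ≤ 4 * (Df (27 / 100) m * (2 * Nf (27 / 100) m + Df (27 / 100) m)) := polyB h0 h1

lemma Rf_nonneg {q m : ℝ} (h0 : 0 ≤ m) (h1 : m ≤ 1) (hq : 0 ≤ q) : 0 ≤ Rf q m := by
  have m3 : m ^ 3 ≤ 1 := pow_le_one₀ h0 h1
  have m4 : m ^ 4 ≤ 1 := pow_le_one₀ h0 h1
  have a1 : 0 ≤ q * m := by positivity
  have a2 : 0 ≤ q * m ^ 2 := by positivity
  unfold Rf
  linarith

lemma Rf_mono {q q' m : ℝ} (h0 : 0 ≤ m) (hq : q ≤ q') : Rf q m ≤ Rf q' m := by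
  have e : Rf q' m - Rf q m = (q' - q) * (2 * m + 3 * m ^ 2) := by unfold Rf; ring
  have : 0 ≤ (q' - q) * (2 * m + 3 * m ^ 2) := mul_nonneg (by linarith) (by positivity)
  linarith

lemma Nf_mono {q q' m : ℝ} (h0 : 0 ≤ m) (hq : q ≤ q') : Nf q m ≤ Nf q' m := by
  have e : Nf q' m - Nf q m = (q' - q) * ((1 + m) * m ^ 2) := by unfold Nf; ring
  have : 0 ≤ (q' - q) * ((1 + m) * m ^ 2) := mul_nonneg (by linarith) (by positivity)
  linarith

lemma Df_mono {q q' m : ℝ} (h0 : 0 ≤ m) (hq : q ≤ q') : Df q m ≤ Df q' m := by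
  have e : Df q' m - Df q m = (q' - q) * (2 * m * (2 * m - 1) ^ 2) := by unfold Df; ring
  have : 0 ≤ (q' - q) * (2 * m * (2 * m - 1) ^ 2) := mul_nonneg (by linarith) (by positivity)
  linarith

lemma NDf_mono {q q' m : ℝ} (h0 : 1 / 3 ≤ m) (h1 : m ≤ 1) (hq : q ≤ q') :
    Nf q m - Df q m ≤ Nf q' m - Df q' m := by
  have e : (Nf q' m - Df q' m) - (Nf q m - Df q m)
      = (q' - q) * (m * ((7 * m - 2) * (1 - m))) := by unfold Nf Df; ring
  have : 0 ≤ (q' - q) * (m * ((7 * m - 2) * (1 - m))) :=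
    mul_nonneg (by linarith) (mul_nonneg (by linarith) (mul_nonneg (by linarith) (by linarith)))
  linarith

lemma Nf_nonneg {q m : ℝ} (h0 : 0 ≤ m) (h1 : m ≤ 1) (hq : 0 ≤ q) : 0 ≤ Nf q m := by
  have a1 : (m ^ 2) ^ 2 ≤ 1 := pow_le_one₀ (sq_nonneg _) (by nlinarith)
  have a2 : 0 ≤ q * m ^ 2 := by positivity
  unfold Nf
  exact mul_nonneg (by linarith) (by linarith)

lemma Df_nonneg {q m : ℝ} (h0 : 0 ≤ m) (h1 : m ≤ 1) (hq : 0 ≤ q) : 0 ≤ Df q m := by
  have a1 : ((2 * m - 1) ^ 2) ^ 2 ≤ 1 := pow_le_one₀ (sq_nonneg _) (by nlinarith)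
  have a2 : 0 ≤ q * (2 * m - 1) ^ 2 := by positivity
  unfold Df
  exact mul_nonneg (by linarith) (by linarith)

lemma mainB {m q : ℝ} (h0 : 1 / 3 ≤ m) (h1 : m ≤ 1) (hq0 : 27 / 100 ≤ q) (hq1 : q ≤ 28 / 100)
    (hND : Df q m ≤ Nf q m) :
    7 / 10 * Rf q m * (1 + 6 * m + m ^ 2) * ((Nf q m - Df q m) * (Nf q m + 5 * Df q m))
      ≤ 4 * (Df q m * (2 * Nf q m + Df q m)) := by
  have hm : 0 ≤ m := by linarith
  have hB := polyB' h0 h1
  have i1 := Rf_mono hm hq1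
  have i2 := NDf_mono h0 h1 hq1
  have i3 := Nf_mono hm hq1
  have i4 := Df_mono hm hq1
  have i5 := Nf_mono hm hq0
  have i6 := Df_mono hm hq0
  have j0 := Df_nonneg (q := 27 / 100) hm h1 (by norm_num)
  have j1 := Nf_nonneg (q := 27 / 100) hm h1 (by norm_num)
  have j2 := Rf_nonneg (q := q) hm h1 (by linarith)
  refine le_trans ?_ (hB.trans ?_)
  · refine mul_le_mul ?_ ?_ ?_ ?_
    · exact mul_le_mul_of_nonneg_right (by linarith) (by positivity)
    · exact mul_le_mul i2 (by linarith) (by linarith) (by linarith)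
    · exact mul_nonneg (by linarith) (by linarith)
    · exact mul_nonneg (by linarith) (by positivity)
  · have a1 : Df (27 / 100) m * (2 * Nf (27 / 100) m + Df (27 / 100) m)
        ≤ Df q m * (2 * Nf q m + Df q m) :=
      mul_le_mul i6 (by linarith) (by linarith) (by linarith)
    linarith

lemma log_ratio {N D : ℝ} (hD : 0 < D) (hND : D ≤ N) :
    log (N / D) ≤ (N - D) * (N + 5 * D) / (D * (4 * N + 2 * D)) := by
  have hN : 0 < N := by linarith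
  have e1 : N / D = 1 + (N - D) / D := by field_simp; ring
  have ht : 0 ≤ (N - D) / D := div_nonneg (by linarith) hD.le
  rw [e1]
  refine (log_pade ht).trans_eq ?_
  have e2 : (6 : ℝ) + 4 * ((N - D) / D) = (4 * N + 2 * D) / D := by field_simp; ring
  have e3 : (6 : ℝ) + (N - D) / D = (N + 5 * D) / D := by field_simp; ring
  rw [e2, e3]
  have : (4 * N + 2 * D) ≠ 0 := by positivity
  field_simp

lemma rhs_ge {m : ℝ} (hm : 0 < m) :
    2 * (1 - m) ^ 2 / (1 + 6 * m + m ^ 2) ≤ log ((1 + m) ^ 2 / (4 * m)) := by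
  have e : (1 + m) ^ 2 / (4 * m) = 1 + (1 - m) ^ 2 / (4 * m) := by field_simp; ring
  have hs : 0 ≤ (1 - m) ^ 2 / (4 * m) := by positivity
  have h := le_log_one_add_of_nonneg hs
  have e2 : 2 * ((1 - m) ^ 2 / (4 * m)) / ((1 - m) ^ 2 / (4 * m) + 2)
      = 2 * (1 - m) ^ 2 / (1 + 6 * m + m ^ 2) := by
    have : (1 - m) ^ 2 / (4 * m) + 2 = (1 + 6 * m + m ^ 2) / (4 * m) := by field_simp; ring
    rw [this]
    field_simp
  rw [e]
  linarith

lemma star3_b {m : ℝ} (h0 : 1 / 3 ≤ m) (h1 : m < 1) :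
    7 / 10 * chi m * log ((1 + m) * ff (m ^ 2) / (2 * m * ff ((2 * m - 1) ^ 2)))
      ≤ log ((1 + m) ^ 2 / (4 * m)) := by
  have hp := p0_lt
  have hp' := p0_gt
  have hm : 0 < m := by linarith
  have f2 : 0 < ff ((2 * m - 1) ^ 2) := ff_pos (sq_nonneg _) (by nlinarith)
  have f3 : ff ((2 * m - 1) ^ 2) ≤ ff (m ^ 2) := ff_mono (sq_nonneg _) (by nlinarith) (by nlinarith)
  have eN : (1 + m) * ff (m ^ 2) = Nf (1 - p0) m := rfl
  have eD : 2 * m * ff ((2 * m - 1) ^ 2) = Df (1 - p0) m := rfl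
  have hDpos : 0 < Df (1 - p0) m := by rw [← eD]; positivity
  have hND : Df (1 - p0) m ≤ Nf (1 - p0) m := by
    rw [← eD, ← eN]
    exact mul_le_mul (by linarith) f3 f2.le (by linarith)
  have main := mainB h0 h1.le (by linarith : 27 / 100 ≤ 1 - p0) (by linarith) hND
  have hlog := log_ratio hDpos hND
  have hrhs := rhs_ge hm
  have hchi : chi m = (1 - m) ^ 2 * Rf (1 - p0) m := by
    rw [chi_fac]; rfl
  have a0 : 0 ≤ 7 / 10 * chi m := by
    have := chi_nonneg' hm.le h1.le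
    linarith
  rw [eN, eD]
  refine (mul_le_mul_of_nonneg_left hlog a0).trans (le_trans ?_ hrhs)
  rw [hchi]
  generalize Nf (1 - p0) m = N at *
  generalize Df (1 - p0) m = D at *
  generalize Rf (1 - p0) m = R at *
  have hNpos : 0 < N := by linarith
  have e : 7 / 10 * ((1 - m) ^ 2 * R) * ((N - D) * (N + 5 * D) / (D * (4 * N + 2 * D)))
      = (1 - m) ^ 2 * (7 / 10 * R * ((N - D) * (N + 5 * D))) / (D * (4 * N + 2 * D)) := by
    ring
  rw [e, div_le_div_iff₀ (by positivity) (by positivity)]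
  have h5 := mul_le_mul_of_nonneg_left main (sq_nonneg (1 - m))
  have e6 : (1 - m) ^ 2 * (7 / 10 * R * ((N - D) * (N + 5 * D))) * (1 + 6 * m + m ^ 2)
      = (1 - m) ^ 2 * (7 / 10 * R * (1 + 6 * m + m ^ 2) * ((N - D) * (N + 5 * D))) := by ring
  have e7 : 2 * (1 - m) ^ 2 * (D * (4 * N + 2 * D)) = (1 - m) ^ 2 * (4 * (D * (2 * N + D))) := by
    ring
  rw [e6, e7]
  exact h5

end Star3

theorem star3 {m : ℝ} (h0 : 0 < m) (h1 : m < 1) :
    7 / 10 * chi m * log ((1 + m) * ff (m ^ 2) / (2 * m * ff ((2 * m - 1) ^ 2)))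
      ≤ log ((1 + m) ^ 2 / (4 * m)) := by
  rcases le_total m (1 / 3) with h | h
  · exact Star3.star3_a h0 h
  · exact Star3.star3_b h h1

end Vale.Agent.P322
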