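import Mathlib
import Vale.Agent.P322.Star2
import Vale.Agent.P322.Star3

namespace Vale.Agent.P322

theorem cFacts : CFacts := cFacts_of (Star2.star2_of (fun _ a b => star3 a b))

end Vale.Agent.P322
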