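import Mathlib
import Vale.Agent.P322.Iface
import Vale.Agent.P322.Barrier

namespace Vale.Agent.P322.Ode79

open Finset Real Set

variable {n : ℕ}

lemma II_zero (f : Cube n → ℤˣ) : II f 0 = 0 := by
  unfold II
  have : (fun y => hh (Tn 0 (rf f) y)) = fun _ => hh (avg (rf f)) := by
    funext y; rw [Tn_zero]
  rw [this, avg_const, sub_self]

/-- Courtade-Kumar for one function from the bound for all correlations. -/
theorem ck_wrap (f : Cube n → ℤˣ)
    (H : ∀ a b, f a = 1 → f b = -1 → ∀ r, 0 < r → r ≤ 1 → II f r ≤ phi r) {ε : ℝ}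
    (h0 : 0 ≤ ε) (h1 : ε ≤ 1 / 2) : mutualInfo (jointLaw ε f) ≤ 1 - h2 ε := by
  by_cases hc : (∃ a, f a = 1) ∧ ∃ b, f b = -1
  · obtain ⟨⟨a, ha⟩, b, hb⟩ := hc
    rw [mutualInfo_eq h0 h1, h2_eq]
    have hl : 0 < log 2 := log_pos one_lt_two
    refine div_le_div_of_nonneg_right ?_ hl.le
    change II f (1 - 2 * ε) ≤ phi (1 - 2 * ε)
    rcases h1.lt_or_eq with h1 | h1
    · exact H a b ha hb _ (by linarith) (by linarith)
    · subst h1
      have e : (1 : ℝ) - 2 * (1 / 2) = 0 := by norm_num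
      rw [e, II_zero, phi_zero]
  · refine ck_one f (fun ρ _ _ hT => ?_) h0 h1
    exfalso
    apply hc
    constructor
    · by_contra hn
      push Not at hn
      have hf : rf f = fun _ => (-1 : ℝ) := by
        funext x
        have : f x = -1 := (Int.units_eq_one_or (f x)).resolve_left (hn x)
        simp [rf, this]
      have := (hT 1).1
      rw [hf] at this
      unfold Tn at this
      rw [← sum_mul, ker_sum, one_mul] at this
      exact lt_irrefl _ this
    · by_contra hn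
      push Not at hn
      have hf : rf f = fun _ => (1 : ℝ) := by
        funext x
        have : f x = 1 := (Int.units_eq_one_or (f x)).resolve_right (hn x)
        simp [rf, this]
      have := (hT 1).2
      rw [hf] at this
      unfold Tn at this
      rw [← sum_mul, ker_sum, one_mul] at this
      exact lt_irrefl _ this

lemma hh_pos {t : ℝ} (h0 : -1 < t) (h1 : t < 1) : 0 < hh t :=
  binEntropy_pos (by linarith) (by linarith)

lemma avg_hh_pos {g : Cube n → ℝ} (hg : ∀ x, -1 < g x ∧ g x < 1) :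
    0 < avg (fun x => hh (g x)) := by
  unfold avg
  have : 0 < ∑ x, hh (g x) := sum_pos (fun x _ => hh_pos (hg x).1 (hg x).2) univ_nonempty
  positivity

lemma artanh_cube {t : ℝ} (h0 : 0 ≤ t) (h1 : t < 1) : t + t ^ 3 / 3 ≤ artanh t := by
  have hmono : MonotoneOn (fun x : ℝ => (1 / 2) * (log (1 + x) - log (1 - x)) - (x + x ^ 3 / 3))
      (Icc 0 t) := by
    have hd : ∀ x ∈ Icc 0 t, HasDerivAt (fun x : ℝ => (1 / 2) * (log (1 + x) - log (1 - x)) -
        (x + x ^ 3 / 3)) (1 / (1 - x ^ 2) - (1 + x ^ 2)) x := fun x hx => by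
      refine ((artanh_hasDerivAt (by linarith [hx.1]) (hx.2.trans_lt h1)).sub
        ((hasDerivAt_id x).add ((hasDerivAt_pow 3 x).div_const 3))).congr_deriv ?_
      push_cast
      ring
    refine monotoneOn_of_deriv_nonneg (convex_Icc 0 t) (fun x hx =>
      (hd x hx).continuousAt.continuousWithinAt) (fun x hx =>
      (hd x (interior_subset hx)).differentiableAt.differentiableWithinAt) fun x hx => ?_
    rw [(hd x (interior_subset hx)).deriv]
    have hx' := interior_subset hx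
    have : 0 < 1 - x ^ 2 := by nlinarith [hx'.1, hx'.2]
    rw [sub_nonneg, le_div_iff₀ this]
    nlinarith [sq_nonneg x, sq_nonneg (x ^ 2)]
  have := hmono ⟨le_rfl, h0⟩ ⟨h0, le_rfl⟩ h0
  simp only [add_zero, sub_zero, log_one, sub_self, mul_zero] at this
  rw [artanh_eq' (by linarith) h1]
  norm_num at this
  linarith

lemma phi_quartic {t : ℝ} (h0 : 0 ≤ t) (h1 : t ≤ 1) : t ^ 2 / 2 + t ^ 4 / 12 ≤ phi t := by
  have hmono : MonotoneOn (fun x : ℝ => phi x - (x ^ 2 / 2 + x ^ 4 / 12)) (Icc 0 t) := by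
    have hd : ∀ x ∈ Ioo 0 t, HasDerivAt (fun x : ℝ => phi x - (x ^ 2 / 2 + x ^ 4 / 12))
        (artanh x - (x + x ^ 3 / 3)) x := by
      intro x hx
      have := (hasDerivAt_phi (by linarith [hx.1]) (hx.2.trans_le h1)).sub
        (((hasDerivAt_pow 2 x).div_const 2).add ((hasDerivAt_pow 4 x).div_const 12))
      refine this.congr_deriv ?_
      push_cast
      ring
    refine monotoneOn_of_deriv_nonneg (convex_Icc 0 t) ?_ ?_ ?_
    · have := continuous_phi
      fun_prop
    · rw [interior_Icc]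
      exact fun x hx => (hd x hx).differentiableAt.differentiableWithinAt
    · rw [interior_Icc]
      intro x hx
      rw [(hd x hx).deriv]
      linarith [artanh_cube hx.1.le (hx.2.trans_le h1)]
  have := hmono ⟨le_rfl, h0⟩ ⟨h0, le_rfl⟩ h0
  simp only [phi_zero] at this
  norm_num at this
  linarith

lemma phi_neg (t : ℝ) : phi (-t) = phi t := by unfold phi; rw [hh_neg]

lemma phi_quartic' {t : ℝ} (h0 : -1 ≤ t) (h1 : t ≤ 1) : t ^ 2 / 2 + t ^ 4 / 12 ≤ phi t := by
  rcases le_total 0 t with h | h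
  · exact phi_quartic h h1
  · have := phi_quartic (t := -t) (by linarith) (by linarith)
    rw [phi_neg] at this
    have e : (-t) ^ 2 / 2 + (-t) ^ 4 / 12 = t ^ 2 / 2 + t ^ 4 / 12 := by ring
    rwa [e] at this

lemma p0_log : p0 * log 2 = 1 / 2 := by
  unfold p0
  have : log 2 ≠ 0 := (log_pos one_lt_two).ne'
  field_simp

lemma p0_lt : p0 < 73 / 100 := by
  unfold p0
  have := log_two_gt_d9
  rw [div_lt_iff₀ (by positivity)]
  linarith

lemma p0_gt : 18 / 25 < p0 := by
  unfold p0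
  have h := log_two_lt_d9
  have h' := log_two_gt_d9
  rw [lt_div_iff₀ (by linarith)]
  linarith

lemma cc_eq (m : ℝ) : cc m = (1 - m ^ 2) * (1 + (1 - p0) * m ^ 2 - m ^ 4 / 10) := by
  unfold cc; ring

lemma cc_pos' {m : ℝ} (h0 : -1 < m) (h1 : m < 1) : 0 < cc m := by
  rw [cc_eq]
  have hx : m ^ 2 < 1 := by nlinarith
  have hx0 : 0 ≤ m ^ 2 := sq_nonneg m
  refine mul_pos (by linarith) ?_
  have e : m ^ 4 = m ^ 2 * m ^ 2 := by ring
  rw [e]
  nlinarith [p0_lt, mul_nonneg hx0 (by linarith [p0_lt] : (0:ℝ) ≤ 1 - p0)]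

lemma hh_sub_cc {m : ℝ} (h0 : -1 ≤ m) (h1 : m ≤ 1) :
    hh m - cc m * log 2 ≤ 9 / 50 * m ^ 4 := by
  have h := phi_quartic' h0 h1
  unfold phi at h
  have e : cc m * log 2 = log 2 - m ^ 2 / 2 - (11 / 10 * log 2 - 1 / 2) * m ^ 4 +
      m ^ 6 * log 2 / 10 := by
    unfold cc
    have : (1 - p0 * m ^ 2 - (11 / 10 - p0) * m ^ 4 + m ^ 6 / 10) * log 2 =
      log 2 - (p0 * log 2) * m ^ 2 - (11 / 10 * log 2 - p0 * log 2) * m ^ 4 +
      m ^ 6 * log 2 / 10 := by ring
    rw [this, p0_log]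
    ring
  rw [e]
  have h4 : (0:ℝ) ≤ m ^ 4 := by positivity
  have h6 : (0:ℝ) ≤ m ^ 6 * log 2 := by
    have := log_pos one_lt_two
    positivity
  nlinarith [log_two_lt_d9, mul_nonneg h4 (by linarith [log_two_lt_d9] :
    (0:ℝ) ≤ 9 / 50 + 1 / 2 + 1 / 12 - 11 / 10 * log 2)]

lemma star_ineq {m : ℝ} (h0 : m ≠ 0) (h1 : m ^ 2 ≤ 2 / 5) :
    2 * (9 / 50 * m ^ 4) * (1 - log (2 * (9 / 50 * m ^ 4))) ≤ 1 - cc m := by
  set x := m ^ 2 with hx
  have hx0 : 0 < x := by positivity
  have e4 : m ^ 4 = x ^ 2 := by rw [hx]; ring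
  have e6 : m ^ 6 = x ^ 3 := by rw [hx]; ring
  have hy : 0 < 3 / 5 * x := by positivity
  have e1 : 2 * (9 / 50 * m ^ 4) = (3 / 5 * x) ^ 2 := by rw [e4]; ring
  have hlog : -log (3 / 5 * x) ≤ 1 / (3 / 5 * x * exp 1) := by
    have h := log_le_sub_one_of_pos (x := 1 / (3 / 5 * x * exp 1)) (by positivity)
    rw [one_div, log_inv, log_mul hy.ne' (exp_pos 1).ne', log_exp, ← one_div] at h
    linarith
  have hxl : x * -log (3 / 5 * x) ≤ 62 / 100 := by
    have h2 : x * -log (3 / 5 * x) ≤ x * (1 / (3 / 5 * x * exp 1)) :=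
      mul_le_mul_of_nonneg_left hlog hx0.le
    refine h2.trans ?_
    have e : x * (1 / (3 / 5 * x * exp 1)) = 5 / (3 * exp 1) := by
      have := (exp_pos 1).ne'
      field_simp
    rw [e, div_le_iff₀ (by positivity)]
    have := exp_one_gt_d9
    linarith
  rw [e1, log_pow]
  have e2 : (3 / 5 * x) ^ 2 * (1 - ((2 : ℕ) : ℝ) * log (3 / 5 * x)) =
      9 / 25 * x * (x + 2 * (x * -log (3 / 5 * x))) := by push_cast; ring
  rw [e2]
  have h3 : 9 / 25 * x * (x + 2 * (x * -log (3 / 5 * x))) ≤ 9 / 25 * x * 2 :=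
    mul_le_mul_of_nonneg_left (by linarith) (by positivity)
  refine h3.trans ?_
  unfold cc
  rw [e4, e6]
  have h5 := p0_lt
  have h6 := p0_gt
  have h7 : 0 ≤ x ^ 2 * (11 / 10 - p0 - x / 10) :=
    mul_nonneg (sq_nonneg x) (by linarith)
  nlinarith

lemma pbound_of_th (hP : PFacts) (H : ThIneq) (g : Cube n → ℝ) (hg : ∀ x, -1 < g x ∧ g x < 1)
    (h0 : -1 < avg g) (h1 : avg g < 1) : PBound (cc (avg g)) g := by
  have hT := H n g hg
  unfold Th at hT
  have hr := avg_hh_pos hg
  have hc := cc_pos' h0 h1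
  refine ⟨by linarith [hP.nonneg (cc (avg g)) _ hc.le hr], fun t ht0 ht1 ht => ?_⟩
  rcases ht0.eq_or_lt with h | h
  · subst h
    have := hP.nonneg (cc (avg g)) _ hc.le hr
    rw [phi_zero]
    linarith
  · have hu : 0 < artanh t := h.trans_le (le_artanh h.le ht1)
    have htanh : tanh (artanh t) = t := tanh_artanh ⟨by linarith, ht1⟩
    have hv := hP.val (artanh t) (cc (avg g)) hu hc
    have heta : eta (artanh t) = hh t := by unfold eta; rw [htanh]
    rw [heta, htanh] at hv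
    have ha := hP.anti (cc (avg g)) _ _ hc.le hr ht
    rw [hv] at ha
    have : cc (avg g) * (t * artanh t - 2 * phi t) =
      cc (avg g) * (artanh t * t - 2 * (log 2 - hh t)) := by unfold phi; ring
    rw [this]
    linarith

lemma avg_rf_strict (f : Cube n → ℤˣ) (a b : Cube n) (ha : f a = 1) (hb : f b = -1) :
    -1 < avg (rf f) ∧ avg (rf f) < 1 := by
  have hm := avg_mem (abs_rf f)
  constructor
  · refine lt_of_le_of_ne hm.1 fun h => ?_
    have := eq_of_avg_extreme (g := rf f) (b := 1) (fun x => by linarith [(abs_rf f x).1])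
      (by linarith) a
    rw [rf, ha, rs_one] at this
    linarith
  · refine lt_of_le_of_ne hm.2 fun h => ?_
    have := eq_of_avg_extreme (g := rf f) (b := -1) (fun x => by linarith [(abs_rf f x).2])
      (by linarith) b
    rw [rf, hb, rs_neg, rs_one] at this
    linarith

theorem fFact_of' (hP : PFacts) : FFact := by
  intro H n _ f ε h0 h1
  refine ck_wrap f (fun a b ha hb r hr0 hr1 => ?_) h0 h1
  have hT := Tn_strict f a b ha hb
  obtain ⟨hm0, hm1⟩ := avg_rf_strict f a b ha hb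
  have hN : ∀ r, 0 < r → r < 1 → PBound (cc (avg (rf f))) (Tn r (rf f)) := by
    intro r hr0 hr1
    have := pbound_of_th hP H (Tn r (rf f)) (hT r hr0 hr1) (by rw [avg_Tn]; exact hm0)
      (by rw [avg_Tn]; exact hm1)
    rwa [avg_Tn] at this
  have hN2 : ∀ r, 0 < r → r < 1 → 2 * II f r ≤ EE (Tn r (rf f)) := by
    intro r hr0 hr1
    have := (hN r hr0 hr1).1
    rw [avg_Tn] at this
    exact this
  by_cases hm : avg (rf f) = 0
  · -- balanced case
    have hcc : cc (avg (rf f)) = 1 := by rw [hm]; unfold cc; norm_num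
    refine ck_of_nlsi f a b ha hb (fun s hs0 hs1 t ht0 ht1 ht => ?_) hr0 hr1
    rw [avg_Tn] at ht
    have h3 := (hN s hs0 hs1).2 t ht0 ht1 (by
      rw [hcc, one_mul]
      rw [hm, hh_zero] at ht
      unfold phi at ht
      linarith)
    rw [hcc, one_mul, avg_Tn] at h3
    linarith
  · by_cases hsm : avg (rf f) ^ 2 ≤ 2 / 5
    · have hx0 : 0 < avg (rf f) ^ 2 := by positivity
      refine II_le_phi f a b ha hb (c := cc (avg (rf f))) (E := 9 / 50 * avg (rf f) ^ 4)
        (cc_pos' hm0 hm1) (by positivity) ?_ (hh_sub_cc hm0.le hm1.le) (star_ineq hm hsm) hN hr0 hr1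
      have e : avg (rf f) ^ 4 = avg (rf f) ^ 2 * avg (rf f) ^ 2 := by ring
      rw [e]
      nlinarith
    · push Not at hsm
      refine II_le_phi_of_small f a b ha hb ?_ hN2 hr0 hr1
      have h := phi_quartic' hm0.le hm1.le
      unfold phi at h
      have e : avg (rf f) ^ 4 = avg (rf f) ^ 2 * avg (rf f) ^ 2 := by ring
      rw [e] at h
      nlinarith [log_two_lt_d9]

end Vale.Agent.P322.Ode79

namespace Vale.Agent.P322

theorem fFact_of (hP : PFacts) : FFact := Ode79.fFact_of' hP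

end Vale.Agent.P322
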