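import Mathlib
import Vale.Agent.P322.Iface
import Vale.Agent.P322.Hyp

/-! Basic facts on `eta`, `be`, `pe`. -/

namespace Vale.Agent.P322

open Real Set Filter Topology

lemma tanh_mem (u : ℝ) : -1 < tanh u ∧ tanh u < 1 := ⟨neg_one_lt_tanh u, tanh_lt_one u⟩

lemma one_sub_tanh_sq (u : ℝ) : 1 - tanh u ^ 2 = 1 / cosh u ^ 2 := by
  have hc : cosh u ≠ 0 := (cosh_pos u).ne'
  have := cosh_sq u
  rw [tanh_eq_sinh_div_cosh]
  field_simp
  linarith

lemma hh_formula {t : ℝ} (h0 : -1 < t) (h1 : t < 1) :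
    hh t = log 2 - 1 / 2 * log (1 - t ^ 2) - t * artanh t := by
  have p1 : (0:ℝ) < 1 + t := by linarith
  have p2 : (0:ℝ) < 1 - t := by linarith
  rw [hh_eq, artanh_eq_half_log ⟨h0.le, h1.le⟩, log_div p1.ne' p2.ne', log_div p1.ne' (by norm_num),
    log_div p2.ne' (by norm_num), (by ring : 1 - t ^ 2 = (1 + t) * (1 - t)),
    log_mul p1.ne' p2.ne']
  ring

lemma hh_pos {t : ℝ} (h0 : -1 < t) (h1 : t < 1) : 0 < hh t := by
  unfold hh
  exact binEntropy_pos (by linarith) (by linarith)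

lemma eta_pos (u : ℝ) : 0 < eta u := hh_pos (tanh_mem u).1 (tanh_mem u).2

lemma eta_zero : eta 0 = log 2 := by unfold eta; rw [tanh_zero, hh_zero]

lemma eta_artanh {t : ℝ} (h0 : -1 < t) (h1 : t < 1) : eta (artanh t) = hh t := by
  unfold eta; rw [tanh_artanh ⟨h0, h1⟩]

lemma hasDerivAt_eta (u : ℝ) : HasDerivAt eta (-(u / cosh u ^ 2)) u := by
  have h1 := hasDerivAt_hh (tanh_mem u).1 (tanh_mem u).2
  rw [artanh_tanh] at h1
  have h2 := HasDerivAt.comp (h₂ := hh) u h1 (hasDerivAt_tanh u)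
  refine h2.congr_deriv ?_
  ring

lemma continuous_eta : Continuous eta :=
  continuous_iff_continuousAt.2 fun u => (hasDerivAt_eta u).continuousAt

lemma eta_strictAnti : StrictAntiOn eta (Ici 0) := by
  refine strictAntiOn_of_deriv_neg (convex_Ici 0) continuous_eta.continuousOn ?_
  intro x hx
  rw [interior_Ici] at hx
  rw [(hasDerivAt_eta x).deriv, neg_lt_zero]
  exact div_pos hx (pow_pos (cosh_pos x) 2)

lemma eta_lt {u : ℝ} (hu : 0 < u) : eta u < log 2 := by
  have := eta_strictAnti (mem_Ici.2 le_rfl) (mem_Ici.2 hu.le) hu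
  rwa [eta_zero] at this

lemma exists_eta {x : ℝ} (h0 : 0 < x) (h1 : x < log 2) : ∃ u, 0 < u ∧ eta u = x := by
  have hc : ContinuousOn hh (Icc 0 1) := continuous_hh.continuousOn
  have := intermediate_value_Ioo' (zero_le_one) hc
  rw [hh_zero, hh_one] at this
  obtain ⟨t, ht, hx⟩ := this ⟨h0, h1⟩
  exact ⟨artanh t, artanh_pos ht, by rw [eta_artanh (by linarith [ht.1]) ht.2, hx]⟩

/-- derivative of `be` -/
noncomputable def bd (u : ℝ) : ℝ := (2 * u * cosh (2 * u) - sinh (2 * u)) / (2 * u ^ 2)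

lemma hasDerivAt_be {u : ℝ} (hu : 0 < u) : HasDerivAt be (bd u) u := by
  have h2 : HasDerivAt (fun x : ℝ => 2 * x) 2 u := by
    simpa using (hasDerivAt_id u).const_mul (2 : ℝ)
  have h1 := (h2.sinh.div h2 (by positivity)).sub_const 1
  refine h1.congr_deriv ?_
  unfold bd
  field_simp

lemma bd_pos {u : ℝ} (hu : 0 < u) : 0 < bd u := by
  unfold bd
  refine div_pos ?_ (by positivity)
  rw [sub_pos]
  have hm : StrictMonoOn (fun x : ℝ => x * cosh x - sinh x) (Ici 0) := by
    refine strictMonoOn_of_deriv_pos (convex_Ici 0) (by fun_prop) ?_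
    intro x hx
    rw [interior_Ici] at hx
    have : HasDerivAt (fun x : ℝ => x * cosh x - sinh x) (1 * cosh x + x * sinh x - cosh x) x :=
      ((hasDerivAt_id x).mul (hasDerivAt_cosh x)).sub (hasDerivAt_sinh x)
    rw [this.deriv]
    have := mul_pos hx (sinh_pos_iff.2 hx)
    linarith
  have := hm (mem_Ici.2 le_rfl) (mem_Ici.2 (by positivity : (0:ℝ) ≤ 2 * u)) (by positivity)
  simp only [sinh_zero, zero_mul, sub_zero] at this
  linarith

lemma be_nonneg {u : ℝ} (hu : 0 < u) : 0 ≤ be u := by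
  unfold be
  rw [sub_nonneg, one_le_div (by positivity)]
  exact self_le_sinh_iff.2 (by positivity)

lemma hasDerivAt_pe {u : ℝ} (hu : 0 < u) : HasDerivAt pe (eta u * bd u) u := by
  have h1 := (((hasDerivAt_id u).mul (hasDerivAt_tanh u)).add
    ((hasDerivAt_eta u).mul ((hasDerivAt_be hu).add_const 2))).sub_const (2 * log 2)
  refine h1.congr_deriv ?_
  have hc : cosh u ≠ 0 := (cosh_pos u).ne'
  have : be u = 2 * sinh u * cosh u / (2 * u) - 1 := by
    unfold be; rw [sinh_two_mul]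
  rw [this, tanh_eq_sinh_div_cosh]
  simp only [id]
  field_simp
  ring

lemma tendsto_be : Tendsto be (𝓝[>] 0) (𝓝 0) := by
  have h : HasDerivAt (fun x : ℝ => sinh (2 * x)) 2 0 := by
    have h2 : HasDerivAt (fun x : ℝ => 2 * x) 2 0 := by
      simpa using (hasDerivAt_id (0:ℝ)).const_mul (2 : ℝ)
    have := h2.sinh
    simpa using this
  have h1 := (hasDerivAt_iff_tendsto_slope.1 h).mono_left
    (nhdsWithin_mono 0 (fun x (hx : x ∈ Ioi 0) => (ne_of_gt hx : x ≠ 0)))
  have h3 : Tendsto (fun x : ℝ => slope (fun x : ℝ => sinh (2 * x)) 0 x / 2 - 1) (𝓝[>] 0)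
      (𝓝 (2 / 2 - 1)) := (h1.div_const 2).sub_const 1
  have e : ((2:ℝ) / 2 - 1) = 0 := by norm_num
  rw [e] at h3
  refine h3.congr' ?_
  filter_upwards [self_mem_nhdsWithin] with x hx
  unfold be slope
  simp only [mul_zero, sinh_zero, sub_zero, vsub_eq_sub, smul_eq_mul]
  have hx' : (x : ℝ) ≠ 0 := ne_of_gt hx
  field_simp

lemma tendsto_eta : Tendsto eta (𝓝[>] 0) (𝓝 (log 2)) := by
  have := continuous_eta.tendsto 0
  rw [eta_zero] at this
  exact this.mono_left nhdsWithin_le_nhds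

lemma tendsto_pe : Tendsto pe (𝓝[>] 0) (𝓝 0) := by
  have h1 : Tendsto (fun u : ℝ => u * tanh u) (𝓝[>] 0) (𝓝 (0 * tanh 0)) :=
    ((continuous_id.mul continuous_tanh').tendsto 0).mono_left nhdsWithin_le_nhds
  have h2 := (h1.add (tendsto_eta.mul (tendsto_be.add_const 2))).sub_const (2 * log 2)
  have e : (0:ℝ) * tanh 0 + log 2 * (0 + 2) - 2 * log 2 = 0 := by ring
  rw [e] at h2
  exact h2

/-- the basic slope inequality -/
lemma slope_le {u v : ℝ} (hu : 0 < u) (hv : 0 < v) : pe v - pe u ≤ eta u * (be v - be u) := by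
  set F : ℝ → ℝ := fun u => eta u * (be v - be u) - (pe v - pe u) with hF
  have hd : ∀ x, 0 < x → HasDerivAt F (-(x / cosh x ^ 2) * (be v - be x)) x := by
    intro x hx
    have := ((hasDerivAt_eta x).mul ((hasDerivAt_be hx).const_sub (be v))).sub
      ((hasDerivAt_pe hx).const_sub (pe v))
    refine this.congr_deriv ?_
    ring
  have hmono : MonotoneOn be (Ioi 0) := by
    refine monotoneOn_of_hasDerivAt (convex_Ioi 0) (fun z hz => hasDerivAt_be hz) ?_
    intro z hz
    rw [interior_Ioi] at hz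
    exact (bd_pos hz).le
  have hFv : F v = 0 := by simp [hF]
  rcases le_total u v with h | h
  · have hm : AntitoneOn F (Icc u v) := by
      refine antitoneOn_of_hasDerivAt (convex_Icc u v) (fun z hz => hd z (hu.trans_le hz.1)) ?_
      intro z hz
      rw [interior_Icc] at hz
      have hz0 : 0 < z := hu.trans hz.1
      have h1 : be z ≤ be v := hmono hz0 hv hz.2.le
      have h2 : 0 ≤ z / cosh z ^ 2 := div_nonneg hz0.le (sq_nonneg _)
      nlinarith
    have := hm ⟨le_rfl, h⟩ ⟨h, le_rfl⟩ h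
    rw [hFv] at this
    simp only [hF] at this
    linarith
  · have hm : MonotoneOn F (Icc v u) := by
      refine monotoneOn_of_hasDerivAt (convex_Icc v u) (fun z hz => hd z (hv.trans_le hz.1)) ?_
      intro z hz
      rw [interior_Icc] at hz
      have hz0 : 0 < z := hv.trans hz.1
      have h1 : be v ≤ be z := hmono hv hz0 hz.1.le
      have h2 : 0 ≤ z / cosh z ^ 2 := div_nonneg hz0.le (sq_nonneg _)
      nlinarith
    have := hm ⟨le_rfl, h⟩ ⟨h, le_rfl⟩ h
    rw [hFv] at this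
    simp only [hF] at this
    linarith

lemma pe_le {v : ℝ} (hv : 0 < v) : pe v ≤ log 2 * be v := by
  have h : Tendsto (fun u => pe v - pe u) (𝓝[>] 0) (𝓝 (pe v - 0)) :=
    tendsto_pe.const_sub (pe v)
  have h' : Tendsto (fun u => eta u * (be v - be u)) (𝓝[>] 0) (𝓝 (log 2 * (be v - 0))) :=
    tendsto_eta.mul (tendsto_be.const_sub (be v))
  have := le_of_tendsto_of_tendsto h h' (by
    filter_upwards [self_mem_nhdsWithin] with u hu
    exact slope_le hu hv)
  simpa using this

lemma pe_nonneg {v : ℝ} (hv : 0 < v) : 0 ≤ pe v := by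
  have hm : MonotoneOn pe (Ioi 0) := by
    refine monotoneOn_of_hasDerivAt (convex_Ioi 0) (fun z hz => hasDerivAt_pe hz) ?_
    intro z hz
    rw [interior_Ioi] at hz
    exact mul_nonneg (eta_pos z).le (bd_pos hz).le
  refine le_of_tendsto tendsto_pe ?_
  filter_upwards [Ioo_mem_nhdsGT hv] with u hu
  exact hm hu.1 hv hu.2.le

/-- the value `u tanh u - 2 (log 2 - eta u)` is nonnegative -/
lemma val_nonneg {u : ℝ} (hu : 0 < u) : 0 ≤ u * tanh u - 2 * (log 2 - eta u) := by
  have hm : MonotoneOn (fun u => u * tanh u - 2 * (log 2 - eta u)) (Ici 0) := by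
    refine monotoneOn_of_hasDerivAt (F' := fun u => 1 * tanh u + u * (1 / cosh u ^ 2) -
      2 * (-(-(u / cosh u ^ 2)))) (convex_Ici 0) ?_ ?_
    · intro x _
      exact ((hasDerivAt_id x).mul (hasDerivAt_tanh x)).sub
        (((hasDerivAt_eta x).const_sub (log 2)).const_mul 2)
    · intro x hx
      rw [interior_Ici] at hx
      have hx' : (0:ℝ) < x := hx
      have hc : 0 < cosh x := cosh_pos x
      have h1 : x ≤ sinh x * cosh x := by
        have a1 : x ≤ sinh x := self_le_sinh_iff.2 hx'.le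
        have a2 : 1 ≤ cosh x := one_le_cosh x
        nlinarith
      have : 1 * tanh x + x * (1 / cosh x ^ 2) - 2 * (-(-(x / cosh x ^ 2))) =
          (sinh x * cosh x - x) / cosh x ^ 2 := by
        rw [tanh_eq_sinh_div_cosh]
        field_simp
        ring
      rw [this]
      exact div_nonneg (by linarith) (by positivity)
  have := hm (mem_Ici.2 le_rfl) (mem_Ici.2 hu.le) hu.le
  simpa [eta_zero] using this

end Vale.Agent.P322
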