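import Mathlib
import Vale.Agent.P322.Pfun1

/-! The one variable inequality (K). -/

namespace Vale.Agent.P322

open Real Set Filter Topology

lemma log93 : 2568 / 1000 ≤ log (93 / 7) ∧ log (93 / 7) ≤ 2588 / 1000 := by
  have h2 := log_two_gt_d9
  have h2' := log_two_lt_d9
  have e : log (93 / 7) = 4 * log 2 - log (112 / 93) := by
    have : (93 / 7 : ℝ) = 2 ^ 4 / (112 / 93) := by norm_num
    rw [this, log_div (by norm_num) (by norm_num), log_pow]
    push_cast; ring
  have a1 : log (112 / 93) ≤ 112 / 93 - 1 := log_le_sub_one_of_pos (by norm_num)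
  have a2 : 2 * (19 / 93) / (19 / 93 + 2) ≤ log (1 + 19 / 93) :=
    le_log_one_add_of_nonneg (by norm_num)
  have e2 : (1 : ℝ) + 19 / 93 = 112 / 93 := by norm_num
  rw [e2] at a2
  rw [e]
  constructor
  · norm_num at a1 ⊢
    linarith
  · norm_num at a2 ⊢
    linarith

lemma artanh86 : artanh (86 / 100) = 1 / 2 * log (93 / 7) := by
  rw [artanh_eq_half_log ⟨by norm_num, by norm_num⟩]
  norm_num

/-- step 2 -/
lemma artanh_upper {a : ℝ} (h0 : 0 ≤ a) (h1 : a ≤ 86 / 100) :
    artanh a * (1 - 4569 / 10000 * a ^ 2) ≤ a := by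
  have hpos : ∀ x : ℝ, 0 ≤ x → x ≤ 86 / 100 → 0 < 1 - 4569 / 10000 * x ^ 2 := by
    intro x _ _; nlinarith
  have key := nonneg_of_single_crossing (F := fun x => x / (1 - 4569 / 10000 * x ^ 2) - artanh x)
    (F' := fun x => (1 * (1 - 4569 / 10000 * x ^ 2) - x * (-(4569 / 10000 * (2 * x)))) /
      (1 - 4569 / 10000 * x ^ 2) ^ 2 - 1 / (1 - x ^ 2)) (a := 0) (b := 86 / 100) ?_ ?_ ?_ ?_ a ⟨h0, h1⟩
  · have := hpos a h0 h1
    simp only [sub_nonneg] at key
    rwa [le_div_iff₀ this] at key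
  · intro z hz
    have hd : HasDerivAt (fun x : ℝ => 1 - 4569 / 10000 * x ^ 2) (-(4569 / 10000 * (2 * z))) z := by
      have := ((hasDerivAt_pow 2 z).const_mul (4569 / 10000)).const_sub 1
      simpa using this
    exact ((hasDerivAt_id z).div hd (hpos z hz.1 hz.2).ne').sub
      (hasDerivAt_artanh (by linarith [hz.1]) (by linarith [hz.2]))
  · intro y hy hy' z hz
    have hform : ∀ x : ℝ, 0 < x → x < 86 / 100 →
        (1 * (1 - 4569 / 10000 * x ^ 2) - x * (-(4569 / 10000 * (2 * x)))) /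
          (1 - 4569 / 10000 * x ^ 2) ^ 2 - 1 / (1 - x ^ 2) =
        x ^ 2 * ((3 * (4569 / 10000) - 1) - 4569 / 10000 * (1 + 4569 / 10000) * x ^ 2) /
          ((1 - 4569 / 10000 * x ^ 2) ^ 2 * (1 - x ^ 2)) := by
      intro x hx hx'
      have p1 := hpos x hx.le hx'.le
      have p2 : 0 < 1 - x ^ 2 := by nlinarith
      rw [div_sub_div _ _ (by positivity) p2.ne']
      congr 1
      ring
    have hsgn : ∀ x : ℝ, 0 < x → x < 86 / 100 →
        0 < ((1 - 4569 / 10000 * x ^ 2) ^ 2 * (1 - x ^ 2)) := by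
      intro x hx hx'
      have p1 := hpos x hx.le hx'.le
      have p2 : 0 < 1 - x ^ 2 := by nlinarith
      positivity
    have hz2 : z < 86 / 100 := hz.2.trans hy.2
    rw [hform y hy.1 hy.2] at hy'
    rw [hform z hz.1 hz2]
    refine div_nonneg ?_ (hsgn z hz.1 hz2).le
    rw [div_nonneg_iff] at hy'
    have hy'' : 0 ≤ y ^ 2 * ((3 * (4569 / 10000) - 1) - 4569 / 10000 * (1 + 4569 / 10000) * y ^ 2) := by
      rcases hy' with h | h
      · exact h.1
      · exact absurd h.2 (not_le.2 (hsgn y hy.1 hy.2))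
    have hyp : (0:ℝ) < y ^ 2 := pow_pos hy.1 2
    have h3 : 0 ≤ (3 * (4569 / 10000) - 1) - 4569 / 10000 * (1 + 4569 / 10000) * y ^ 2 :=
      nonneg_of_mul_nonneg_right hy'' hyp
    refine mul_nonneg (sq_nonneg z) ?_
    have : z ^ 2 ≤ y ^ 2 := pow_le_pow_left₀ hz.1.le hz.2.le 2
    nlinarith
  · simp
  · rw [artanh86]
    have := log93.2
    norm_num
    linarith

section J

noncomputable def J0 (a : ℝ) : ℝ := log 2 * ((1 - a ^ 2) * artanh a) - a * hh a
noncomputable def J1 (a : ℝ) : ℝ := log 2 * (1 - 2 * a * artanh a) - hh a + a * artanh a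
noncomputable def J2 (a : ℝ) : ℝ :=
  (2 - 2 * log 2) * artanh a - (2 * log 2 - 1) * (a / (1 - a ^ 2))

lemma hasDerivAt_J0 {a : ℝ} (h0 : -1 < a) (h1 : a < 1) : HasDerivAt J0 (J1 a) a := by
  have p : 1 - a ^ 2 ≠ 0 := by
    have : 0 < 1 - a ^ 2 := by nlinarith
    exact this.ne'
  have hd : HasDerivAt (fun x : ℝ => 1 - x ^ 2) (-(2 * a)) a := by
    have := (hasDerivAt_pow 2 a).const_sub 1
    simpa using this
  have := ((hd.mul (hasDerivAt_artanh h0 h1)).const_mul (log 2)).sub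
    ((hasDerivAt_id a).mul (hasDerivAt_hh h0 h1))
  refine this.congr_deriv ?_
  unfold J1
  simp only [id]
  field_simp
  ring

lemma hasDerivAt_J1 {a : ℝ} (h0 : -1 < a) (h1 : a < 1) : HasDerivAt J1 (J2 a) a := by
  have p : 1 - a ^ 2 ≠ 0 := by
    have : 0 < 1 - a ^ 2 := by nlinarith
    exact this.ne'
  have hd : HasDerivAt (fun x : ℝ => 1 - 2 * x * artanh x) (-(2 * 1 * artanh a +
      2 * a * (1 / (1 - a ^ 2)))) a :=
    (((hasDerivAt_id a).const_mul 2).mul (hasDerivAt_artanh h0 h1)).const_sub 1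
  have := ((hd.const_mul (log 2)).sub (hasDerivAt_hh h0 h1)).add
    ((hasDerivAt_id a).mul (hasDerivAt_artanh h0 h1))
  refine this.congr_deriv ?_
  unfold J2
  simp only [id]
  field_simp
  ring

lemma hasDerivAt_J2 {a : ℝ} (h0 : -1 < a) (h1 : a < 1) :
    HasDerivAt J2 (((3 - 4 * log 2) - a ^ 2) / (1 - a ^ 2) ^ 2) a := by
  have p : 1 - a ^ 2 ≠ 0 := by
    have : 0 < 1 - a ^ 2 := by nlinarith
    exact this.ne'
  have hd : HasDerivAt (fun x : ℝ => 1 - x ^ 2) (-(2 * a)) a := by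
    have := (hasDerivAt_pow 2 a).const_sub 1
    simpa using this
  have := ((hasDerivAt_artanh h0 h1).const_mul (2 - 2 * log 2)).sub
    (((hasDerivAt_id a).div hd p).const_mul (2 * log 2 - 1))
  refine this.congr_deriv ?_
  simp only [id]
  field_simp
  ring

lemma J2_prop {b : ℝ} (h1 : b < 1) (hb : 0 ≤ J2 b) : ∀ z ∈ Icc 0 b, 0 ≤ J2 z := by
  refine nonneg_of_single_crossing (F' := fun a => ((3 - 4 * log 2) - a ^ 2) / (1 - a ^ 2) ^ 2)
    ?_ ?_ ?_ hb
  · intro z hz
    exact hasDerivAt_J2 (by linarith [hz.1]) (by linarith [hz.2])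
  · intro y hy hy' z hz
    have p1 : (0:ℝ) < (1 - y ^ 2) ^ 2 := by
      have : 0 < 1 - y ^ 2 := by nlinarith [hy.1, hy.2]
      positivity
    have h3 : 0 ≤ 3 - 4 * log 2 - y ^ 2 := by
      by_contra hc
      push Not at hc
      exact absurd hy' (not_le.2 (div_neg_of_neg_of_pos hc p1))
    refine div_nonneg ?_ (sq_nonneg _)
    have : z ^ 2 ≤ y ^ 2 := pow_le_pow_left₀ hz.1.le hz.2.le 2
    linarith
  · simp [J2, artanh_zero]

lemma J1_prop {b : ℝ} (h1 : b < 1) (hb : 0 ≤ J1 b) : ∀ z ∈ Icc 0 b, 0 ≤ J1 z := by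
  refine nonneg_of_single_crossing (F' := J2) ?_ ?_ ?_ hb
  · intro z hz
    exact hasDerivAt_J1 (by linarith [hz.1]) (by linarith [hz.2])
  · intro y hy hy' z hz
    exact J2_prop (hy.2.trans h1) hy' z ⟨hz.1.le, hz.2.le⟩
  · simp [J1, artanh_zero, hh_zero]

lemma J0_prop {b : ℝ} (h1 : b < 1) (hb : 0 ≤ J0 b) : ∀ z ∈ Icc 0 b, 0 ≤ J0 z := by
  refine nonneg_of_single_crossing (F' := J1) ?_ ?_ ?_ hb
  · intro z hz
    exact hasDerivAt_J0 (by linarith [hz.1]) (by linarith [hz.2])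
  · intro y hy hy' z hz
    exact J1_prop (hy.2.trans h1) hy' z ⟨hz.1.le, hz.2.le⟩
  · simp [J0, artanh_zero]

lemma J0_86 : 0 ≤ J0 (86 / 100) := by
  have h2 := log_two_gt_d9
  have h2' := log_two_lt_d9
  have hA := log93.1
  unfold J0
  rw [hh_formula (by norm_num) (by norm_num), artanh86]
  have e1 : (1 : ℝ) - (86 / 100) ^ 2 = (651 * 4 / 2500) / 2 ^ 2 := by norm_num
  have e2 : log ((1 : ℝ) - (86 / 100) ^ 2) = log (651 * 4 / 2500) - 2 * log 2 := by
    rw [e1, log_div (by norm_num) (by norm_num), log_pow]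
    push_cast; ring
  have a1 : -(2500 / (651 * 4) - 1) ≤ log (651 * 4 / 2500) := by
    have := one_sub_inv_le_log_of_pos (x := 651 * 4 / 2500) (by norm_num)
    norm_num at this ⊢
    linarith
  rw [e2]
  nlinarith

end J

/-- step 1 -/
lemma hh_upper {a : ℝ} (h0 : 0 ≤ a) (h1 : a ≤ 86 / 100) :
    a * hh a ≤ log 2 * ((1 - a ^ 2) * artanh a) := by
  have := J0_prop (by norm_num) J0_86 a ⟨h0, h1⟩
  unfold J0 at this
  linarith

lemma exp_form (u : ℝ) : cosh u = exp u * (1 + exp (-(2 * u))) / 2 ∧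
    sinh u = exp u * (1 - exp (-(2 * u))) / 2 := by
  have : exp u * exp (-(2 * u)) = exp (-u) := by rw [← exp_add]; congr 1; ring
  constructor
  · rw [cosh_eq]; linarith
  · rw [sinh_eq]; linarith

/-- large `u`: upper bound for `eta` -/
lemma eta_upper {u : ℝ} (hu : 0 < u) : eta u ≤ (1 + 2 * u) * exp (-(2 * u)) := by
  set w := exp (-(2 * u)) with hw
  have hw0 : 0 < w := exp_pos _
  have hc := (exp_form u).1
  have hs := (exp_form u).2
  rw [← hw] at hc hs
  have ht : tanh u = (1 - w) / (1 + w) := by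
    rw [tanh_eq_sinh_div_cosh, hc, hs]
    have := (exp_pos u).ne'
    field_simp
  have he : eta u = log (1 + w) + u * (1 - tanh u) := by
    unfold eta
    rw [hh_formula (tanh_mem u).1 (tanh_mem u).2, one_sub_tanh_sq, artanh_tanh,
      one_div (cosh u ^ 2), log_inv,
      log_pow, hc, log_div (by positivity) (by norm_num), log_mul (exp_pos u).ne' (by positivity),
      log_exp]
    push_cast; ring
  have h1 : log (1 + w) ≤ w := by
    have := log_le_sub_one_of_pos (by positivity : 0 < 1 + w)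
    linarith
  have h2 : u * (1 - tanh u) ≤ 2 * u * w := by
    rw [ht]
    have : 1 - (1 - w) / (1 + w) = 2 * w / (1 + w) := by field_simp; ring
    rw [this]
    have h3 : 2 * w / (1 + w) ≤ 2 * w := div_le_self (by positivity) (by linarith)
    have := mul_le_mul_of_nonneg_left h3 hu.le
    linarith
  rw [he]
  linarith

/-- inequality (K) -/
theorem K_ineq {u : ℝ} (hu : 0 < u) : eta u ^ 2 * (bd u * cosh u ^ 2) ≤ 7 / 10 * u := by
  have h2 := log_two_gt_d9
  have h2' := log_two_lt_d9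
  have hep := eta_pos u
  rcases le_or_gt (tanh u) (86 / 100) with ha | ha
  · -- regime 1
    have h0 : 0 < tanh u := tanh_pos' hu
    have s1 := hh_upper h0.le ha
    have s2 := artanh_upper h0.le ha
    rw [artanh_tanh] at s1 s2
    change tanh u * eta u ≤ _ at s1
    set a := tanh u with hadef
    have hcs : cosh u ^ 2 = 1 / (1 - a ^ 2) := by
      rw [hadef, one_sub_tanh_sq]; field_simp
    have hp : 0 < 1 - a ^ 2 := by nlinarith
    have hsh : sinh u = a * cosh u := by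
      rw [hadef, tanh_eq_sinh_div_cosh]
      have := (cosh_pos u).ne'
      field_simp
    have hs2 : sinh (2 * u) = 2 * a / (1 - a ^ 2) := by
      rw [sinh_two_mul, hsh]
      have : 2 * (a * cosh u) * cosh u = 2 * a * cosh u ^ 2 := by ring
      rw [this, hcs]; ring
    have hc2 : cosh (2 * u) = (1 + a ^ 2) / (1 - a ^ 2) := by
      rw [cosh_two_mul, hsh]
      have : cosh u ^ 2 + (a * cosh u) ^ 2 = (1 + a ^ 2) * cosh u ^ 2 := by ring
      rw [this, hcs]; ring
    have hbd : bd u * cosh u ^ 2 = (u * (1 + a ^ 2) - a) / ((1 - a ^ 2) ^ 2 * u ^ 2) := by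
      unfold bd
      rw [hcs, hs2, hc2]
      field_simp
    rw [hbd, mul_div_assoc', div_le_iff₀ (by positivity)]
    -- eta^2 (u(1+a^2)-a) ≤ .7 u * ((1-a^2)^2 u^2)
    set X := u * (1 + a ^ 2) - a with hX
    have hX0 : 0 ≤ X := by
      have : 0 < bd u * cosh u ^ 2 := mul_pos (bd_pos hu) (pow_pos (cosh_pos u) 2)
      rw [hbd] at this
      have h3 : 0 < (1 - a ^ 2) ^ 2 * u ^ 2 := by positivity
      have := mul_pos this h3
      rw [div_mul_cancel₀ _ h3.ne'] at this
      exact this.le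
    have hX1 : X ≤ (1 + 4569 / 10000) * (u * a ^ 2) := by
      rw [hX]; nlinarith
    have ha2 : 0 < a ^ 2 := by positivity
    have q1 : a ^ 2 * eta u ^ 2 ≤ (log 2 * ((1 - a ^ 2) * u)) ^ 2 := by
      have := pow_le_pow_left₀ (by positivity) s1 2
      calc a ^ 2 * eta u ^ 2 = (a * eta u) ^ 2 := by ring
        _ ≤ _ := this
    have q2 : log 2 ^ 2 * (1 + 4569 / 10000) ≤ 7 / 10 := by
      have : log 2 ^ 2 ≤ 0.6931471808 ^ 2 := pow_le_pow_left₀ (by linarith) h2'.le 2
      norm_num at this ⊢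
      linarith
    have q3 : a ^ 2 * (eta u ^ 2 * X) ≤ a ^ 2 * (7 / 10 * u * ((1 - a ^ 2) ^ 2 * u ^ 2)) := by
      calc a ^ 2 * (eta u ^ 2 * X) = (a ^ 2 * eta u ^ 2) * X := by ring
        _ ≤ (log 2 * ((1 - a ^ 2) * u)) ^ 2 * ((1 + 4569 / 10000) * (u * a ^ 2)) :=
            mul_le_mul q1 hX1 hX0 (by positivity)
        _ = (log 2 ^ 2 * (1 + 4569 / 10000)) * (((1 - a ^ 2) * u) ^ 2 * (u * a ^ 2)) := by ring
        _ ≤ 7 / 10 * (((1 - a ^ 2) * u) ^ 2 * (u * a ^ 2)) :=
            mul_le_mul_of_nonneg_right q2 (by positivity)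
        _ = _ := by ring
    exact le_of_mul_le_mul_left q3 ha2
  · -- regime 2
    have hz : 2568 / 1000 ≤ 2 * u := by
      have h4 := artanh_lt_artanh (x := 86 / 100) (y := tanh u) (by norm_num) (tanh_lt_one u) ha
      rw [artanh86, artanh_tanh] at h4
      have := log93.1
      linarith
    set w := exp (-(2 * u)) with hw
    have hw0 : 0 < w := exp_pos _
    have hc := (exp_form u).1
    have hs := (exp_form u).2
    have het := eta_upper hu
    rw [← hw] at hc hs het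
    have ht : tanh u = (1 - w) / (1 + w) := by
      rw [tanh_eq_sinh_div_cosh, hc, hs]
      have := (exp_pos u).ne'
      field_simp
    have hw1 : w ≤ 7 / 93 := by
      rw [ht, lt_div_iff₀ (by positivity)] at ha
      linarith
    have he : exp u ^ 2 * w = 1 := by
      rw [hw, ← exp_nat_mul, ← exp_add]
      have : (↑2 : ℝ) * u + -(2 * u) = 0 := by ring
      push_cast
      rw [this, exp_zero]
    have he' : exp u ^ 2 = 1 / w := by field_simp; exact he
    have hcs : cosh u ^ 2 = (1 + w) ^ 2 / (4 * w) := by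
      rw [hc]
      have : (exp u * (1 + w) / 2) ^ 2 = exp u ^ 2 * (1 + w) ^ 2 / 4 := by ring
      rw [this, he']; field_simp
    have hs2 : sinh (2 * u) = (1 / w - w) / 2 := by
      rw [sinh_two_mul, hc, hs]
      have : 2 * (exp u * (1 - w) / 2) * (exp u * (1 + w) / 2) =
        exp u ^ 2 * (1 - w ^ 2) / 2 := by ring
      rw [this, he']; field_simp
    have hc2 : cosh (2 * u) = (1 / w + w) / 2 := by
      rw [cosh_two_mul, hc, hs]
      have : (exp u * (1 + w) / 2) ^ 2 + (exp u * (1 - w) / 2) ^ 2 =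
        exp u ^ 2 * (1 + w ^ 2) / 2 := by ring
      rw [this, he']; field_simp
    set z := 2 * u with hzdef
    have hu' : u = z / 2 := by rw [hzdef]; ring
    have hz0 : 0 < z := by linarith
    have hbd : bd u * cosh u ^ 2 = ((z - 1) + (z + 1) * w ^ 2) * (1 + w) ^ 2 / (4 * w ^ 2 * z ^ 2) := by
      unfold bd
      rw [← hzdef, hcs, hs2, hc2, hu']
      field_simp
      ring
    rw [hbd, mul_div_assoc', div_le_iff₀ (by positivity)]
    have q0 : eta u ^ 2 ≤ ((1 + z) * w) ^ 2 := pow_le_pow_left₀ hep.le het 2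
    have q1 : (z + 1) * w ^ 2 ≤ 13 / 1000 * (z - 1) := by
      have : w ^ 2 ≤ (7 / 93) ^ 2 := pow_le_pow_left₀ hw0.le hw1 2
      nlinarith
    have q2 : (1 + w) ^ 2 ≤ (100 / 93) ^ 2 := pow_le_pow_left₀ (by positivity) (by linarith) 2
    have q3 : (z - 1) + (z + 1) * w ^ 2 ≤ 1013 / 1000 * (z - 1) := by linarith
    have q4 : (1 + z) ^ 2 * (z - 1) ≤ 32 / 27 * z ^ 3 := by
      have : 0 ≤ (z - 3) ^ 2 * (5 * z + 3) := by positivity
      nlinarith
    have hz1 : 0 < z - 1 := by linarith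
    calc eta u ^ 2 * (((z - 1) + (z + 1) * w ^ 2) * (1 + w) ^ 2)
        ≤ ((1 + z) * w) ^ 2 * ((1013 / 1000 * (z - 1)) * (100 / 93) ^ 2) := by
          refine mul_le_mul q0 ?_ (by positivity) (by positivity)
          exact mul_le_mul q3 q2 (by positivity) (by positivity)
      _ = w ^ 2 * ((1 + z) ^ 2 * (z - 1)) * (1013 / 1000 * (100 / 93) ^ 2) := by ring
      _ ≤ w ^ 2 * (32 / 27 * z ^ 3) * (1013 / 1000 * (100 / 93) ^ 2) := by
          refine mul_le_mul_of_nonneg_right ?_ (by norm_num)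
          exact mul_le_mul_of_nonneg_left q4 (by positivity)
      _ = (32 / 27 * (1013 / 1000 * (100 / 93) ^ 2)) * (w ^ 2 * z ^ 3) := by ring
      _ ≤ 14 / 10 * (w ^ 2 * z ^ 3) := by
          refine mul_le_mul_of_nonneg_right (by norm_num) (by positivity)
      _ = 7 / 10 * u * (4 * w ^ 2 * z ^ 2) := by rw [hu']; ring

end Vale.Agent.P322
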