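import Mathlib
import Vale.Agent.P322.Iface

/-!
The pointwise inequality (L2): for `a, b` in `(-1,1)`,
`K(a,b)/4 ≥ ψ((a-b)/2, (h(a)+h(b))/2)`, and its linear (support) form.
-/

namespace Vale.Agent.P322

open Finset Real Set

variable {n : ℕ}

lemma hasDerivAt_artanhL {t : ℝ} (h0 : -1 < t) (h1 : t < 1) :
    HasDerivAt artanh (1 / (1 - t ^ 2)) t := by
  have p1 : 0 < 1 + t := by linarith
  have p2 : 0 < 1 - t := by linarith
  have e : artanh =ᶠ[nhds t] fun x => 1 / 2 * (log (1 + x) - log (1 - x)) := by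
    filter_upwards [Ioo_mem_nhds h0 h1] with x hx
    rw [artanh_eq_half_log ⟨hx.1.le, hx.2.le⟩, log_div (by linarith [hx.1]) (by linarith [hx.2])]
  have d1 : HasDerivAt (fun x : ℝ => log (1 + x)) (1 / (1 + t)) t := by
    simpa using ((hasDerivAt_id t).const_add 1).log p1.ne'
  have d2 : HasDerivAt (fun x : ℝ => log (1 - x)) (-1 / (1 - t)) t := by
    simpa using ((hasDerivAt_id t).const_sub 1).log p2.ne'
  refine (((d1.sub d2).const_mul (1 / 2)).congr_of_eventuallyEq e).congr_deriv ?_
  have : (1 : ℝ) - t ^ 2 ≠ 0 := by nlinarith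
  have q1 := p1.ne'
  have q2 := p2.ne'
  field_simp
  ring

lemma hh_tanh (u : ℝ) : hh (tanh u) = log (2 * cosh u) - u * tanh u := by
  have hc : 0 < cosh u := cosh_pos u
  have h1 : (1 + tanh u) / 2 = exp u / (2 * cosh u) := by
    rw [tanh_eq_sinh_div_cosh]
    have : exp u = cosh u + sinh u := (cosh_add_sinh u).symm
    rw [this]
    field_simp
  have h2 : (1 - tanh u) / 2 = exp (-u) / (2 * cosh u) := by
    rw [tanh_eq_sinh_div_cosh]
    have : exp (-u) = cosh u - sinh u := (cosh_sub_sinh u).symm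
    rw [this]
    field_simp
  have l1 : log ((1 + tanh u) / 2) = u - log (2 * cosh u) := by
    rw [h1, log_div (exp_pos u).ne' (by positivity), log_exp]
  have l2 : log ((1 - tanh u) / 2) = -u - log (2 * cosh u) := by
    rw [h2, log_div (exp_pos _).ne' (by positivity), log_exp]
  rw [hh_eq, l1, l2]
  ring

/-- `t/(1-t²) ≥ artanh t` -/
lemma artanh_le_div {t : ℝ} (h0 : 0 ≤ t) (h1 : t < 1) : artanh t ≤ t / (1 - t ^ 2) := by
  have key : MonotoneOn (fun t : ℝ => t / (1 - t ^ 2) - artanh t) (Icc 0 t) := by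
    refine monotoneOn_of_hasDerivWithinAt_nonneg (f' := fun t => 2 * t ^ 2 / (1 - t ^ 2) ^ 2)
      (convex_Icc 0 t) ?_ ?_ ?_
    · intro s hs
      have hs1 : s < 1 := hs.2.trans_lt h1
      have h2 : (1 : ℝ) - s ^ 2 ≠ 0 := by nlinarith [hs.1]
      have := (hasDerivAt_artanhL (by linarith [hs.1]) hs1).continuousAt
      exact (ContinuousAt.sub (by fun_prop (disch := exact h2)) this).continuousWithinAt
    · rw [interior_Icc]
      intro s hs
      have hs1 : s < 1 := hs.2.trans h1
      have h2 : (1 : ℝ) - s ^ 2 ≠ 0 := by nlinarith [hs.1]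
      have d1 : HasDerivAt (fun t : ℝ => t / (1 - t ^ 2))
          ((1 * (1 - s ^ 2) - s * (-(2 * s))) / (1 - s ^ 2) ^ 2) s := by
        have := ((hasDerivAt_pow 2 s).const_sub 1)
        exact (hasDerivAt_id s).div (this.congr_deriv (by norm_num)) h2
      refine ((d1.sub (hasDerivAt_artanhL (by linarith [hs.1]) hs1)).congr_deriv ?_).hasDerivWithinAt
      field_simp
      ring
    · intro s hs
      positivity
  have := key ⟨le_rfl, h0⟩ ⟨h0, le_rfl⟩ h0
  simp only [zero_div, artanh_zero, sub_zero] at this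
  norm_num at this
  linarith

/-- `2 φ(t) ≤ t artanh t` -/
lemma two_phi_le {t : ℝ} (h0 : 0 ≤ t) (h1 : t < 1) : 2 * (log 2 - hh t) ≤ t * artanh t := by
  have key : MonotoneOn (fun t : ℝ => t * artanh t - 2 * (log 2 - hh t)) (Icc 0 t) := by
    refine monotoneOn_of_hasDerivWithinAt_nonneg
      (f' := fun t => (1 * artanh t + t * (1 / (1 - t ^ 2))) - 2 * (0 - -artanh t))
      (convex_Icc 0 t) ?_ ?_ ?_
    · intro s hs
      have hs1 : s < 1 := hs.2.trans_lt h1
      have := (hasDerivAt_artanhL (by linarith [hs.1]) hs1).continuousAt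
      have c2 := continuous_hh.continuousAt (x := s)
      exact ((continuousAt_id.mul this).sub
        (continuousAt_const.mul (continuousAt_const.sub c2))).continuousWithinAt
    · rw [interior_Icc]
      intro s hs
      have hs1 : s < 1 := hs.2.trans h1
      have hs0 : -1 < s := by linarith [hs.1]
      exact (((hasDerivAt_id s).mul (hasDerivAt_artanhL hs0 hs1)).sub
        (((hasDerivAt_const s (log 2)).sub (hasDerivAt_hh hs0 hs1)).const_mul 2)).hasDerivWithinAt
    · rw [interior_Icc]
      intro s hs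
      have hs1 : s < 1 := hs.2.trans h1
      have := artanh_le_div hs.1.le hs1
      have e : s * (1 / (1 - s ^ 2)) = s / (1 - s ^ 2) := by ring
      rw [e]
      linarith
  have := key ⟨le_rfl, h0⟩ ⟨h0, le_rfl⟩ h0
  simp only [artanh_zero, hh_zero] at this
  linarith

/-- `h(t) ≥ (1 - t²) log 2` -/
lemma hh_ge {t : ℝ} (h0 : 0 ≤ t) (h1 : t ≤ 1) : (1 - t ^ 2) * log 2 ≤ hh t := by
  rcases h0.eq_or_lt with h | hpos
  · rw [← h, hh_zero]; simp
  have key : MonotoneOn (fun t : ℝ => (log 2 - hh t) / t ^ 2) (Icc t 1) := by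
    refine monotoneOn_of_hasDerivWithinAt_nonneg
      (f' := fun t => ((0 - -artanh t) * t ^ 2 - (log 2 - hh t) * (2 * t)) / (t ^ 2) ^ 2)
      (convex_Icc t 1) ?_ ?_ ?_
    · intro s hs
      have : s ^ 2 ≠ 0 := by have := hpos.trans_le hs.1; positivity
      have c2 := continuous_hh.continuousAt (x := s)
      exact ((continuousAt_const.sub c2).div ((continuous_pow 2).continuousAt) this).continuousWithinAt
    · rw [interior_Icc]
      intro s hs
      have hs0 : 0 < s := hpos.trans hs.1
      have : s ^ 2 ≠ 0 := by positivity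
      exact (((hasDerivAt_const s (log 2)).sub (hasDerivAt_hh (by linarith) hs.2)).div
        ((hasDerivAt_pow 2 s).congr_deriv (by norm_num)) this).hasDerivWithinAt
    · rw [interior_Icc]
      intro s hs
      have hs0 : 0 < s := hpos.trans hs.1
      have := two_phi_le hs0.le hs.2
      apply div_nonneg _ (by positivity)
      have e : (0 - -artanh s) * s ^ 2 - (log 2 - hh s) * (2 * s) =
        s * (s * artanh s - 2 * (log 2 - hh s)) := by ring
      rw [e]
      exact mul_nonneg hs0.le (by linarith)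
  have := key ⟨le_rfl, h1⟩ ⟨h1, le_rfl⟩ h1
  simp only [hh_one] at this
  rw [div_le_iff₀ (by positivity)] at this
  norm_num at this
  nlinarith

lemma mono_xlog {δ : ℝ} (hδ : 0 ≤ δ) {X : ℝ} (hX : 1 ≤ X) :
    (1 + δ) * log (1 + δ) ≤ (X + δ) * log (X + δ) - X * log X := by
  have key : MonotoneOn (fun X : ℝ => (X + δ) * log (X + δ) - X * log X) (Icc 1 X) := by
    refine monotoneOn_of_hasDerivWithinAt_nonneg (f' := fun X => log (X + δ) + 1 - (log X + 1))
      (convex_Icc 1 X) ?_ ?_ ?_
    · have h1 : Continuous fun X : ℝ => (X + δ) * log (X + δ) :=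
        continuous_mul_log.comp (by fun_prop : Continuous fun X : ℝ => X + δ)
      exact (h1.sub continuous_mul_log).continuousOn
    · rw [interior_Icc]
      intro s hs
      have hs0 : 0 < s := by linarith [hs.1]
      have d1 := (hasDerivAt_mul_log (x := s + δ) (by positivity)).comp_add_const s δ
      exact (d1.sub (hasDerivAt_mul_log hs0.ne')).hasDerivWithinAt
    · rw [interior_Icc]
      intro s hs
      have hs0 : 0 < s := by linarith [hs.1]
      have : log s ≤ log (s + δ) := log_le_log hs0 (by linarith)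
      linarith
  have := key ⟨le_rfl, hX⟩ ⟨hX, le_rfl⟩ hX
  simp only [log_one, mul_zero, sub_zero] at this
  exact this

lemma tanh_nonneg' {u : ℝ} (h : 0 ≤ u) : 0 ≤ tanh u := by
  rw [tanh_eq_sinh_div_cosh]
  exact div_nonneg (sinh_nonneg_iff.2 h) (cosh_pos u).le

/-- (L2) in hyperbolic parametrisation -/
theorem L2_tanh (w z : ℝ) :
    (cosh z) ^ 2 / (cosh (w + z) * cosh (w - z)) * hh (tanh z) ≤
      (hh (tanh (w + z)) + hh (tanh (w - z))) / 2 := by
  set C := cosh (w + z) * cosh (w - z) with hC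
  have hCpos : 0 < C := mul_pos (cosh_pos _) (cosh_pos _)
  have hX : (1 : ℝ) ≤ cosh z ^ 2 := by
    have := one_le_cosh z
    nlinarith
  have hw1 := cosh_sq w
  have hz1 := cosh_sq z
  have hCe : C = cosh z ^ 2 + sinh w ^ 2 := by
    rw [hC, cosh_add, cosh_sub]
    nlinarith
  -- the two sums
  have hsum : (w + z) * tanh (w + z) + (w - z) * tanh (w - z) =
      (2 * w * sinh w * cosh w + 2 * z * sinh z * cosh z) / C := by
    rw [tanh_eq_sinh_div_cosh, tanh_eq_sinh_div_cosh, hC]
    have h1 := (cosh_pos (w + z)).ne'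
    have h2 := (cosh_pos (w - z)).ne'
    field_simp
    rw [cosh_add, cosh_sub, sinh_add, sinh_sub]
    have e1 : sinh w ^ 2 = cosh w ^ 2 - 1 := by linarith
    have e2 : sinh z ^ 2 = cosh z ^ 2 - 1 := by linarith
    ring_nf
    rw [e1, e2]
    ring
  have hlog : log (2 * cosh (w + z)) + log (2 * cosh (w - z)) = log 4 + log C := by
    rw [← log_mul (by positivity) (by positivity), ← log_mul (by norm_num) hCpos.ne', hC]
    congr 1
    ring
  have hX2 : 2 * log (2 * cosh z) = log 4 + log (cosh z ^ 2) := by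
    rw [log_pow, log_mul (by norm_num) (cosh_pos z).ne']
    have : log (4:ℝ) = 2 * log 2 := by
      rw [show (4:ℝ) = 2 ^ 2 by norm_num, log_pow]; norm_num
    rw [this]
    push_cast
    ring
  -- base inequality at `z = 0`
  have hbase : w * sinh w * cosh w * 2 ≤ sinh w ^ 2 * log 4 +
      (1 + sinh w ^ 2) * log (1 + sinh w ^ 2) := by
    have hb : (1 - tanh w ^ 2) * log 2 ≤ hh (tanh w) := by
      rcases le_total 0 w with h | h
      · exact hh_ge (tanh_nonneg' h) (tanh_lt_one w).le
      · have h1 := hh_ge (t := tanh (-w)) (tanh_nonneg' (by linarith)) (tanh_lt_one _).le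
        rw [tanh_neg, hh_neg] at h1
        simpa using h1
    rw [hh_tanh] at hb
    have hcw := cosh_pos w
    have e1 : (1 : ℝ) + sinh w ^ 2 = cosh w ^ 2 := by linarith
    have e2 : log 4 = 2 * log 2 := by
      rw [show (4:ℝ) = 2 ^ 2 by norm_num, log_pow]; norm_num
    have e3 : log (2 * cosh w) = log 2 + log (cosh w) := log_mul (by norm_num) hcw.ne'
    rw [e1, log_pow, e2]
    push_cast
    have h3 := mul_le_mul_of_nonneg_left hb (by positivity : (0:ℝ) ≤ cosh w ^ 2)
    rw [e3, tanh_eq_sinh_div_cosh] at h3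
    have e4 : cosh w ^ 2 * ((1 - (sinh w / cosh w) ^ 2) * log 2) = log 2 := by
      field_simp
      rw [hw1]
      ring
    have e5 : cosh w ^ 2 * (log 2 + log (cosh w) - w * (sinh w / cosh w)) =
      cosh w ^ 2 * log 2 + cosh w ^ 2 * log (cosh w) - w * sinh w * cosh w := by
      field_simp
    rw [e4, e5] at h3
    have e9 : sinh w ^ 2 * log 2 = cosh w ^ 2 * log 2 - log 2 := by rw [hw1]; ring
    linarith
  have hmono := mono_xlog (sq_nonneg (sinh w)) hX
  rw [← hCe] at hmono
  rw [hh_tanh, hh_tanh, hh_tanh]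
  have e6 : (log (2 * cosh (w + z)) - (w + z) * tanh (w + z) +
      (log (2 * cosh (w - z)) - (w - z) * tanh (w - z))) / 2 =
      (log 4 + log C) / 2 - (w * sinh w * cosh w + z * sinh z * cosh z) / C := by
    have : (log (2 * cosh (w + z)) - (w + z) * tanh (w + z) +
      (log (2 * cosh (w - z)) - (w - z) * tanh (w - z))) =
      (log (2 * cosh (w + z)) + log (2 * cosh (w - z))) -
        ((w + z) * tanh (w + z) + (w - z) * tanh (w - z)) := by ring
    rw [this, hsum, hlog]
    ring
  have e7 : cosh z ^ 2 / C * (log (2 * cosh z) - z * tanh z) =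
      (cosh z ^ 2 * (log 4 + log (cosh z ^ 2)) / 2 - z * sinh z * cosh z) / C := by
    rw [← hX2, tanh_eq_sinh_div_cosh]
    have := (cosh_pos z).ne'
    field_simp
  rw [e6, e7, ← sub_nonneg]
  have e8 : (log 4 + log C) / 2 - (w * sinh w * cosh w + z * sinh z * cosh z) / C -
      (cosh z ^ 2 * (log 4 + log (cosh z ^ 2)) / 2 - z * sinh z * cosh z) / C =
      (C * (log 4 + log C) - 2 * (w * sinh w * cosh w) -
        cosh z ^ 2 * (log 4 + log (cosh z ^ 2))) / (2 * C) := by
    field_simp
    ring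
  rw [e8]
  apply div_nonneg _ (by positivity)
  have : C * log 4 = cosh z ^ 2 * log 4 + sinh w ^ 2 * log 4 := by rw [hCe]; ring
  nlinarith

/-! ### The support (linear) form -/

noncomputable def LL (t : ℝ) : ℝ := t * artanh t + hh t

lemma hasDerivAt_LL {t : ℝ} (h0 : -1 < t) (h1 : t < 1) : HasDerivAt LL (t / (1 - t ^ 2)) t := by
  have := ((hasDerivAt_id t).mul (hasDerivAt_artanhL h0 h1)).add (hasDerivAt_hh h0 h1)
  exact this.congr_deriv (by simp only [id]; ring)

lemma LL_ge {t : ℝ} (h0 : 0 ≤ t) (h1 : t < 1) : log 2 ≤ LL t := by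
  have key : MonotoneOn LL (Icc 0 t) := by
    refine monotoneOn_of_hasDerivWithinAt_nonneg (f' := fun t => t / (1 - t ^ 2))
      (convex_Icc 0 t) ?_ ?_ ?_
    · intro s hs
      exact (hasDerivAt_LL (by linarith [hs.1]) (hs.2.trans_lt h1)).continuousAt.continuousWithinAt
    · rw [interior_Icc]
      intro s hs
      exact (hasDerivAt_LL (by linarith [hs.1]) (hs.2.trans h1)).hasDerivWithinAt
    · rw [interior_Icc]
      intro s hs
      have : s < 1 := hs.2.trans h1
      have h3 : 0 < 1 - s ^ 2 := by nlinarith [hs.1]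
      exact div_nonneg hs.1.le h3.le
  have := key ⟨le_rfl, h0⟩ ⟨h0, le_rfl⟩ h0
  simpa [LL, hh_zero] using this

lemma LL_pos {t : ℝ} (h0 : 0 ≤ t) (h1 : t < 1) : 0 < LL t :=
  (log_pos (by norm_num)).trans_le (LL_ge h0 h1)

/-- slope in `-r` of the support function -/
noncomputable def l2be (c : ℝ) : ℝ := c ^ 2 / (1 - c ^ 2) / LL c

/-- slope in `x` of the support function -/
noncomputable def l2al (c : ℝ) : ℝ := artanh c + c / (1 - c ^ 2) - l2be c * artanh c

lemma l2be_nonneg {c : ℝ} (h0 : 0 ≤ c) (h1 : c < 1) : 0 ≤ l2be c := by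
  have h3 : 0 < 1 - c ^ 2 := by nlinarith
  exact div_nonneg (div_nonneg (sq_nonneg c) h3.le) (LL_pos h0 h1).le

lemma l2be_mono {s t : ℝ} (h0 : 0 ≤ s) (hst : s ≤ t) (h1 : t < 1) : l2be s ≤ l2be t := by
  have key : MonotoneOn l2be (Icc s t) := by
    refine monotoneOn_of_hasDerivWithinAt_nonneg
      (f' := fun t => ((2 * t * (1 - t ^ 2) - t ^ 2 * (-(2 * t))) / (1 - t ^ 2) ^ 2 * LL t -
        t ^ 2 / (1 - t ^ 2) * (t / (1 - t ^ 2))) / LL t ^ 2)
      (convex_Icc s t) ?_ ?_ ?_
    · intro x hx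
      have hx0 : 0 ≤ x := h0.trans hx.1
      have hx1 : x < 1 := hx.2.trans_lt h1
      have h3 : 0 < 1 - x ^ 2 := by nlinarith
      have c1 := (hasDerivAt_LL (by linarith) hx1).continuousAt
      exact (ContinuousAt.div ((continuous_pow 2).continuousAt.div
        (continuousAt_const.sub (continuous_pow 2).continuousAt) h3.ne') c1
        (LL_pos hx0 hx1).ne').continuousWithinAt
    · rw [interior_Icc]
      intro x hx
      have hx0 : 0 ≤ x := h0.trans hx.1.le
      have hx1 : x < 1 := hx.2.trans h1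
      have h3 : 0 < 1 - x ^ 2 := by nlinarith
      have d0 : HasDerivAt (fun x : ℝ => x ^ 2) (2 * x) x := by
        simpa using hasDerivAt_pow 2 x
      have d1 : HasDerivAt (fun x : ℝ => x ^ 2 / (1 - x ^ 2))
          ((2 * x * (1 - x ^ 2) - x ^ 2 * (-(2 * x))) / (1 - x ^ 2) ^ 2) x :=
        d0.div (d0.const_sub 1) h3.ne'
      exact (d1.div (hasDerivAt_LL (by linarith) hx1) (LL_pos hx0 hx1).ne').hasDerivWithinAt
    · rw [interior_Icc]
      intro x hx
      have hx0 : 0 ≤ x := h0.trans hx.1.le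
      have hx1 : x < 1 := hx.2.trans h1
      have h3 : 0 < 1 - x ^ 2 := by nlinarith
      have hL := LL_ge hx0 hx1
      have hl2 : (1:ℝ) / 2 < log 2 := by
        have := Real.log_two_gt_d9; linarith
      apply div_nonneg _ (sq_nonneg _)
      have e : (2 * x * (1 - x ^ 2) - x ^ 2 * (-(2 * x))) / (1 - x ^ 2) ^ 2 * LL x -
          x ^ 2 / (1 - x ^ 2) * (x / (1 - x ^ 2)) = x * (2 * LL x - x ^ 2) / (1 - x ^ 2) ^ 2 := by
        field_simp
        ring
      rw [e]
      apply div_nonneg _ (sq_nonneg _)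
      apply mul_nonneg hx0
      nlinarith
  exact key ⟨le_rfl, hst⟩ ⟨hst, le_rfl⟩ hst

lemma tangent {c t : ℝ} (hc0 : 0 < c) (hc1 : c < 1) (ht0 : 0 ≤ t) (ht1 : t < 1) :
    l2al c * t - l2be c * hh t ≤ t * artanh t := by
  rcases ht0.eq_or_lt with h | htpos
  · rw [← h]
    have := l2be_nonneg hc0.le hc1
    have h2 : 0 ≤ hh 0 := hh_nonneg (by norm_num) (by norm_num)
    nlinarith [mul_nonneg this h2]
  -- `j(t) = artanh t - l2al c + l2be c * hh t / t`
  set j : ℝ → ℝ := fun t => artanh t - l2al c + l2be c * (hh t / t) with hj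
  have hder : ∀ x, 0 < x → x < 1 → HasDerivAt j
      (LL x / x ^ 2 * (l2be x - l2be c)) x := by
    intro x hx0 hx1
    have h3 : 0 < 1 - x ^ 2 := by nlinarith
    have d1 := (hasDerivAt_artanhL (by linarith) hx1).sub_const (l2al c)
    have d2 := ((hasDerivAt_hh (by linarith) hx1).div (hasDerivAt_id x) hx0.ne').const_mul (l2be c)
    refine (d1.add d2).congr_deriv ?_
    have hL := (LL_pos hx0.le hx1).ne'
    have e1 : LL x / x ^ 2 * (l2be x - l2be c) = 1 / (1 - x ^ 2) - l2be c * (LL x / x ^ 2) := by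
      rw [l2be]
      field_simp
    rw [e1, LL]
    simp only [id]
    field_simp
    ring
  have hjc : j c = 0 := by
    have hL := (LL_pos hc0.le hc1).ne'
    have h3 : 0 < 1 - c ^ 2 := by nlinarith
    have e : l2be c * (hh c / c) = l2be c * (LL c) / c - l2be c * artanh c := by
      rw [LL]; field_simp; ring
    have e2 : l2be c * LL c = c ^ 2 / (1 - c ^ 2) := by rw [l2be]; field_simp
    simp only [hj, l2al]
    rw [e, e2]
    field_simp
    ring
  have hjt : 0 ≤ j t := by
    rcases le_total c t with hct | htc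
    · have key : MonotoneOn j (Icc c t) := by
        refine monotoneOn_of_hasDerivWithinAt_nonneg
          (f' := fun x => LL x / x ^ 2 * (l2be x - l2be c)) (convex_Icc c t) ?_ ?_ ?_
        · intro s hs
          exact (hder s (hc0.trans_le hs.1) (hs.2.trans_lt ht1)).continuousAt.continuousWithinAt
        · rw [interior_Icc]
          intro s hs
          exact (hder s (hc0.trans hs.1) (hs.2.trans ht1)).hasDerivWithinAt
        · rw [interior_Icc]
          intro s hs
          have hs0 : 0 < s := hc0.trans hs.1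
          have hs1 : s < 1 := hs.2.trans ht1
          exact mul_nonneg (div_nonneg (LL_pos hs0.le hs1).le (sq_nonneg s))
            (sub_nonneg.2 (l2be_mono hc0.le hs.1.le hs1))
      have := key ⟨le_rfl, hct⟩ ⟨hct, le_rfl⟩ hct
      rwa [hjc] at this
    · have key : AntitoneOn j (Icc t c) := by
        refine antitoneOn_of_hasDerivWithinAt_nonpos
          (f' := fun x => LL x / x ^ 2 * (l2be x - l2be c)) (convex_Icc t c) ?_ ?_ ?_
        · intro s hs
          exact (hder s (htpos.trans_le hs.1) (hs.2.trans_lt hc1)).continuousAt.continuousWithinAt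
        · rw [interior_Icc]
          intro s hs
          exact (hder s (htpos.trans hs.1) (hs.2.trans hc1)).hasDerivWithinAt
        · rw [interior_Icc]
          intro s hs
          have hs0 : 0 < s := htpos.trans hs.1
          have hs1 : s < 1 := hs.2.trans hc1
          exact mul_nonpos_of_nonneg_of_nonpos (div_nonneg (LL_pos hs0.le hs1).le (sq_nonneg s))
            (sub_nonpos.2 (l2be_mono hs0.le hs.2.le hc1))
      have := key ⟨le_rfl, htc⟩ ⟨htc, le_rfl⟩ htc
      rwa [hjc] at this
  have h5 := mul_nonneg htpos.le hjt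
  have e : t * j t = t * artanh t - l2al c * t + l2be c * hh t := by
    simp only [hj]; field_simp
  rw [e] at h5
  linarith

lemma l2al_nonneg {c : ℝ} (hc0 : 0 < c) (hc1 : c < 1) : 0 ≤ l2al c := by
  have hL := (LL_pos hc0.le hc1).ne'
  have h3 : 0 < 1 - c ^ 2 := by nlinarith
  have e2 : l2be c * LL c = c ^ 2 / (1 - c ^ 2) := by rw [l2be]; field_simp
  have h1 : c * l2al c = c * artanh c + l2be c * hh c := by
    have : l2be c * hh c = l2be c * LL c - l2be c * (c * artanh c) := by rw [LL]; ring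
    rw [this, e2, l2al]
    field_simp
    ring
  have h2 : 0 ≤ c * l2al c := by
    rw [h1]
    exact add_nonneg (mul_nonneg hc0.le (artanh_nonneg hc0.le))
      (mul_nonneg (l2be_nonneg hc0.le hc1) (hh_nonneg (by linarith) hc1.le))
  exact nonneg_of_mul_nonneg_right h2 hc0

/-- support form of (L2), ordered arguments -/
lemma L2_lin_aux {w z c : ℝ} (hz : 0 ≤ z) (hc0 : 0 < c) (hc1 : c < 1) :
    l2al c * ((tanh (w + z) - tanh (w - z)) / 2) -
      l2be c * ((hh (tanh (w + z)) + hh (tanh (w - z))) / 2) ≤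
      (tanh (w + z) - tanh (w - z)) / 2 * z := by
  have hC : 0 < cosh (w + z) * cosh (w - z) := mul_pos (cosh_pos _) (cosh_pos _)
  set s := cosh z ^ 2 / (cosh (w + z) * cosh (w - z)) with hs
  have hs0 : 0 ≤ s := by positivity
  have hd : (tanh (w + z) - tanh (w - z)) / 2 = s * tanh z := by
    rw [hs, tanh_eq_sinh_div_cosh, tanh_eq_sinh_div_cosh, tanh_eq_sinh_div_cosh]
    have h1 := (cosh_pos (w + z)).ne'
    have h2 := (cosh_pos (w - z)).ne'
    have h3 := (cosh_pos z).ne'
    have e : sinh (w + z) * cosh (w - z) - sinh (w - z) * cosh (w + z) =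
        2 * sinh z * cosh z := by
      have : sinh (w + z) * cosh (w - z) - sinh (w - z) * cosh (w + z) =
          sinh ((w + z) - (w - z)) := by rw [sinh_sub (w + z) (w - z)]; ring
      rw [this, show (w + z) - (w - z) = 2 * z by ring, sinh_two_mul]
    field_simp
    linarith
  have h2 := L2_tanh w z
  rw [← hs] at h2
  have h3 := tangent hc0 hc1 (tanh_nonneg' hz) (tanh_lt_one z)
  rw [artanh_tanh] at h3
  rw [hd]
  have h4 := mul_le_mul_of_nonneg_left h3 hs0
  have h5 := mul_le_mul_of_nonneg_left h2 (l2be_nonneg hc0.le hc1)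
  nlinarith

/-- support form of (L2) -/
theorem L2_lin {a b c : ℝ} (ha : -1 < a ∧ a < 1) (hb : -1 < b ∧ b < 1) (hc0 : 0 < c)
    (hc1 : c < 1) :
    l2al c * ((a - b) / 2) - l2be c * ((hh a + hh b) / 2) ≤ 1 / 4 * KK a b := by
  have main : ∀ a b : ℝ, (-1 < a ∧ a < 1) → (-1 < b ∧ b < 1) → b ≤ a →
      l2al c * ((a - b) / 2) - l2be c * ((hh a + hh b) / 2) ≤ 1 / 4 * KK a b := by
    intro a b ha hb hab
    have hz : 0 ≤ (artanh a - artanh b) / 2 := by
      have := artanh_le_artanh hb.1 ha.2 hab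
      linarith
    have h := L2_lin_aux (w := (artanh a + artanh b) / 2) (z := (artanh a - artanh b) / 2)
      hz hc0 hc1
    have e1 : (artanh a + artanh b) / 2 + (artanh a - artanh b) / 2 = artanh a := by ring
    have e2 : (artanh a + artanh b) / 2 - (artanh a - artanh b) / 2 = artanh b := by ring
    rw [e1, e2, tanh_artanh ha, tanh_artanh hb] at h
    refine h.trans (le_of_eq ?_)
    unfold KK
    ring
  rcases le_total b a with h | h
  · exact main a b ha hb h
  · have h1 := main b a hb ha h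
    have h2 : KK b a = KK a b := by unfold KK; ring
    rw [h2] at h1
    have := l2al_nonneg hc0 hc1
    nlinarith [mul_nonneg this (sub_nonneg.2 h)]

/-- pointwise (L2) -/
theorem L2_point {a b : ℝ} (ha : -1 < a ∧ a < 1) (hb : -1 < b ∧ b < 1) {c : ℝ} (hc0 : 0 < c)
    (hc1 : c < 1) (h : c * ((hh a + hh b) / 2) ≤ (a - b) / 2 * hh c) :
    (a - b) / 2 * artanh c ≤ 1 / 4 * KK a b := by
  refine le_trans ?_ (L2_lin ha hb hc0 hc1)
  have hL := (LL_pos hc0.le hc1).ne'
  have h3 : 0 < 1 - c ^ 2 := by nlinarith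
  have e2 : l2be c * LL c = c ^ 2 / (1 - c ^ 2) := by rw [l2be]; field_simp
  have hb := l2be_nonneg hc0.le hc1
  have key : c * ((a - b) / 2 * artanh c) ≤
      c * (l2al c * ((a - b) / 2) - l2be c * ((hh a + hh b) / 2)) := by
    have h1 : c * l2al c = c * artanh c + l2be c * hh c := by
      have : l2be c * hh c = l2be c * LL c - l2be c * (c * artanh c) := by rw [LL]; ring
      rw [this, e2, l2al]
      field_simp
      ring
    have h4 := mul_le_mul_of_nonneg_left h hb
    have e5 : c * (l2al c * ((a - b) / 2) - l2be c * ((hh a + hh b) / 2)) =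
      (c * l2al c) * ((a - b) / 2) - l2be c * (c * ((hh a + hh b) / 2)) := by ring
    rw [e5, h1]
    nlinarith
  exact le_of_mul_le_mul_left key hc0

/-- averaged support form -/
theorem L2_lin_avg {A B : Cube n → ℝ} (hA : ∀ x, -1 < A x ∧ A x < 1)
    (hB : ∀ x, -1 < B x ∧ B x < 1) {c : ℝ} (hc0 : 0 < c) (hc1 : c < 1) :
    l2al c * ((avg A - avg B) / 2) -
      l2be c * ((avg (fun x => hh (A x)) + avg fun x => hh (B x)) / 2) ≤
      1 / 4 * avg fun x => KK (A x) (B x) := by
  have h := avg_mono (n := n) fun x => L2_lin (hA x) (hB x) hc0 hc1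
  rw [avg_smul] at h
  refine le_trans (le_of_eq ?_) h
  have e : (fun x => l2al c * ((A x - B x) / 2) - l2be c * ((hh (A x) + hh (B x)) / 2)) =
      fun x => (l2al c / 2 * A x + (-(l2al c / 2)) * B x) +
        ((-(l2be c / 2)) * hh (A x) + (-(l2be c / 2)) * hh (B x)) := by
    funext x; ring
  rw [e, avg_add, avg_add, avg_add, avg_smul, avg_smul, avg_smul, avg_smul]
  ring

/-- averaged (L2): `ψ(x, r) ≤ E K / 4` -/
theorem L2_avg {A B : Cube n → ℝ} (hA : ∀ x, -1 < A x ∧ A x < 1)
    (hB : ∀ x, -1 < B x ∧ B x < 1) {c : ℝ} (hc0 : 0 < c) (hc1 : c < 1)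
    (h : c * ((avg (fun x => hh (A x)) + avg fun x => hh (B x)) / 2) ≤
      (avg A - avg B) / 2 * hh c) :
    (avg A - avg B) / 2 * artanh c ≤ 1 / 4 * avg fun x => KK (A x) (B x) := by
  refine le_trans ?_ (L2_lin_avg hA hB hc0 hc1)
  have hL := (LL_pos hc0.le hc1).ne'
  have h3 : 0 < 1 - c ^ 2 := by nlinarith
  have e2 : l2be c * LL c = c ^ 2 / (1 - c ^ 2) := by rw [l2be]; field_simp
  have hb := l2be_nonneg hc0.le hc1
  set x := (avg A - avg B) / 2
  set r := (avg (fun x => hh (A x)) + avg fun x => hh (B x)) / 2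
  have key : c * (x * artanh c) ≤ c * (l2al c * x - l2be c * r) := by
    have h1 : c * l2al c = c * artanh c + l2be c * hh c := by
      have : l2be c * hh c = l2be c * LL c - l2be c * (c * artanh c) := by rw [LL]; ring
      rw [this, e2, l2al]
      field_simp
      ring
    have h4 := mul_le_mul_of_nonneg_left h hb
    have e5 : c * (l2al c * x - l2be c * r) = (c * l2al c) * x - l2be c * (c * r) := by ring
    rw [e5, h1]
    nlinarith
  exact le_of_mul_le_mul_left key hc0

theorem l2Fact : L2Fact := by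
  intro n A B hA hB a l ha0 ha1 hl h1 h2
  have h := L2_avg hA hB ha0 ha1 (by
    rw [h2, h1]
    exact le_of_eq (by ring))
  rw [h1] at h
  refine le_trans (le_of_eq ?_) h
  ring

end Vale.Agent.P322
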