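import Mathlib
import Vale.Agent.P322.Iface

/-!
The Bregman-type inequality (L3).  With `z = (1+m)/d`, `y = (1-m)/d` the function
`KK/4 + g·(average entropy)` is `(d/2)·Ph g z y`, and `Ph` has very simple partial derivatives.
-/

namespace Vale.Agent.P322

open Real Set

namespace L3

noncomputable def Kf (z : ℝ) : ℝ := (log (z + 1) - log (z - 1)) / 2

noncomputable def Lf (z : ℝ) : ℝ := (log (z + 1) + log (z - 1)) / 2

noncomputable def Sf (z : ℝ) : ℝ := ((z + 1) * log (z + 1) + (z - 1) * log (z - 1)) / 2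

noncomputable def Ph (g z y : ℝ) : ℝ := Kf z + Kf y + g * ((z + y) * log (z + y) - Sf z - Sf y)

noncomputable def Lam (z y : ℝ) : ℝ := log (z + y) - Lf z

noncomputable def NN (z y : ℝ) : ℝ := (z ^ 2 - 1) * Lam z y

section deriv

variable {f h : ℝ → ℝ} {f' h' t : ℝ}

lemma dlog1 (hf : HasDerivAt f f' t) (h1 : 1 < f t) :
    HasDerivAt (fun t => log (f t + 1)) (f' / (f t + 1)) t :=
  (hf.add_const 1).log (by linarith)

lemma dlog2 (hf : HasDerivAt f f' t) (h1 : 1 < f t) :
    HasDerivAt (fun t => log (f t - 1)) (f' / (f t - 1)) t :=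
  (hf.sub_const 1).log (by linarith)

lemma hKf (hf : HasDerivAt f f' t) (h1 : 1 < f t) :
    HasDerivAt (fun t => Kf (f t)) (-f' / (f t ^ 2 - 1)) t := by
  refine (((dlog1 hf h1).sub (dlog2 hf h1)).div_const 2).congr_deriv ?_
  have a : f t + 1 ≠ 0 := by linarith
  have b : f t - 1 ≠ 0 := by linarith
  have c : f t ^ 2 - 1 ≠ 0 := by nlinarith
  field_simp
  ring

lemma hLf (hf : HasDerivAt f f' t) (h1 : 1 < f t) :
    HasDerivAt (fun t => Lf (f t)) (f' * f t / (f t ^ 2 - 1)) t := by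
  refine (((dlog1 hf h1).add (dlog2 hf h1)).div_const 2).congr_deriv ?_
  have a : f t + 1 ≠ 0 := by linarith
  have b : f t - 1 ≠ 0 := by linarith
  have c : f t ^ 2 - 1 ≠ 0 := by nlinarith
  field_simp
  ring

lemma hSf (hf : HasDerivAt f f' t) (h1 : 1 < f t) :
    HasDerivAt (fun t => Sf (f t)) (f' * (Lf (f t) + 1)) t := by
  have a : f t + 1 ≠ 0 := by linarith
  have b : f t - 1 ≠ 0 := by linarith
  refine ((((hf.add_const 1).mul (dlog1 hf h1)).add
    ((hf.sub_const 1).mul (dlog2 hf h1))).div_const 2).congr_deriv ?_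
  unfold Lf
  field_simp
  ring

lemma hlogadd (hf : HasDerivAt f f' t) (hh : HasDerivAt h h' t) (h1 : 0 < f t + h t) :
    HasDerivAt (fun t => log (f t + h t)) ((f' + h') / (f t + h t)) t :=
  (hf.add hh).log h1.ne'

lemma hPh (g : ℝ) (hf : HasDerivAt f f' t) (hh : HasDerivAt h h' t) (h1 : 1 < f t)
    (h2 : 1 < h t) :
    HasDerivAt (fun t => Ph g (f t) (h t))
      ((-1 / (f t ^ 2 - 1) + g * Lam (f t) (h t)) * f' +
        (-1 / (h t ^ 2 - 1) + g * Lam (h t) (f t)) * h') t := by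
  have c1 : f t ^ 2 - 1 ≠ 0 := by nlinarith
  have c2 : h t ^ 2 - 1 ≠ 0 := by nlinarith
  have c3 : f t + h t ≠ 0 := by linarith
  have e := ((hKf hf h1).add (hKf hh h2)).add ((((hf.add hh).mul
    (hlogadd hf hh (by linarith))).sub (hSf hf h1)).sub (hSf hh h2) |>.const_mul g)
  refine e.congr_deriv ?_
  unfold Lam
  rw [add_comm (h t) (f t)]
  simp only [Pi.add_apply]
  field_simp
  ring

end deriv

lemma Lf_le_log {z : ℝ} (hz : 1 < z) : Lf z ≤ log z := by
  unfold Lf
  rw [← log_mul (by linarith) (by linarith)]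
  have : log ((z + 1) * (z - 1)) ≤ log (z ^ 2) := log_le_log (by nlinarith) (by nlinarith)
  rw [log_pow] at this
  push_cast at this
  linarith

lemma Lam_ge {z y : ℝ} (hz : 1 < z) (hy : 0 < y) : y / (z + y) ≤ Lam z y := by
  have h1 := Lf_le_log hz
  have h2 := one_sub_inv_le_log_of_pos (x := (z + y) / z) (by positivity)
  rw [log_div (by linarith) (by linarith)] at h2
  have h3 : 1 - ((z + y) / z)⁻¹ = y / (z + y) := by
    have : z + y ≠ 0 := by linarith
    have : z ≠ 0 := by linarith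
    field_simp
    ring
  unfold Lam
  linarith

lemma Lam_ge2 {z y : ℝ} (hz : 1 < z) (hy : 0 < y) :
    1 - (z ^ 2 - 1) / (z + y) ^ 2 ≤ 2 * Lam z y := by
  have h1 : 0 < z ^ 2 - 1 := by nlinarith
  have h2 : 0 < z + y := by linarith
  have h3 := one_sub_inv_le_log_of_pos (x := (z + y) ^ 2 / (z ^ 2 - 1)) (by positivity)
  rw [log_div (by positivity) (by positivity), log_pow, inv_div] at h3
  have h4 : log (z ^ 2 - 1) = log (z + 1) + log (z - 1) := by
    rw [← log_mul (by linarith) (by linarith)]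
    congr 1
    ring
  rw [h4] at h3
  push_cast at h3
  unfold Lam Lf
  linarith

/-- the derivative of `NN` in the first variable is nonnegative -/
lemma NN_mono {y : ℝ} (hy : 0 < y) : MonotoneOn (fun z => NN z y) (Ioi 1) := by
  have hd : ∀ z ∈ Ioi (1 : ℝ), HasDerivAt (fun z => NN z y)
      (2 * z * Lam z y + (z ^ 2 - 1) * (1 / (z + y) - z / (z ^ 2 - 1))) z := by
    intro z hz
    have hz' : (1 : ℝ) < z := hz
    have h1 : HasDerivAt (fun z : ℝ => z ^ 2 - 1) (2 * z) z := by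
      simpa using (hasDerivAt_pow 2 z).sub_const 1
    have h2 : HasDerivAt (fun z : ℝ => Lam z y) (1 / (z + y) - z / (z ^ 2 - 1)) z := by
      have e1 := hlogadd (hasDerivAt_id z) (hasDerivAt_const z y) (by simp; linarith)
      have e2 := hLf (hasDerivAt_id z) hz'
      refine (e1.sub e2).congr_deriv ?_
      simp
    exact h1.mul h2
  refine monotoneOn_of_hasDerivWithinAt_nonneg (convex_Ioi 1)
    (fun z hz => (hd z hz).continuousAt.continuousWithinAt)
    (fun z hz => (hd z (interior_subset hz)).hasDerivWithinAt) ?_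
  rw [interior_Ioi]
  intro z hz
  have hz' : (1 : ℝ) < z := hz
  have h1 := Lam_ge2 hz' hy
  have h2 : 0 < z ^ 2 - 1 := by nlinarith
  have h3 : 0 < z + y := by linarith
  have h4 : (z ^ 2 - 1) * (1 / (z + y) - z / (z ^ 2 - 1)) = (z ^ 2 - 1) / (z + y) - z := by
    field_simp
  rw [h4]
  have h5 : z * (1 - (z ^ 2 - 1) / (z + y) ^ 2) + ((z ^ 2 - 1) / (z + y) - z) =
      (z ^ 2 - 1) * y / (z + y) ^ 2 := by
    field_simp
    ring
  have h6 : 0 ≤ (z ^ 2 - 1) * y / (z + y) ^ 2 := by positivity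
  nlinarith

lemma NN_symm_le {z y : ℝ} (hy : 1 < y) (hyz : y ≤ z) : NN y z ≤ NN z y := by
  have key : MonotoneOn (fun z => NN z y - NN y z) (Ici y) := by
    have hd : ∀ z ∈ Ici y, HasDerivAt (fun z => NN z y - NN y z)
        ((2 * z * Lam z y + (z ^ 2 - 1) * (1 / (z + y) - z / (z ^ 2 - 1))) -
          (y ^ 2 - 1) * (1 / (y + z))) z := by
      intro z hz
      have hz' : (1 : ℝ) < z := hy.trans_le hz
      have h1 : HasDerivAt (fun z : ℝ => z ^ 2 - 1) (2 * z) z := by
        simpa using (hasDerivAt_pow 2 z).sub_const 1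
      have h2 : HasDerivAt (fun z : ℝ => Lam z y) (1 / (z + y) - z / (z ^ 2 - 1)) z := by
        have e1 := hlogadd (hasDerivAt_id z) (hasDerivAt_const z y) (by simp; linarith)
        have e2 := hLf (hasDerivAt_id z) hz'
        refine (e1.sub e2).congr_deriv ?_
        simp
      have h3 : HasDerivAt (fun z : ℝ => Lam y z) (1 / (y + z)) z := by
        have e1 := hlogadd (hasDerivAt_const z y) (hasDerivAt_id z) (by simp; linarith)
        refine (e1.sub_const (Lf y)).congr_deriv ?_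
        simp
      exact (h1.mul h2).sub (h3.const_mul (y ^ 2 - 1))
    refine monotoneOn_of_hasDerivWithinAt_nonneg (convex_Ici y)
      (fun z hz => (hd z hz).continuousAt.continuousWithinAt)
      (fun z hz => (hd z (interior_subset hz)).hasDerivWithinAt) ?_
    rw [interior_Ici]
    intro z hz
    have hz2 : y < z := hz
    have hz' : (1 : ℝ) < z := hy.trans hz2
    have h1 := Lam_ge hz' (by linarith : (0:ℝ) < y)
    have h2 : 0 < z ^ 2 - 1 := by nlinarith
    have h3 : 0 < z + y := by linarith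
    have h4 : (z ^ 2 - 1) * (1 / (z + y) - z / (z ^ 2 - 1)) - (y ^ 2 - 1) * (1 / (y + z)) =
        - y := by
      rw [add_comm y z]
      field_simp
      ring
    have h5 : y ≤ 2 * z * (y / (z + y)) := by
      rw [← mul_div_assoc, le_div_iff₀ h3]
      nlinarith
    have h6 : 2 * z * (y / (z + y)) ≤ 2 * z * Lam z y :=
      mul_le_mul_of_nonneg_left h1 (by linarith)
    linarith
  have := key (mem_Ici.2 le_rfl) (mem_Ici.2 hyz) hyz
  simp only [sub_self] at this
  linarith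

lemma K2aux {w b : ℝ} (hw : 0 < w) (hw1 : w ≤ 1) (hb : 0 ≤ b) (hbw : b ≤ w ^ 2) :
    w ^ 2 - b ^ 2 ≤ w * (1 - b) * (2 * log (1 + w) + b) := by
  set L := log (1 + w) with hL
  have h1 : w ≤ L * (1 + w) := by
    have := one_sub_inv_le_log_of_pos (x := 1 + w) (by linarith)
    have e : 1 - (1 + w)⁻¹ = w / (1 + w) := by
      have : 1 + w ≠ 0 := by linarith
      field_simp
      ring
    rw [e, div_le_iff₀ (by linarith)] at this
    exact this
  have hL0 : 0 ≤ L := log_nonneg (by linarith)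
  have h2 : w ≤ 2 * L := by nlinarith
  have e : w * (1 - b) * (2 * L + b) - (w ^ 2 - b ^ 2) =
      w * ((2 * L - w) + b * (1 - 2 * L)) + b ^ 2 * (1 - w) := by ring
  have h3 : 0 ≤ b ^ 2 * (1 - w) := mul_nonneg (sq_nonneg b) (by linarith)
  have h4 : 0 ≤ (2 * L - w) + b * (1 - 2 * L) := by
    rcases le_total (2 * L) 1 with h | h
    · have : 0 ≤ b * (1 - 2 * L) := mul_nonneg hb (by linarith)
      linarith
    · have h5 : w ^ 2 * (1 - 2 * L) ≤ b * (1 - 2 * L) :=
        mul_le_mul_of_nonpos_right hbw (by linarith)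
      have h6 : (2 * L - w) + w ^ 2 * (1 - 2 * L) = (1 - w) * (2 * (L * (1 + w)) - w) := by ring
      have h7 : 0 ≤ (1 - w) * (2 * (L * (1 + w)) - w) :=
        mul_nonneg (by linarith) (by linarith)
      linarith
  have h5 := mul_nonneg hw.le h4
  linarith

lemma K2 {z y : ℝ} (hy : 1 < y) (hyz : y ≤ z) : y ^ 2 * z ^ 2 - 1 ≤ 2 * y * z * NN z y := by
  have hz : 1 < z := hy.trans_le hyz
  have hz0 : 0 < z := by linarith
  have hy0 : 0 < y := by linarith
  have h1 := K2aux (w := y / z) (b := 1 / z ^ 2) (by positivity) (by rw [div_le_one hz0]; exact hyz)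
    (by positivity) (by rw [div_pow]; gcongr; nlinarith)
  have h2 : 2 * log (1 + y / z) + 1 / z ^ 2 ≤ 2 * Lam z y := by
    have e1 : 1 + y / z = (z + y) / z := by field_simp
    have e2 : log (1 + y / z) = log (z + y) - log z := by
      rw [e1, log_div (by linarith) (by linarith)]
    have e3 : 2 * Lf z = log (z ^ 2 - 1) := by
      unfold Lf
      have : z ^ 2 - 1 = (z + 1) * (z - 1) := by ring
      rw [this, log_mul (by linarith) (by linarith)]
      ring
    have h3 := one_sub_inv_le_log_of_pos (x := z ^ 2 / (z ^ 2 - 1))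
      (div_pos (by positivity) (by nlinarith))
    rw [log_div (by positivity) (by nlinarith), log_pow, inv_div] at h3
    push_cast at h3
    have e4 : 1 - (z ^ 2 - 1) / z ^ 2 = 1 / z ^ 2 := by field_simp; ring
    rw [e4] at h3
    unfold Lam
    rw [e2]
    linarith
  have hb : 0 ≤ (y / z) * (1 - 1 / z ^ 2) := by
    apply mul_nonneg (by positivity)
    rw [sub_nonneg, div_le_one (by positivity)]
    nlinarith
  have h3 : (y / z) ^ 2 - (1 / z ^ 2) ^ 2 ≤ (y / z) * (1 - 1 / z ^ 2) * (2 * Lam z y) :=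
    h1.trans (mul_le_mul_of_nonneg_left h2 hb)
  have h4 := mul_le_mul_of_nonneg_left h3 (by positivity : 0 ≤ z ^ 4)
  have e5 : z ^ 4 * ((y / z) ^ 2 - (1 / z ^ 2) ^ 2) = y ^ 2 * z ^ 2 - 1 := by
    field_simp
  have e6 : z ^ 4 * ((y / z) * (1 - 1 / z ^ 2) * (2 * Lam z y)) = 2 * y * z * NN z y := by
    unfold NN
    field_simp
  rw [e5, e6] at h4
  exact h4

/-! ### moves -/

lemma deriv_z_eq {g z y : ℝ} (hz : 1 < z) :
    -1 / (z ^ 2 - 1) + g * Lam z y = (g * NN z y - 1) / (z ^ 2 - 1) := by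
  have : z ^ 2 - 1 ≠ 0 := by nlinarith
  unfold NN
  field_simp
  ring

lemma hPh_z {g z y : ℝ} (hz : 1 < z) (hy : 1 < y) :
    HasDerivAt (fun z => Ph g z y) ((g * NN z y - 1) / (z ^ 2 - 1)) z := by
  have := hPh g (hasDerivAt_id z) (hasDerivAt_const z y) hz hy
  refine this.congr_deriv ?_
  simp only [id, mul_one, mul_zero, add_zero]
  exact deriv_z_eq hz

lemma move_right {g za zb y : ℝ} (hy : 1 < y) (ha : 1 < za) (hab : za ≤ zb)
    (H : ∀ z ∈ Icc za zb, 1 ≤ g * NN z y) : Ph g za y ≤ Ph g zb y := by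
  have hd : ∀ z ∈ Icc za zb, HasDerivAt (fun z => Ph g z y) ((g * NN z y - 1) / (z ^ 2 - 1)) z :=
    fun z hz => hPh_z (ha.trans_le hz.1) hy
  have key : MonotoneOn (fun z => Ph g z y) (Icc za zb) := by
    refine monotoneOn_of_hasDerivWithinAt_nonneg (convex_Icc za zb)
      (fun z hz => (hd z hz).continuousAt.continuousWithinAt)
      (fun z hz => (hd z (interior_subset hz)).hasDerivWithinAt) ?_
    intro z hz
    have hz' := interior_subset hz
    have h1 : 1 < z := ha.trans_le hz'.1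
    exact div_nonneg (by linarith [H z hz']) (by nlinarith)
  exact key ⟨le_rfl, hab⟩ ⟨hab, le_rfl⟩ hab

lemma move_left {g za zb y : ℝ} (hy : 1 < y) (ha : 1 < za) (hab : za ≤ zb)
    (H : ∀ z ∈ Icc za zb, g * NN z y ≤ 1) : Ph g zb y ≤ Ph g za y := by
  have hd : ∀ z ∈ Icc za zb, HasDerivAt (fun z => Ph g z y) ((g * NN z y - 1) / (z ^ 2 - 1)) z :=
    fun z hz => hPh_z (ha.trans_le hz.1) hy
  have key : AntitoneOn (fun z => Ph g z y) (Icc za zb) := by
    refine antitoneOn_of_hasDerivWithinAt_nonpos (convex_Icc za zb)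
      (fun z hz => (hd z hz).continuousAt.continuousWithinAt)
      (fun z hz => (hd z (interior_subset hz)).hasDerivWithinAt) ?_
    intro z hz
    have hz' := interior_subset hz
    have h1 : 1 < z := ha.trans_le hz'.1
    exact div_nonpos_of_nonpos_of_nonneg (by linarith [H z hz']) (by nlinarith)
  exact key ⟨le_rfl, hab⟩ ⟨hab, le_rfl⟩ hab

lemma move_diag {g ya yb W0 : ℝ} (hW : 0 ≤ W0) (ha : 1 < ya) (hab : ya ≤ yb)
    (H : ∀ y ∈ Icc ya yb, 1 ≤ g * NN y y) :
    Ph g ya ya + W0 * ya ≤ Ph g yb yb + W0 * yb := by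
  have hd : ∀ y ∈ Icc ya yb, HasDerivAt (fun y => Ph g y y + W0 * y)
      (2 * ((g * NN y y - 1) / (y ^ 2 - 1)) + W0) y := by
    intro y hy
    have h1 : 1 < y := ha.trans_le hy.1
    have h2 := hPh g (hasDerivAt_id y) (hasDerivAt_id y) h1 h1
    refine (h2.add ((hasDerivAt_id y).const_mul W0)).congr_deriv ?_
    simp only [id, mul_one]
    rw [deriv_z_eq h1]
    ring
  have key : MonotoneOn (fun y => Ph g y y + W0 * y) (Icc ya yb) := by
    refine monotoneOn_of_hasDerivWithinAt_nonneg (convex_Icc ya yb)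
      (fun z hz => (hd z hz).continuousAt.continuousWithinAt)
      (fun z hz => (hd z (interior_subset hz)).hasDerivWithinAt) ?_
    intro z hz
    have hz' := interior_subset hz
    have h1 : 1 < z := ha.trans_le hz'.1
    have : 0 ≤ (g * NN z z - 1) / (z ^ 2 - 1) := div_nonneg (by linarith [H z hz']) (by nlinarith)
    linarith
  exact key ⟨le_rfl, hab⟩ ⟨hab, le_rfl⟩ hab

/-! ### the level curve -/

noncomputable def Tc (g z : ℝ) : ℝ := 1 / (g * (z ^ 2 - 1)) + Lf z

noncomputable def Yc (g z : ℝ) : ℝ := exp (Tc g z) - z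

lemma hTc {g z : ℝ} (hg : 0 < g) (hz : 1 < z) :
    HasDerivAt (fun z => Tc g z) (-2 * z / (g * (z ^ 2 - 1) ^ 2) + z / (z ^ 2 - 1)) z := by
  have h0 : z ^ 2 - 1 ≠ 0 := by nlinarith
  have h1 : HasDerivAt (fun z : ℝ => g * (z ^ 2 - 1)) (g * (2 * z)) z := by
    simpa using ((hasDerivAt_pow 2 z).sub_const 1).const_mul g
  have h2 := (hasDerivAt_const z (1 : ℝ)).div h1 (by positivity)
  have h3 := hLf (hasDerivAt_id z) hz
  refine (h2.add h3).congr_deriv ?_
  simp only [id]
  have := hg.ne'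
  field_simp
  ring

lemma hYc {g z : ℝ} (hg : 0 < g) (hz : 1 < z) :
    HasDerivAt (fun z => Yc g z)
      (exp (Tc g z) * (-2 * z / (g * (z ^ 2 - 1) ^ 2) + z / (z ^ 2 - 1)) - 1) z :=
  (hTc hg hz).exp.sub (hasDerivAt_id z)

lemma Yc_add {g z : ℝ} : z + Yc g z = exp (Tc g z) := by unfold Yc; ring

lemma Lam_Yc {g z : ℝ} : Lam z (Yc g z) = 1 / (g * (z ^ 2 - 1)) := by
  unfold Lam
  rw [Yc_add, log_exp]
  unfold Tc
  ring

lemma NN_Yc {g z : ℝ} (hg : 0 < g) (hz : 1 < z) : g * NN z (Yc g z) = 1 := by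
  have h0 : z ^ 2 - 1 ≠ 0 := by nlinarith
  unfold NN
  rw [Lam_Yc]
  have := hg.ne'
  field_simp

lemma le_Yc_iff {g z y : ℝ} (hg : 0 < g) (hz : 1 < z) (hy : 0 < z + y) :
    y ≤ Yc g z ↔ g * NN z y ≤ 1 := by
  have h0 : 0 < z ^ 2 - 1 := by nlinarith
  have h1 : y ≤ Yc g z ↔ z + y ≤ exp (Tc g z) := by
    unfold Yc
    constructor <;> intro h <;> linarith
  rw [h1, ← log_le_iff_le_exp hy]
  unfold NN Lam Tc
  have h2 : 0 < g * (z ^ 2 - 1) := by positivity
  have h3 : g * ((z ^ 2 - 1) * (log (z + y) - Lf z)) = (log (z + y) - Lf z) * (g * (z ^ 2 - 1)) := by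
    ring
  rw [h3, ← le_div_iff₀ h2]
  constructor <;> intro h <;> linarith

lemma Yc_le_iff {g z y : ℝ} (hg : 0 < g) (hz : 1 < z) (hy : 0 < z + y) :
    Yc g z ≤ y ↔ 1 ≤ g * NN z y := by
  have h0 : 0 < z ^ 2 - 1 := by nlinarith
  have h1 : Yc g z ≤ y ↔ exp (Tc g z) ≤ z + y := by
    unfold Yc
    constructor <;> intro h <;> linarith
  rw [h1, ← le_log_iff_exp_le hy]
  unfold NN Lam Tc
  have h2 : 0 < g * (z ^ 2 - 1) := by positivity
  have h3 : g * ((z ^ 2 - 1) * (log (z + y) - Lf z)) = (log (z + y) - Lf z) * (g * (z ^ 2 - 1)) := by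
    ring
  rw [h3, ← div_le_iff₀ h2]
  constructor <;> intro h <;> linarith

lemma Yc_eq {g z y : ℝ} (hg : 0 < g) (hz : 1 < z) (hy : 0 < y) (h : g * NN z y = 1) :
    Yc g z = y :=
  le_antisymm ((Yc_le_iff hg hz (by linarith)).2 h.ge) ((le_Yc_iff hg hz (by linarith)).2 h.le)

/-- slope of the curve -/
noncomputable def Yd (g z : ℝ) : ℝ :=
  exp (Tc g z) * (-2 * z / (g * (z ^ 2 - 1) ^ 2) + z / (z ^ 2 - 1)) - 1

lemma Yd_eq {g z : ℝ} (hg : 0 < g) (hz : 1 < z) :
    Yd g z = (z + Yc g z) * (z * (1 - 2 * Lam z (Yc g z))) / (z ^ 2 - 1) - 1 := by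
  have h0 : z ^ 2 - 1 ≠ 0 := by nlinarith
  unfold Yd
  rw [Lam_Yc, Yc_add]
  have := hg.ne'
  field_simp
  ring

lemma Yd_nonpos {g z : ℝ} (hg : 0 < g) (hz : 1 < z) (hY : 0 < Yc g z) : Yd g z ≤ 0 := by
  rw [Yd_eq hg hz]
  have h0 : 0 < z ^ 2 - 1 := by nlinarith
  have h1 := Lam_ge2 hz hY
  have h2 : 0 < z + Yc g z := by linarith
  rw [sub_nonpos, div_le_one h0]
  have h3 : (z + Yc g z) * (z * (1 - 2 * Lam z (Yc g z))) ≤
      (z + Yc g z) * (z * ((z ^ 2 - 1) / (z + Yc g z) ^ 2)) := by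
    apply mul_le_mul_of_nonneg_left _ h2.le
    apply mul_le_mul_of_nonneg_left _ (by linarith)
    linarith
  have h4 : (z + Yc g z) * (z * ((z ^ 2 - 1) / (z + Yc g z) ^ 2)) =
      z * (z ^ 2 - 1) / (z + Yc g z) := by
    field_simp
  rw [h4] at h3
  refine h3.trans ?_
  rw [div_le_iff₀ h2]
  nlinarith

lemma Yd_eq2 {g z : ℝ} (hg : 0 < g) (hz : 1 < z) :
    Yd g z = (g * (z ^ 2 - 1) * (Yc g z * z + 1) - 2 * z * (Yc g z + z)) /
      (g * (z ^ 2 - 1) ^ 2) := by
  have h0 : z ^ 2 - 1 ≠ 0 := by nlinarith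
  rw [Yd_eq hg hz, Lam_Yc]
  have := hg.ne'
  field_simp
  ring

noncomputable def WW (g z : ℝ) : ℝ := 1 / (Yc g z ^ 2 - 1) - g * Lam (Yc g z) z

lemma WW_alg {g z Y : ℝ} (hg : g ≠ 0) (hz : z ^ 2 - 1 ≠ 0) (hY : Y ^ 2 - 1 ≠ 0)
    (hs : Y + z ≠ 0) :
    -(2 * Y * ((g * (z ^ 2 - 1) * (Y * z + 1) - 2 * z * (Y + z)) /
      (g * (z ^ 2 - 1) ^ 2))) / (Y ^ 2 - 1) ^ 2 -
      g * ((((g * (z ^ 2 - 1) * (Y * z + 1) - 2 * z * (Y + z)) /
      (g * (z ^ 2 - 1) ^ 2)) + 1) / (Y + z) -
      ((g * (z ^ 2 - 1) * (Y * z + 1) - 2 * z * (Y + z)) /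
      (g * (z ^ 2 - 1) ^ 2)) * Y / (Y ^ 2 - 1)) =
    (Y + z) * (4 * Y * z - 2 * g * (Y ^ 2 * z ^ 2 - 1) + g ^ 2 * (z ^ 2 - 1) * (Y ^ 2 - 1)) /
      (g * (z ^ 2 - 1) ^ 2 * (Y ^ 2 - 1) ^ 2) := by
  field_simp
  ring

lemma hWW {g z : ℝ} (hg : 0 < g) (hz : 1 < z) (hY : 1 < Yc g z) :
    HasDerivAt (fun z => WW g z)
      ((Yc g z + z) * (4 * Yc g z * z - 2 * g * (Yc g z ^ 2 * z ^ 2 - 1) +
        g ^ 2 * (z ^ 2 - 1) * (Yc g z ^ 2 - 1)) /
      (g * (z ^ 2 - 1) ^ 2 * (Yc g z ^ 2 - 1) ^ 2)) z := by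
  have h0 : z ^ 2 - 1 ≠ 0 := by nlinarith
  have hY0 : Yc g z ^ 2 - 1 ≠ 0 := by nlinarith
  have hs : Yc g z + z ≠ 0 := by linarith
  have d1 : HasDerivAt (fun z => Yc g z) (Yd g z) z := hYc hg hz
  have d2 : HasDerivAt (fun z => 1 / (Yc g z ^ 2 - 1))
      (-(2 * Yc g z * Yd g z) / (Yc g z ^ 2 - 1) ^ 2) z := by
    have := (hasDerivAt_const z (1 : ℝ)).div ((d1.pow 2).sub_const 1) hY0
    refine this.congr_deriv ?_
    simp
  have d3 : HasDerivAt (fun z => Lam (Yc g z) z)
      ((Yd g z + 1) / (Yc g z + z) - Yd g z * Yc g z / (Yc g z ^ 2 - 1)) z := by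
    have e1 := hlogadd d1 (hasDerivAt_id z) (by simp only [id]; linarith)
    exact e1.sub (hLf d1 hY)
  refine (d2.sub (d3.const_mul g)).congr_deriv ?_
  rw [Yd_eq2 hg hz]
  exact WW_alg hg.ne' h0 hY0 hs

lemma WW_nonneg_deriv {g z : ℝ} (hg : 0 < g) (hz : 1 < z) (hY : 1 < Yc g z) (hYz : Yc g z ≤ z) :
    0 ≤ (Yc g z + z) * (4 * Yc g z * z - 2 * g * (Yc g z ^ 2 * z ^ 2 - 1) +
        g ^ 2 * (z ^ 2 - 1) * (Yc g z ^ 2 - 1)) /
      (g * (z ^ 2 - 1) ^ 2 * (Yc g z ^ 2 - 1) ^ 2) := by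
  have h1 := K2 hY hYz
  have h2 := NN_Yc hg hz
  have h3 : g * (Yc g z ^ 2 * z ^ 2 - 1) ≤ 2 * Yc g z * z := by
    have := mul_le_mul_of_nonneg_left h1 hg.le
    have e : g * (2 * Yc g z * z * NN z (Yc g z)) = 2 * Yc g z * z * (g * NN z (Yc g z)) := by ring
    rw [e, h2, mul_one] at this
    exact this
  have h4 : 0 ≤ g ^ 2 * (z ^ 2 - 1) * (Yc g z ^ 2 - 1) := by
    have : 0 ≤ z ^ 2 - 1 := by nlinarith
    have : 0 ≤ Yc g z ^ 2 - 1 := by nlinarith
    positivity
  apply div_nonneg _ (by positivity)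
  apply mul_nonneg (by linarith)
  linarith

lemma curve {g za zb : ℝ} (hg : 0 < g) (ha : 1 < za) (hab : za ≤ zb) (hYa : Yc g za ≤ za)
    (hYb : 1 < Yc g zb) :
    (Ph g za (Yc g za) + WW g za * Yc g za ≤ Ph g zb (Yc g zb) + WW g za * Yc g zb) ∧
    (Ph g zb (Yc g zb) + WW g zb * Yc g zb ≤ Ph g za (Yc g za) + WW g zb * Yc g za) := by
  have hb : 1 < zb := ha.trans_le hab
  have R : ∀ z ∈ Icc za zb, 1 < z ∧ 1 < Yc g z ∧ Yc g z ≤ z := by
    intro z hz
    have h1 : 1 < z := ha.trans_le hz.1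
    have h2 : Yc g zb ≤ Yc g z := by
      rw [le_Yc_iff hg h1 (by linarith)]
      have := NN_mono (by linarith : 0 < Yc g zb) (mem_Ioi.2 h1) (mem_Ioi.2 hb) hz.2
      have h3 := NN_Yc hg hb
      have h4 : g * NN z (Yc g zb) ≤ g * NN zb (Yc g zb) :=
        mul_le_mul_of_nonneg_left this hg.le
      linarith
    have hYapos : 1 < Yc g za := by
      refine hYb.trans_le ?_
      rw [le_Yc_iff hg ha (by linarith)]
      have := NN_mono (by linarith : 0 < Yc g zb) (mem_Ioi.2 ha) (mem_Ioi.2 hb) hab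
      have h3 := NN_Yc hg hb
      have h4 : g * NN za (Yc g zb) ≤ g * NN zb (Yc g zb) :=
        mul_le_mul_of_nonneg_left this hg.le
      linarith
    refine ⟨h1, hYb.trans_le h2, ?_⟩
    have h5 : Yc g z ≤ Yc g za := by
      rw [Yc_le_iff hg h1 (by linarith)]
      have := NN_mono (by linarith : 0 < Yc g za) (mem_Ioi.2 ha) (mem_Ioi.2 h1) hz.1
      have h3 := NN_Yc hg ha
      have h4 : g * NN za (Yc g za) ≤ g * NN z (Yc g za) :=
        mul_le_mul_of_nonneg_left this hg.le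
      linarith
    linarith [hz.1]
  have hWm : MonotoneOn (fun z => WW g z) (Icc za zb) := by
    refine monotoneOn_of_hasDerivWithinAt_nonneg (convex_Icc za zb)
      (fun z hz => (hWW hg (R z hz).1 (R z hz).2.1).continuousAt.continuousWithinAt)
      (fun z hz => (hWW hg (R z (interior_subset hz)).1
        (R z (interior_subset hz)).2.1).hasDerivWithinAt) ?_
    intro z hz
    have h := R z (interior_subset hz)
    exact WW_nonneg_deriv hg h.1 h.2.1 h.2.2
  have hd : ∀ W0 : ℝ, ∀ z ∈ Icc za zb, HasDerivAt (fun z => Ph g z (Yc g z) + W0 * Yc g z)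
      ((W0 - WW g z) * Yd g z) z := by
    intro W0 z hz
    obtain ⟨h1, h2, h3⟩ := R z hz
    have d1 : HasDerivAt (fun z => Yc g z) (Yd g z) z := hYc hg h1
    have d2 := hPh g (hasDerivAt_id z) d1 h1 h2
    refine (d2.add (d1.const_mul W0)).congr_deriv ?_
    simp only [id]
    rw [deriv_z_eq h1, NN_Yc hg h1]
    unfold WW
    ring
  constructor
  · have key : MonotoneOn (fun z => Ph g z (Yc g z) + WW g za * Yc g z) (Icc za zb) := by
      refine monotoneOn_of_hasDerivWithinAt_nonneg (convex_Icc za zb)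
        (fun z hz => (hd _ z hz).continuousAt.continuousWithinAt)
        (fun z hz => (hd _ z (interior_subset hz)).hasDerivWithinAt) ?_
      intro z hz
      have hz' := interior_subset hz
      have h := R z hz'
      have h1 : WW g za ≤ WW g z := hWm ⟨le_rfl, hab⟩ hz' hz'.1
      exact mul_nonneg_of_nonpos_of_nonpos (by linarith) (Yd_nonpos hg h.1 (by linarith [h.2.1]))
    exact key ⟨le_rfl, hab⟩ ⟨hab, le_rfl⟩ hab
  · have key : AntitoneOn (fun z => Ph g z (Yc g z) + WW g zb * Yc g z) (Icc za zb) := by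
      refine antitoneOn_of_hasDerivWithinAt_nonpos (convex_Icc za zb)
        (fun z hz => (hd _ z hz).continuousAt.continuousWithinAt)
        (fun z hz => (hd _ z (interior_subset hz)).hasDerivWithinAt) ?_
      intro z hz
      have hz' := interior_subset hz
      have h := R z hz'
      have h1 : WW g z ≤ WW g zb := hWm hz' ⟨hab, le_rfl⟩ hz'.2
      exact mul_nonpos_of_nonneg_of_nonpos (by linarith) (Yd_nonpos hg h.1 (by linarith [h.2.1]))
    exact key ⟨le_rfl, hab⟩ ⟨hab, le_rfl⟩ hab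

lemma on_curve {g z0 y0 z1 y1 : ℝ} (hg : 0 < g) (hy0 : 1 < y0) (h0 : y0 ≤ z0)
    (hN0 : g * NN z0 y0 = 1) (hy1 : 1 < y1) (h1 : y1 ≤ z1) (hN1 : g * NN z1 y1 = 1) :
    Ph g z0 y0 + (1 / (y0 ^ 2 - 1) - g * Lam y0 z0) * y0 ≤
      Ph g z1 y1 + (1 / (y0 ^ 2 - 1) - g * Lam y0 z0) * y1 := by
  have e0 : Yc g z0 = y0 := Yc_eq hg (by linarith) (by linarith) hN0
  have e1 : Yc g z1 = y1 := Yc_eq hg (by linarith) (by linarith) hN1
  rcases le_total z0 z1 with h | h
  · have := (curve hg (by linarith) h (by rw [e0]; exact h0) (by rw [e1]; exact hy1)).1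
    unfold WW at this
    rwa [e0, e1] at this
  · have := (curve hg (by linarith) h (by rw [e1]; exact h1) (by rw [e0]; exact hy0)).2
    unfold WW at this
    rwa [e0, e1] at this

lemma Lf_cont : ContinuousOn Lf (Ioi 1) := by
  intro z hz
  exact (hLf (hasDerivAt_id z) hz).continuousAt.continuousWithinAt

lemma NN_cont {y : ℝ} (hy : 0 < y) : ContinuousOn (fun z => NN z y) (Ioi 1) := by
  unfold NN Lam
  apply ContinuousOn.mul (by fun_prop)
  apply ContinuousOn.sub _ Lf_cont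
  apply ContinuousOn.log (by fun_prop)
  intro z hz
  have : (1 : ℝ) < z := hz
  linarith

lemma NN_diag_mono : MonotoneOn (fun y => NN y y) (Ioi 1) := by
  have hd : ∀ z ∈ Ioi (1 : ℝ), HasDerivAt (fun z => NN z z)
      (2 * z * Lam z z + (z ^ 2 - 1) * (2 / (z + z) - z / (z ^ 2 - 1))) z := by
    intro z hz
    have hz' : (1 : ℝ) < z := hz
    have h1 : HasDerivAt (fun z : ℝ => z ^ 2 - 1) (2 * z) z := by
      simpa using (hasDerivAt_pow 2 z).sub_const 1
    have h2 : HasDerivAt (fun z : ℝ => Lam z z) (2 / (z + z) - z / (z ^ 2 - 1)) z := by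
      have e1 := hlogadd (hasDerivAt_id z) (hasDerivAt_id z) (by simp only [id]; linarith)
      have e2 := hLf (hasDerivAt_id z) hz'
      refine (e1.sub e2).congr_deriv ?_
      simp only [id]
      norm_num
    exact h1.mul h2
  refine monotoneOn_of_hasDerivWithinAt_nonneg (convex_Ioi 1)
    (fun z hz => (hd z hz).continuousAt.continuousWithinAt)
    (fun z hz => (hd z (interior_subset hz)).hasDerivWithinAt) ?_
  rw [interior_Ioi]
  intro z hz
  have hz' : (1 : ℝ) < z := hz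
  have h1 := Lam_ge hz' (by linarith : (0:ℝ) < z)
  have h2 : 0 < z ^ 2 - 1 := by nlinarith
  have h4 : (z ^ 2 - 1) * (2 / (z + z) - z / (z ^ 2 - 1)) = - (1 / z) := by
    field_simp
    ring
  rw [h4]
  have h5 : z / (z + z) = 1 / 2 := by field_simp; norm_num
  rw [h5] at h1
  have h6 : 1 / z ≤ 1 := by rw [div_le_one (by linarith)]; exact hz'.le
  nlinarith

/-- the point where the level curve meets the diagonal -/
lemma exists_diag {g y : ℝ} (hy : 1 < y) (h : 1 ≤ g * NN y y) :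
    ∃ yc, 1 < yc ∧ yc ≤ y ∧ g * NN yc yc = 1 := by
  let F : ℝ → ℝ := fun y => g * ((y ^ 2 - 1) * log (y + y) - ((y ^ 2 - 1) * log (y ^ 2 - 1)) / 2)
  have hF : ∀ y, 1 < y → F y = g * NN y y := by
    intro y hy
    have e : log (y ^ 2 - 1) = log (y + 1) + log (y - 1) := by
      rw [← log_mul (by linarith) (by linarith)]
      congr 1
      ring
    simp only [F]
    unfold NN Lam Lf
    rw [e]
    ring
  have hc : ContinuousOn F (Icc 1 y) := by
    have c1 : ContinuousOn (fun y : ℝ => (y ^ 2 - 1) * log (y + y)) (Icc 1 y) := by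
      apply ContinuousOn.mul (by fun_prop)
      apply ContinuousOn.log (by fun_prop)
      intro z hz
      have := hz.1
      linarith
    have c2 : Continuous (fun y : ℝ => (y ^ 2 - 1) * log (y ^ 2 - 1)) :=
      continuous_mul_log.comp (by fun_prop : Continuous fun y : ℝ => y ^ 2 - 1)
    exact (c1.sub (c2.continuousOn.div_const 2)).const_smul g
  have h1 : F 1 = 0 := by simp [F]
  have h2 : (1 : ℝ) ∈ Icc (F 1) (F y) := by
    rw [h1, hF y hy]
    exact ⟨zero_le_one, h⟩
  obtain ⟨yc, hyc, hFy⟩ := intermediate_value_Icc hy.le hc h2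
  have h3 : 1 < yc := by
    rcases hyc.1.eq_or_lt with h' | h'
    · rw [← h', h1] at hFy
      norm_num at hFy
    · exact h'
  exact ⟨yc, h3, hyc.2, by rw [← hF yc h3]; exact hFy⟩

lemma W0_nonneg {g z0 y0 : ℝ} (hg : 0 < g) (hy0 : 1 < y0) (h0 : y0 ≤ z0)
    (hN0 : g * NN z0 y0 = 1) : 0 ≤ 1 / (y0 ^ 2 - 1) - g * Lam y0 z0 := by
  have h1 := NN_symm_le hy0 h0
  have h2 : g * NN y0 z0 ≤ 1 := by
    rw [← hN0]
    exact mul_le_mul_of_nonneg_left h1 hg.le
  have h3 : 0 < y0 ^ 2 - 1 := by nlinarith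
  have e : 1 / (y0 ^ 2 - 1) - g * Lam y0 z0 = (1 - g * NN y0 z0) / (y0 ^ 2 - 1) := by
    unfold NN
    field_simp
  rw [e]
  exact div_nonneg (by linarith) h3.le

lemma main_ge {g z0 y0 z y : ℝ} (hg : 0 < g) (hy0 : 1 < y0) (h0 : y0 ≤ z0)
    (hN0 : g * NN z0 y0 = 1) (hy : 1 < y) (hyz : y ≤ z) :
    Ph g z0 y0 + (1 / (y0 ^ 2 - 1) - g * Lam y0 z0) * y0 ≤
      Ph g z y + (1 / (y0 ^ 2 - 1) - g * Lam y0 z0) * y := by
  have hz : 1 < z := by linarith
  have hW := W0_nonneg hg hy0 h0 hN0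
  have hmul : ∀ a b : ℝ, a ≤ b → g * a ≤ g * b := fun a b h => mul_le_mul_of_nonneg_left h hg.le
  by_cases h1 : g * NN z y ≤ 1
  · -- go right
    set Z := max z (1 + 1 / g) with hZ
    have hzZ : z ≤ Z := le_max_left _ _
    have hZ1 : 1 < Z := by linarith
    have hZN : 1 ≤ g * NN Z y := by
      have e1 := Lam_ge hZ1 (by linarith : (0:ℝ) < y)
      have e2 : 1 / (1 + Z) ≤ y / (Z + y) := by
        rw [div_le_div_iff₀ (by linarith) (by linarith)]
        nlinarith
      have e3 : Z - 1 ≤ NN Z y := by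
        have : (Z ^ 2 - 1) * (1 / (1 + Z)) ≤ (Z ^ 2 - 1) * Lam Z y :=
          mul_le_mul_of_nonneg_left (e2.trans e1) (by nlinarith)
        have e : (Z ^ 2 - 1) * (1 / (1 + Z)) = Z - 1 := by
          have : 1 + Z ≠ 0 := by linarith
          field_simp
          ring
        rw [e] at this
        exact this
      have e4 : 1 / g ≤ NN Z y := by
        have : 1 + 1 / g ≤ Z := le_max_right _ _
        linarith
      have e5 := hmul _ _ e4
      rwa [mul_one_div, div_self hg.ne'] at e5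
    have hc : ContinuousOn (fun z => g * NN z y) (Icc z Z) :=
      ((NN_cont (by linarith : (0:ℝ) < y)).mono
        (fun t ht => mem_Ioi.2 (hz.trans_le ht.1))).const_smul g
    obtain ⟨zs, hzs, hNs⟩ := intermediate_value_Icc hzZ hc ⟨h1, hZN⟩
    have hNs' : g * NN zs y = 1 := hNs
    have m := move_left (g := g) hy hz hzs.1 (fun t ht => by
      have := NN_mono (by linarith : 0 < y) (mem_Ioi.2 (hz.trans_le ht.1))
        (mem_Ioi.2 (hz.trans_le hzs.1)) ht.2
      have := hmul _ _ this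
      simp only at this
      linarith)
    have oc := on_curve hg hy0 h0 hN0 hy (hyz.trans hzs.1) hNs'
    linarith
  · push Not at h1
    by_cases h2 : g * NN y y ≤ 1
    · have hc : ContinuousOn (fun z => g * NN z y) (Icc y z) :=
        ((NN_cont (by linarith : (0:ℝ) < y)).mono
          (fun t ht => mem_Ioi.2 (hy.trans_le ht.1))).const_smul g
      obtain ⟨zs, hzs, hNs⟩ := intermediate_value_Icc hyz hc ⟨h2, h1.le⟩
      have hNs' : g * NN zs y = 1 := hNs
      have m := move_right (g := g) hy (hy.trans_le hzs.1) hzs.2 (fun t ht => by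
        have := NN_mono (by linarith : 0 < y) (mem_Ioi.2 (hy.trans_le hzs.1))
          (mem_Ioi.2 ((hy.trans_le hzs.1).trans_le ht.1)) ht.1
        have := hmul _ _ this
        simp only at this
        linarith)
      have oc := on_curve hg hy0 h0 hN0 hy hzs.1 hNs'
      linarith
    · push Not at h2
      have m := move_right (g := g) hy hy hyz (fun t ht => by
        have := NN_mono (by linarith : 0 < y) (mem_Ioi.2 hy)
          (mem_Ioi.2 (hy.trans_le ht.1)) ht.1
        have := hmul _ _ this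
        simp only at this
        linarith)
      obtain ⟨yc, hyc1, hyc2, hyc3⟩ := exists_diag hy h2.le
      have md := move_diag (g := g) hW hyc1 hyc2 (fun t ht => by
        have := NN_diag_mono (mem_Ioi.2 hyc1) (mem_Ioi.2 (hyc1.trans_le ht.1)) ht.1
        have := hmul _ _ this
        simp only at this
        linarith)
      have oc := on_curve hg hy0 h0 hN0 hyc1 le_rfl hyc3
      linarith

lemma Ph_symm (g z y : ℝ) : Ph g z y = Ph g y z := by
  unfold Ph
  rw [add_comm z y]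
  ring

theorem main {g z0 y0 z y : ℝ} (hg : 0 < g) (hy0 : 1 < y0) (h0 : y0 ≤ z0)
    (hN0 : g * NN z0 y0 = 1) (hz : 1 < z) (hy : 1 < y) :
    Ph g z0 y0 + (1 / (y0 ^ 2 - 1) - g * Lam y0 z0) * y0 ≤
      Ph g z y + (1 / (y0 ^ 2 - 1) - g * Lam y0 z0) * y := by
  rcases le_total y z with h | h
  · exact main_ge hg hy0 h0 hN0 hy h
  · have h1 := main_ge hg hy0 h0 hN0 hz h
    rw [Ph_symm g y z] at h1
    have := mul_le_mul_of_nonneg_left h (W0_nonneg hg hy0 h0 hN0)
    linarith

/-! ### back to the variables `x`, `y` -/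

lemma conv {x y : ℝ} (hx : x < 1) (hy : -1 < y) (hxy : y < x) (g : ℝ) :
    KK x y / 4 + g * ((hh x + hh y) / 2) =
      (x - y) / 4 * Ph g ((2 + x + y) / (x - y)) ((2 - x - y) / (x - y)) := by
  have hd : 0 < x - y := by linarith
  have a1 : (2 + x + y) / (x - y) + 1 = 2 * (1 + x) / (x - y) := by
    field_simp
    ring
  have a2 : (2 + x + y) / (x - y) - 1 = 2 * (1 + y) / (x - y) := by
    field_simp
    ring
  have a3 : (2 - x - y) / (x - y) + 1 = 2 * (1 - y) / (x - y) := by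
    field_simp
    ring
  have a4 : (2 - x - y) / (x - y) - 1 = 2 * (1 - x) / (x - y) := by
    field_simp
    ring
  have a5 : (2 + x + y) / (x - y) + (2 - x - y) / (x - y) = 4 / (x - y) := by
    field_simp
    ring
  have p1 : 0 < 1 + x := by linarith
  have p2 : 0 < 1 - x := by linarith
  have p3 : 0 < 1 + y := by linarith
  have p4 : 0 < 1 - y := by linarith
  have L : ∀ t : ℝ, 0 < t → log (2 * t / (x - y)) = log 2 + log t - log (x - y) := by
    intro t ht
    rw [log_div (by positivity) hd.ne', log_mul (by norm_num) ht.ne']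
  have L4 : log (4 / (x - y)) = 2 * log 2 - log (x - y) := by
    rw [log_div (by norm_num) hd.ne']
    have : (4 : ℝ) = 2 ^ 2 := by norm_num
    rw [this, log_pow]
    push_cast
    ring
  unfold Ph Kf Sf KK
  rw [a5, a1, a2, a3, a4, L4, L _ p1, L _ p2, L _ p3, L _ p4, hh_eq, hh_eq,
    artanh_eq_half_log ⟨by linarith, hx.le⟩, artanh_eq_half_log ⟨hy.le, by linarith⟩,
    log_div p1.ne' p2.ne', log_div p3.ne' p4.ne', log_div p1.ne' (by norm_num),
    log_div p2.ne' (by norm_num), log_div p3.ne' (by norm_num), log_div p4.ne' (by norm_num)]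
  field_simp
  ring

lemma KK_nonneg' {x y : ℝ} (hx : x < 1) (hy : -1 < y) (hxy : y < x) : 0 ≤ KK x y := by
  unfold KK
  apply mul_nonneg (by linarith)
  rw [sub_nonneg, artanh_eq_half_log ⟨by linarith, hx.le⟩,
    artanh_eq_half_log ⟨hy.le, by linarith⟩]
  apply mul_le_mul_of_nonneg_left _ (by norm_num)
  apply log_le_log (div_pos (by linarith) (by linarith))
  rw [div_le_div_iff₀ (by linarith) (by linarith)]
  nlinarith

/-- The certificate: for every base point `(a,b)` there are `g, C, W ≥ 0` with the pointwise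
inequality and equality at the base point. -/
theorem certificate {a b : ℝ} (hb : -1 < b) (hab : b < a) (ha : a < 1) (hs : 0 ≤ a + b) :
    ∃ g C W : ℝ, KK a b / 4 + g * ((hh a + hh b) / 2) =
        C * (a - b) / 4 - W * (1 - (a + b) / 2) / 2 ∧
      ∀ x y : ℝ, -1 < x → x < 1 → -1 < y → y < 1 →
        C * (x - y) / 4 - W * (1 - (x + y) / 2) / 2 ≤
          KK x y / 4 + g * ((hh x + hh y) / 2) := by
  have hd : 0 < a - b := by linarith
  set z0 := (2 + a + b) / (a - b) with hz0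
  set y0 := (2 - a - b) / (a - b) with hy0
  have h1 : 1 < y0 := by
    rw [hy0, one_lt_div hd]
    linarith
  have h2 : y0 ≤ z0 := by
    rw [hy0, hz0]
    gcongr ?_ / _
    linarith
  have h3 : 1 < z0 := by linarith
  have hN : 0 < NN z0 y0 := by
    have e1 := Lam_ge h3 (by linarith : (0:ℝ) < y0)
    have e2 : 0 < y0 / (z0 + y0) := by positivity
    unfold NN
    exact mul_pos (by nlinarith) (by linarith)
  set g := 1 / NN z0 y0 with hg
  have hg0 : 0 < g := by positivity
  have hgN : g * NN z0 y0 = 1 := by rw [hg]; field_simp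
  set W := 1 / (y0 ^ 2 - 1) - g * Lam y0 z0 with hW
  have hW0 : 0 ≤ W := W0_nonneg hg0 h1 h2 hgN
  have hbase : (a - b) * y0 = 2 - a - b := by rw [hy0]; field_simp
  have hP := conv ha hb hab g
  rw [← hz0, ← hy0] at hP
  have hKn := KK_nonneg' ha hb hab
  have hha := hh_nonneg (t := a) (by linarith) ha.le
  have hhb := hh_nonneg (t := b) hb.le (by linarith)
  have hPn : 0 ≤ Ph g z0 y0 := by
    have : 0 ≤ (a - b) / 4 * Ph g z0 y0 := by
      rw [← hP]
      positivity
    exact nonneg_of_mul_nonneg_right this (by positivity)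
  refine ⟨g, Ph g z0 y0 + W * y0, W, ?_, ?_⟩
  · rw [hP]
    have : W * ((a - b) * y0) = W * (2 - a - b) := by rw [hbase]
    linarith
  · have pos : ∀ x y : ℝ, x < 1 → -1 < y → y < x →
        (Ph g z0 y0 + W * y0) * (x - y) / 4 - W * (1 - (x + y) / 2) / 2 ≤
          KK x y / 4 + g * ((hh x + hh y) / 2) := by
      intro x y hx hy hxy
      have hd' : 0 < x - y := by linarith
      rw [conv hx hy hxy g]
      have m := main (z := (2 + x + y) / (x - y)) (y := (2 - x - y) / (x - y)) hg0 h1 h2 hgN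
        (by rw [one_lt_div hd']; linarith) (by rw [one_lt_div hd']; linarith)
      rw [← hW] at m
      have m2 := mul_le_mul_of_nonneg_left m (by positivity : 0 ≤ (x - y) / 4)
      have e : (x - y) / 4 * (W * ((2 - x - y) / (x - y))) = W * (2 - x - y) / 4 := by
        field_simp
      rw [mul_add ((x - y) / 4) (Ph g _ _) (W * ((2 - x - y) / (x - y))), e] at m2
      linarith
    intro x y hx0 hx1 hy0 hy1
    rcases lt_trichotomy x y with h | h | h
    · have m := pos y x hy1 hx0 h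
      rw [KK_symm y x] at m
      have : (Ph g z0 y0 + W * y0) * (x - y) ≤ (Ph g z0 y0 + W * y0) * (y - x) := by
        apply mul_le_mul_of_nonneg_left (by linarith)
        have : 0 ≤ W * y0 := mul_nonneg hW0 (by linarith)
        linarith
      have e : W * (1 - (y + x) / 2) = W * (1 - (x + y) / 2) := by ring
      rw [e] at m
      linarith
    · subst h
      have e : KK x x = 0 := by unfold KK; ring
      have : 0 ≤ W * (1 - (x + x) / 2) := mul_nonneg hW0 (by linarith)
      have := hh_nonneg hx0.le hx1.le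
      rw [e]
      have : 0 ≤ g * ((hh x + hh x) / 2) := by positivity
      linarith
    · exact pos x y hx1 hy0 h

end L3

theorem l3Fact_alt : L3Fact := by
  intro n A B hA hB a b l hb hab ha hs hl hl1 h1 h2 h3
  obtain ⟨g, C, W, heq, H⟩ := L3.certificate hb hab ha hs
  have hm : avg (fun x => (-(W / 2)) + ((C / 4 + W / 4) * A x + (-(C / 4) + W / 4) * B x)) ≤
      avg (fun x => (1 / 4) * KK (A x) (B x) + (g / 2) * (hh (A x) + hh (B x))) := by
    apply avg_mono
    intro x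
    have := H (A x) (B x) (hA x).1 (hA x).2 (hB x).1 (hB x).2
    linarith
  rw [avg_add, avg_const, avg_add, avg_smul, avg_smul, avg_add, avg_smul, avg_smul, avg_add,
    h1, h2] at hm
  have h4 : avg (fun x => hh (A x)) + avg (fun x => hh (B x)) = l * (hh a + hh b) := by
    linarith
  rw [h4] at hm
  have h5 : l * (KK a b / 4) = l * (C * (a - b) / 4 - W * (1 - (a + b) / 2) / 2 -
      g * ((hh a + hh b) / 2)) := by
    rw [← heq]
    ring
  rw [h5]
  linarith

end Vale.Agent.P322
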