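import Mathlib
import Vale.Agent.P322.Hyp


namespace Vale.Agent.P322

open Real Set

noncomputable def Wf (u v : ℝ) : ℝ :=
  ((cosh u / sinh u + cosh v / sinh v) * log (sinh (u + v)) - cosh v / sinh v * log (sinh u) -
    cosh u / sinh u * log (sinh v) - (u + v)) / 2

noncomputable def W1 (u v : ℝ) : ℝ := -(log (sinh (u + v)) - log (sinh v)) / (2 * sinh u ^ 2)

namespace L3W

noncomputable def A11 (u v : ℝ) : ℝ :=
  (2 * (cosh u / sinh u) * (log (sinh (u + v)) - log (sinh v)) -
    cosh (u + v) / sinh (u + v)) / (2 * sinh u ^ 2)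

noncomputable def A12 (u v : ℝ) : ℝ := 1 / (2 * sinh u * sinh v * sinh (u + v))

lemma A11_ge {u v : ℝ} (hu : 0 < u) (hv : 0 < v) :
    A12 u v * (sinh v / sinh u) ≤ A11 u v := by
  have s1 : 0 < sinh u := sinh_pos_iff.2 hu
  have s2 : 0 < sinh v := sinh_pos_iff.2 hv
  have s0 : 0 < sinh (u + v) := sinh_pos_iff.2 (by linarith)
  have c1 : 1 ≤ cosh u := one_le_cosh u
  have c2 : 1 ≤ cosh v := one_le_cosh v
  have k1 := cosh_sq_sub_sinh_sq u
  have k2 := cosh_sq_sub_sinh_sq v
  have hs : sinh (u + v) = sinh u * cosh v + cosh u * sinh v := sinh_add u v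
  have hc : cosh (u + v) = cosh u * cosh v + sinh u * sinh v := cosh_add u v
  have hl : 1 - sinh v / sinh (u + v) ≤ log (sinh (u + v)) - log (sinh v) := by
    rw [← log_div s0.ne' s2.ne']
    have := one_sub_inv_le_log_of_pos (div_pos s0 s2)
    rwa [inv_div] at this
  have hkey : sinh u * (1 + cosh (u + v)) ≤ 2 * cosh u * (sinh (u + v) - sinh v) := by
    rw [hs, hc]
    have t1 : 0 ≤ sinh u * (cosh u * cosh v - 1) := by
      apply mul_nonneg s1.le
      nlinarith
    have t2 : 0 ≤ sinh v * (cosh u - 1) ^ 2 := by positivity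
    nlinarith [t1, t2, k1, mul_comm (sinh v) (cosh u)]
  have hkey2 : (1 + cosh (u + v)) / sinh (u + v) ≤
      2 * (cosh u / sinh u) * (log (sinh (u + v)) - log (sinh v)) := by
    have e1 : (1 + cosh (u + v)) / sinh (u + v) ≤
        2 * (cosh u / sinh u) * (1 - sinh v / sinh (u + v)) := by
      have : 2 * (cosh u / sinh u) * (1 - sinh v / sinh (u + v)) =
          (2 * cosh u * (sinh (u + v) - sinh v)) / sinh u / sinh (u + v) := by
        field_simp
      rw [this]
      apply div_le_div_of_nonneg_right _ s0.le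
      rw [le_div_iff₀ s1]
      linarith
    have e2 : 2 * (cosh u / sinh u) * (1 - sinh v / sinh (u + v)) ≤
        2 * (cosh u / sinh u) * (log (sinh (u + v)) - log (sinh v)) :=
      mul_le_mul_of_nonneg_left hl (by positivity)
    linarith
  unfold A11 A12
  have e3 : 1 / (2 * sinh u * sinh v * sinh (u + v)) * (sinh v / sinh u) =
      (1 / sinh (u + v)) / (2 * sinh u ^ 2) := by
    field_simp
  rw [e3]
  apply div_le_div_of_nonneg_right _ (by positivity)
  have e4 : (1 + cosh (u + v)) / sinh (u + v) = 1 / sinh (u + v) +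
      cosh (u + v) / sinh (u + v) := by ring
  rw [e4] at hkey2
  linarith

lemma A12_symm (u v : ℝ) : A12 v u = A12 u v := by
  unfold A12
  rw [add_comm v u]
  congr 1
  ring

lemma psd {u v : ℝ} (hu : 0 < u) (hv : 0 < v) (x y : ℝ) :
    0 ≤ A11 u v * x ^ 2 + 2 * A12 u v * x * y + A11 v u * y ^ 2 := by
  have s1 : 0 < sinh u := sinh_pos_iff.2 hu
  have s2 : 0 < sinh v := sinh_pos_iff.2 hv
  have s0 : 0 < sinh (u + v) := sinh_pos_iff.2 (by linarith)
  have h1 := A11_ge hu hv
  have h2 := A11_ge hv hu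
  rw [A12_symm] at h2
  have h3 : 0 < A12 u v := by unfold A12; positivity
  have e : A12 u v * (sinh v / sinh u) * x ^ 2 + 2 * A12 u v * x * y +
      A12 u v * (sinh u / sinh v) * y ^ 2 =
      A12 u v * (sinh v * x + sinh u * y) ^ 2 / (sinh u * sinh v) := by
    field_simp
    ring
  have e2 : 0 ≤ A12 u v * (sinh v * x + sinh u * y) ^ 2 / (sinh u * sinh v) := by positivity
  have f1 := mul_le_mul_of_nonneg_right h1 (sq_nonneg x)
  have f2 := mul_le_mul_of_nonneg_right h2 (sq_nonneg y)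
  linarith

lemma hasDerivAt_logsinh {P : ℝ → ℝ} {P' t : ℝ} (hP : HasDerivAt P P' t) (h0 : 0 < P t) :
    HasDerivAt (fun t => log (sinh (P t))) (cosh (P t) * P' / sinh (P t)) t :=
  (hP.sinh).log (sinh_pos_iff.2 h0).ne'

lemma hasDerivAt_coth {P : ℝ → ℝ} {P' t : ℝ} (hP : HasDerivAt P P' t) (h0 : 0 < P t) :
    HasDerivAt (fun t => cosh (P t) / sinh (P t)) (-P' / sinh (P t) ^ 2) t := by
  have h := (hP.cosh).div (hP.sinh) (sinh_pos_iff.2 h0).ne'
  refine h.congr_deriv ?_
  have k := cosh_sq_sub_sinh_sq (P t)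
  congr 1
  linear_combination (-P') * k

lemma hasDerivAt_Wf {P Q : ℝ → ℝ} {P' Q' t : ℝ} (hP : HasDerivAt P P' t)
    (hQ : HasDerivAt Q Q' t) (h0 : 0 < P t) (h1 : 0 < Q t) :
    HasDerivAt (fun t => Wf (P t) (Q t)) (W1 (P t) (Q t) * P' + W1 (Q t) (P t) * Q') t := by
  have s1 : 0 < sinh (P t) := sinh_pos_iff.2 h0
  have s2 : 0 < sinh (Q t) := sinh_pos_iff.2 h1
  have s0 : 0 < sinh (P t + Q t) := sinh_pos_iff.2 (by linarith)
  have k1 := cosh_sq_sub_sinh_sq (P t)
  have k2 := cosh_sq_sub_sinh_sq (Q t)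
  have dc1 := hasDerivAt_coth hP h0
  have dc2 := hasDerivAt_coth hQ h1
  have dl1 := hasDerivAt_logsinh hP h0
  have dl2 := hasDerivAt_logsinh hQ h1
  have dl0 := hasDerivAt_logsinh (hP.add hQ) (by simpa using add_pos h0 h1)
  have h := ((((dc1.add dc2).mul dl0).sub (dc2.mul dl1)).sub (dc1.mul dl2)).sub (hP.add hQ)
  unfold Wf W1
  refine (h.div_const 2).congr_deriv ?_
  simp only [Pi.add_apply]
  rw [add_comm (Q t) (P t)]
  have hs : sinh (P t + Q t) = sinh (P t) * cosh (Q t) + cosh (P t) * sinh (Q t) :=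
    sinh_add _ _
  have hc : cosh (P t + Q t) = cosh (P t) * cosh (Q t) + sinh (P t) * sinh (Q t) :=
    cosh_add _ _
  have hcoth : (cosh (P t) / sinh (P t) + cosh (Q t) / sinh (Q t)) *
      (cosh (P t + Q t) * (P' + Q') / sinh (P t + Q t)) =
      (1 + cosh (P t) / sinh (P t) * (cosh (Q t) / sinh (Q t))) * (P' + Q') := by
    have : cosh (P t) / sinh (P t) + cosh (Q t) / sinh (Q t) =
        sinh (P t + Q t) / (sinh (P t) * sinh (Q t)) := by
      rw [hs]; field_simp; ring
    rw [this, hc]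
    field_simp
    ring
  rw [hcoth]
  generalize log (sinh (P t + Q t)) = l0
  generalize log (sinh (P t)) = l1
  generalize log (sinh (Q t)) = l2
  field_simp
  ring

lemma hasDerivAt_W1 {P Q : ℝ → ℝ} {P' Q' t : ℝ} (hP : HasDerivAt P P' t)
    (hQ : HasDerivAt Q Q' t) (h0 : 0 < P t) (h1 : 0 < Q t) :
    HasDerivAt (fun t => W1 (P t) (Q t)) (A11 (P t) (Q t) * P' + A12 (P t) (Q t) * Q') t := by
  have s1 : 0 < sinh (P t) := sinh_pos_iff.2 h0
  have s2 : 0 < sinh (Q t) := sinh_pos_iff.2 h1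
  have s0 : 0 < sinh (P t + Q t) := sinh_pos_iff.2 (by linarith)
  have k1 := cosh_sq_sub_sinh_sq (P t)
  have k2 := cosh_sq_sub_sinh_sq (Q t)
  have dl2 := hasDerivAt_logsinh hQ h1
  have dl0 := hasDerivAt_logsinh (hP.add hQ) (by simpa using add_pos h0 h1)
  have dd := (hP.sinh.pow 2).const_mul 2
  have h := ((dl0.sub dl2).neg).div dd (show 2 * sinh (P t) ^ 2 ≠ 0 by positivity)
  unfold W1 A11 A12
  refine h.congr_deriv ?_
  simp only [Pi.add_apply, Pi.sub_apply, Pi.neg_apply, Pi.pow_apply]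
  have hs : sinh (P t + Q t) = sinh (P t) * cosh (Q t) + cosh (P t) * sinh (Q t) :=
    sinh_add _ _
  have hc : cosh (P t + Q t) = cosh (P t) * cosh (Q t) + sinh (P t) * sinh (Q t) :=
    cosh_add _ _
  have hx : cosh (Q t) / sinh (Q t) - cosh (P t + Q t) / sinh (P t + Q t) =
      sinh (P t) / (sinh (Q t) * sinh (P t + Q t)) := by
    rw [div_sub_div _ _ s2.ne' s0.ne']
    congr 1
    rw [hs, hc]
    linear_combination (sinh (P t)) * k2
  have e1 : -(cosh (P t + Q t) * (P' + Q') / sinh (P t + Q t) -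
      cosh (Q t) * Q' / sinh (Q t)) = sinh (P t) / (sinh (Q t) * sinh (P t + Q t)) * Q' -
      cosh (P t + Q t) / sinh (P t + Q t) * P' := by
    rw [← hx]; ring
  rw [e1]
  generalize log (sinh (P t + Q t)) = l0
  generalize log (sinh (Q t)) = l2
  generalize cosh (P t + Q t) = c0
  generalize hss : sinh (P t + Q t) = S0 at *
  field_simp
  ring

end L3W

theorem Wf_tangent {u v a b : ℝ} (hu : 0 < u) (hv : 0 < v) (ha : 0 < a) (hb : 0 < b) :
    Wf a b + W1 a b * (u - a) + W1 b a * (v - b) ≤ Wf u v := by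
  set P : ℝ → ℝ := fun t => a + t * (u - a) with hP
  set Q : ℝ → ℝ := fun t => b + t * (v - b) with hQ
  have dP : ∀ t, HasDerivAt P (u - a) t := fun t =>
    (((hasDerivAt_id t).mul_const (u - a)).const_add a).congr_deriv (by simp)
  have dQ : ∀ t, HasDerivAt Q (v - b) t := fun t =>
    (((hasDerivAt_id t).mul_const (v - b)).const_add b).congr_deriv (by simp)
  have pP : ∀ t ∈ Icc (0:ℝ) 1, 0 < P t := by
    intro t ht
    have : P t = (1 - t) * a + t * u := by rw [hP]; ring
    rw [this]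
    rcases ht.1.lt_or_eq with h | h
    · have := mul_pos h hu
      have := mul_nonneg (sub_nonneg.2 ht.2) ha.le
      linarith
    · rw [← h]; simpa using ha
  have pQ : ∀ t ∈ Icc (0:ℝ) 1, 0 < Q t := by
    intro t ht
    have : Q t = (1 - t) * b + t * v := by rw [hQ]; ring
    rw [this]
    rcases ht.1.lt_or_eq with h | h
    · have := mul_pos h hv
      have := mul_nonneg (sub_nonneg.2 ht.2) hb.le
      linarith
    · rw [← h]; simpa using hb
  set G : ℝ → ℝ := fun t => W1 (P t) (Q t) * (u - a) + W1 (Q t) (P t) * (v - b) with hG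
  have mG : MonotoneOn G (Icc 0 1) := by
    refine monotoneOn_of_hasDerivAt (F' := fun t =>
      (L3W.A11 (P t) (Q t) * (u - a) + L3W.A12 (P t) (Q t) * (v - b)) * (u - a) +
      (L3W.A11 (Q t) (P t) * (v - b) + L3W.A12 (Q t) (P t) * (u - a)) * (v - b))
      (convex_Icc 0 1) ?_ ?_
    · intro t ht
      exact ((L3W.hasDerivAt_W1 (dP t) (dQ t) (pP t ht) (pQ t ht)).mul_const (u - a)).add
        ((L3W.hasDerivAt_W1 (dQ t) (dP t) (pQ t ht) (pP t ht)).mul_const (v - b))
    · rw [interior_Icc]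
      intro t ht
      have ht' : t ∈ Icc (0:ℝ) 1 := ⟨ht.1.le, ht.2.le⟩
      have := L3W.psd (pP t ht') (pQ t ht') (u - a) (v - b)
      have e := L3W.A12_symm (P t) (Q t)
      rw [e]
      linarith
  have mF : MonotoneOn (fun t => Wf (P t) (Q t) - t * G 0) (Icc 0 1) := by
    refine monotoneOn_of_hasDerivAt (F' := fun t => G t - 1 * G 0) (convex_Icc 0 1) ?_ ?_
    · intro t ht
      exact (L3W.hasDerivAt_Wf (dP t) (dQ t) (pP t ht) (pQ t ht)).sub
        ((hasDerivAt_id t).mul_const (G 0))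
    · rw [interior_Icc]
      intro t ht
      have := mG ⟨le_rfl, zero_le_one⟩ ⟨ht.1.le, ht.2.le⟩ ht.1.le
      change 0 ≤ G t - 1 * G 0
      linarith
  have h := mF ⟨le_rfl, zero_le_one⟩ ⟨zero_le_one, le_rfl⟩ zero_le_one
  have P0 : P 0 = a := by simp [hP]
  have Q0 : Q 0 = b := by simp [hQ]
  have P1 : P 1 = u := by simp [hP]
  have Q1 : Q 1 = v := by simp [hQ]
  simp only [P0, Q0, P1, Q1, hG] at h
  linarith

lemma L3W.k_nonneg {y : ℝ} (h0 : 1 / 2 ≤ y) (h1 : y < 1) :
    -((1 - y) ^ 2 * log (1 - y)) ≤ -(y ^ 2 * log y) := by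
  set F : ℝ → ℝ := fun t => 4 * t * log 2 - (1 + t) * ((1 + t) * log (1 + t)) +
    (1 - t) * ((1 - t) * log (1 - t)) with hF
  have hcont : Continuous F := by
    have c1 : Continuous fun t : ℝ => (1 + t) * log (1 + t) :=
      continuous_mul_log.comp (by fun_prop : Continuous fun t : ℝ => 1 + t)
    have c2 : Continuous fun t : ℝ => (1 - t) * log (1 - t) :=
      continuous_mul_log.comp (by fun_prop : Continuous fun t : ℝ => 1 - t)
    rw [hF]
    fun_prop
  have hd : ∀ t ∈ Ioo (0:ℝ) 1, HasDerivAt F (4 * log 2 - 2 - 2 * ((1 + t) * log (1 + t) +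
      (1 - t) * log (1 - t))) t := by
    intro t ht
    have p1 : 0 < 1 + t := by linarith [ht.1]
    have p2 : 0 < 1 - t := by linarith [ht.2]
    have d1 : HasDerivAt (fun t : ℝ => 1 + t) 1 t := (hasDerivAt_id t).const_add 1
    have d2 : HasDerivAt (fun t : ℝ => 1 - t) (-1) t := (hasDerivAt_id t).const_sub 1
    have l1 := d1.log p1.ne'
    have l2 := d2.log p2.ne'
    have d3 := (((hasDerivAt_id t).const_mul 4).mul_const (log 2))
    have h := (d3.sub (d1.mul (d1.mul l1))).add (d2.mul (d2.mul l2))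
    refine h.congr_deriv ?_
    simp only [Pi.mul_apply]
    field_simp
    ring
  have hmono : AntitoneOn (fun t => 4 * log 2 - 2 - 2 * ((1 + t) * log (1 + t) +
      (1 - t) * log (1 - t))) (Ioo (0:ℝ) 1) := by
    refine antitoneOn_of_hasDerivAt (F' := fun t => - (2 * (log (1 + t) - log (1 - t))))
      (convex_Ioo 0 1) ?_ ?_
    · intro t ht
      have p1 : 0 < 1 + t := by linarith [ht.1]
      have p2 : 0 < 1 - t := by linarith [ht.2]
      have d1 : HasDerivAt (fun t : ℝ => 1 + t) 1 t := (hasDerivAt_id t).const_add 1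
      have d2 : HasDerivAt (fun t : ℝ => 1 - t) (-1) t := (hasDerivAt_id t).const_sub 1
      have l1 := d1.log p1.ne'
      have l2 := d2.log p2.ne'
      have h := (((d1.mul l1).add (d2.mul l2)).const_mul 2).const_sub (4 * log 2 - 2)
      refine h.congr_deriv ?_
      field_simp
      ring
    · rw [interior_Ioo]
      intro t ht
      have : log (1 - t) ≤ log (1 + t) := log_le_log (by linarith [ht.2]) (by linarith [ht.1])
      linarith
  have hF0 : F 0 = 0 := by simp [hF]
  have hF1 : F 1 = 0 := by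
    simp only [hF]
    norm_num
    ring
  have hall : ∀ t ∈ Icc (0:ℝ) 1, 0 ≤ F t := by
    have hconc : ConcaveOn ℝ (Icc (0:ℝ) 1) F := by
      refine AntitoneOn.concaveOn_of_deriv (convex_Icc 0 1) hcont.continuousOn ?_ ?_
      · rw [interior_Icc]
        intro t ht
        exact (hd t ht).differentiableAt.differentiableWithinAt
      · rw [interior_Icc]
        intro s hs t ht hst
        rw [(hd s hs).deriv, (hd t ht).deriv]
        exact hmono hs ht hst
    intro t ht
    have := hconc.2 (x := 0) (y := 1) ⟨le_rfl, zero_le_one⟩ ⟨zero_le_one, le_rfl⟩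
      (sub_nonneg.2 ht.2) ht.1 (by ring)
    simpa [hF0, hF1] using this
  have h := hall (2 * y - 1) ⟨by linarith, by linarith⟩
  have e1 : 1 + (2 * y - 1) = 2 * y := by ring
  have e2 : 1 - (2 * y - 1) = 2 * (1 - y) := by ring
  have l1 : log (2 * y) = log 2 + log y := log_mul two_ne_zero (by linarith)
  have l2 : log (2 * (1 - y)) = log 2 + log (1 - y) := log_mul two_ne_zero (by linarith)
  simp only [hF] at h
  rw [e1, e2, l1, l2] at h
  nlinarith [h]

lemma L3W.ylog_mono {x y : ℝ} (h0 : 0 < x) (hxy : x ≤ y) (hy : log y ≤ -1 / 2) :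
    -(x ^ 2 * log x) ≤ -(y ^ 2 * log y) := by
  have hy0 : 0 < y := h0.trans_le hxy
  have : MonotoneOn (fun t : ℝ => -(t ^ 2 * log t)) (Icc x y) := by
    refine monotoneOn_of_hasDerivAt (F' := fun t => -(2 * t ^ 1 * log t + t ^ 2 * (1 / t)))
      (convex_Icc x y) ?_ ?_
    · intro t ht
      have ht0 : 0 < t := h0.trans_le ht.1
      have h := ((hasDerivAt_pow 2 t).mul ((hasDerivAt_id t).log ht0.ne')).neg
      refine h.congr_deriv ?_
      simp
    · rw [interior_Icc]
      intro t ht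
      have ht0 : 0 < t := h0.trans ht.1
      have hl : log t ≤ log y := log_le_log ht0 ht.2.le
      have e : -(2 * t ^ 1 * log t + t ^ 2 * (1 / t)) = t * (-(2 * log t) - 1) := by
        field_simp
        ring
      rw [e]
      exact mul_nonneg ht0.le (by linarith)
  exact this ⟨le_rfl, hxy⟩ ⟨hxy, le_rfl⟩ hxy

lemma L3W.key {x y : ℝ} (hx : 0 < x) (hxy : x ≤ y) (hs : x + y ≤ 1) :
    -(x ^ 2 * log x) ≤ -(y ^ 2 * log y) := by
  have hy0 : 0 < y := hx.trans_le hxy
  have hy1 : y < 1 := by linarith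
  by_cases h : log y ≤ -1 / 2
  · exact L3W.ylog_mono hx hxy h
  · push Not at h
    have hyhalf : 1 / 2 ≤ y := by
      by_contra hc
      push Not at hc
      have h1 : log y < log (1 / 2) := log_lt_log hy0 hc
      rw [log_div one_ne_zero two_ne_zero, log_one] at h1
      have := log_two_gt_d9
      linarith
    have h2 := L3W.k_nonneg hyhalf hy1
    have h3 : log (1 - y) ≤ -1 / 2 := by
      have h4 : log (1 - y) ≤ log (1 / 2) := log_le_log (by linarith) (by linarith)
      rw [log_div one_ne_zero two_ne_zero, log_one] at h4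
      have := log_two_gt_d9
      linarith
    have h5 := L3W.ylog_mono hx (by linarith : x ≤ 1 - y) h3
    exact h5.trans h2

theorem W1_le {a b : ℝ} (hb : 0 < b) (hba : b ≤ a) : W1 b a ≤ W1 a b := by
  have ha : 0 < a := hb.trans_le hba
  have s1 : 0 < sinh a := sinh_pos_iff.2 ha
  have s2 : 0 < sinh b := sinh_pos_iff.2 hb
  have s0 : 0 < sinh (a + b) := sinh_pos_iff.2 (by linarith)
  have c1 : 1 ≤ cosh a := one_le_cosh a
  have c2 : 1 ≤ cosh b := one_le_cosh b
  have hs : sinh (a + b) = sinh a * cosh b + cosh a * sinh b := sinh_add a b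
  have h12 : sinh b ≤ sinh a := sinh_le_sinh.2 hba
  have hk := L3W.key (x := sinh b / sinh (a + b)) (y := sinh a / sinh (a + b))
    (by positivity) (div_le_div_of_nonneg_right h12 s0.le) (by
      rw [← add_div, div_le_one s0, hs]
      nlinarith)
  rw [log_div s2.ne' s0.ne', log_div s1.ne' s0.ne'] at hk
  unfold W1
  rw [add_comm b a, div_le_div_iff₀ (by positivity) (by positivity)]
  have e1 : -((sinh b / sinh (a + b)) ^ 2 * (log (sinh b) - log (sinh (a + b)))) =
      sinh b ^ 2 * (log (sinh (a + b)) - log (sinh b)) / sinh (a + b) ^ 2 := by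
    field_simp
    ring
  have e2 : -((sinh a / sinh (a + b)) ^ 2 * (log (sinh a) - log (sinh (a + b)))) =
      sinh a ^ 2 * (log (sinh (a + b)) - log (sinh a)) / sinh (a + b) ^ 2 := by
    field_simp
    ring
  rw [e1, e2, div_le_div_iff_of_pos_right (by positivity)] at hk
  nlinarith [hk]

end Vale.Agent.P322
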