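import Mathlib
import Vale.Agent.P322.Hyp

/-! Joint convexity of the entropy as a function of the hyperbolic coordinates. -/

namespace Vale.Agent.P322.LawW

open Real Set Filter Topology Vale.Agent.P322

noncomputable def ls (u : ℝ) : ℝ := log (sinh u)
noncomputable def ct (u : ℝ) : ℝ := cosh u / sinh u

/-- half of the entropy per unit difference -/
noncomputable def Ww (u v : ℝ) : ℝ :=
  (ct u * (ls (u + v) - ls v) + ct v * (ls (u + v) - ls u) - (u + v)) / 2

noncomputable def W1 (u v : ℝ) : ℝ := -((ls (u + v) - ls v) / (2 * sinh u ^ 2))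
noncomputable def W2 (u v : ℝ) : ℝ := -((ls (u + v) - ls u) / (2 * sinh v ^ 2))

lemma sinh_pos' {u : ℝ} (hu : 0 < u) : 0 < sinh u := sinh_pos_iff.2 hu

lemma hasDerivAt_ls {u : ℝ} (hu : 0 < u) : HasDerivAt ls (ct u) u :=
  (hasDerivAt_sinh u).log (sinh_pos' hu).ne'

lemma hasDerivAt_ct {u : ℝ} (hu : 0 < u) : HasDerivAt ct (-(1 / sinh u ^ 2)) u := by
  have h := (hasDerivAt_cosh u).div (hasDerivAt_sinh u) (sinh_pos' hu).ne'
  refine h.congr_deriv ?_
  have h1 := sinh_pos' hu
  have := cosh_sq u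
  field_simp
  linarith

lemma ct_sub {p q : ℝ} (hp : 0 < p) (hq : 0 < q) :
    ct q - ct (p + q) = sinh p / (sinh (p + q) * sinh q) := by
  have h1 := sinh_pos' hp
  have h2 := sinh_pos' hq
  have h3 := sinh_pos' (add_pos hp hq)
  have e : sinh p = sinh (p + q) * cosh q - cosh (p + q) * sinh q := by
    rw [← sinh_sub]; congr 1; ring
  unfold ct
  rw [e]
  field_simp

lemma ct_mul {p q : ℝ} (hp : 0 < p) (hq : 0 < q) :
    (ct p + ct q) * ct (p + q) = ct p * ct q + 1 := by
  have h1 := sinh_pos' hp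
  have h2 := sinh_pos' hq
  have h3 := sinh_pos' (add_pos hp hq)
  unfold ct
  rw [sinh_add] at h3
  rw [sinh_add, cosh_add]
  field_simp
  ring

lemma ct_pos {p : ℝ} (hp : 0 < p) : 0 < ct p := div_pos (cosh_pos p) (sinh_pos' hp)

lemma ct_anti {p q : ℝ} (hp : 0 < p) (hpq : p ≤ q) : ct q ≤ ct p := by
  rcases hpq.eq_or_lt with h | h
  · rw [h]
  · have := ct_sub (p := q - p) (q := p) (by linarith) hp
    rw [sub_add_cancel] at this
    have h2 : 0 ≤ sinh (q - p) / (sinh q * sinh p) :=
      div_nonneg (sinh_pos' (by linarith)).le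
        (mul_nonneg (sinh_pos' (hp.trans h)).le (sinh_pos' hp).le)
    linarith

lemma ls_sub_ge {p q : ℝ} (hp : 0 < p) (hq : 0 < q) : p * ct (p + q) ≤ ls (p + q) - ls q := by
  have hm : MonotoneOn (fun t => ls t - t * ct (p + q)) (Icc q (p + q)) := by
    refine monotoneOn_of_hasDerivAt (F' := fun t => ct t - 1 * ct (p + q)) (convex_Icc _ _) ?_ ?_
    · intro z hz
      exact (hasDerivAt_ls (hq.trans_le hz.1)).sub ((hasDerivAt_id z).mul_const _)
    · intro z hz
      rw [interior_Icc] at hz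
      have := ct_anti (hq.trans hz.1) hz.2.le
      simp only [one_mul]
      linarith
  have := hm ⟨le_rfl, by linarith⟩ ⟨by linarith, le_rfl⟩ (by linarith : q ≤ p + q)
  simp only at this
  nlinarith

lemma ls_sub_pos {p q : ℝ} (hp : 0 < p) (hq : 0 < q) : 0 < ls (p + q) - ls q :=
  (mul_pos hp (ct_pos (add_pos hp hq))).trans_le (ls_sub_ge hp hq)

lemma mul_ct_ge {p : ℝ} (hp : 0 < p) : 1 ≤ p * ct p := by
  have h1 := sinh_pos' hp
  unfold ct
  rw [mul_div_assoc', one_le_div h1]
  have hm : MonotoneOn (fun x : ℝ => x * cosh x - sinh x) (Ici 0) := by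
    refine monotoneOn_of_hasDerivAt (F' := fun x => 1 * cosh x + x * sinh x - cosh x)
      (convex_Ici 0) ?_ ?_
    · intro x _
      exact ((hasDerivAt_id x).mul (hasDerivAt_cosh x)).sub (hasDerivAt_sinh x)
    · intro x hx
      rw [interior_Ici] at hx
      have := mul_pos (mem_Ioi.1 hx) (sinh_pos' hx)
      linarith
  have := hm (mem_Ici.2 le_rfl) (mem_Ici.2 hp.le) hp.le
  simp only [sinh_zero, zero_mul, sub_zero] at this
  linarith

lemma key {p q : ℝ} (hp : 0 < p) (hq : 0 < q) :
    1 / sinh (p + q) ≤ 2 * ct p * (ls (p + q) - ls q) - ct (p + q) := by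
  have hs : 0 < p + q := add_pos hp hq
  have h1 := ls_sub_ge hp hq
  have h2 := mul_ct_ge hp
  have h3 : 1 / sinh (p + q) ≤ ct (p + q) :=
    div_le_div_of_nonneg_right (one_le_cosh _) (sinh_pos' hs).le
  have h4 := mul_le_mul_of_nonneg_left h1 (ct_pos hp).le
  have h5 := mul_le_mul_of_nonneg_right h2 (ct_pos hs).le
  nlinarith

/-- second derivative along a line -/
noncomputable def W11 (p q a b : ℝ) : ℝ :=
  a * ((1 / (2 * sinh p ^ 2)) * (2 * a * ct p * (ls (p + q) - ls q) -
    (a + b) * ct (p + q) + b * ct q)) +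
  b * ((1 / (2 * sinh q ^ 2)) * (2 * b * ct q * (ls (p + q) - ls p) -
    (a + b) * ct (p + q) + a * ct p))

lemma W11_nonneg {p q : ℝ} (hp : 0 < p) (hq : 0 < q) (a b : ℝ) : 0 ≤ W11 p q a b := by
  have h1 := sinh_pos' hp
  have h2 := sinh_pos' hq
  have h3 := sinh_pos' (add_pos hp hq)
  have k1 := key hp hq
  have k2 := key hq hp
  rw [add_comm q p] at k2
  have c1 := ct_sub hp hq
  have c2 := ct_sub hq hp
  rw [add_comm q p] at c2
  have e : W11 p q a b = a ^ 2 / (2 * sinh p ^ 2) * (2 * ct p * (ls (p + q) - ls q) - ct (p + q)) +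
      b ^ 2 / (2 * sinh q ^ 2) * (2 * ct q * (ls (p + q) - ls p) - ct (p + q)) +
      a * b / (2 * sinh p ^ 2) * (ct q - ct (p + q)) +
      a * b / (2 * sinh q ^ 2) * (ct p - ct (p + q)) := by
    unfold W11
    field_simp
    ring
  rw [e, c1, c2]
  have i1 : a ^ 2 / (2 * sinh p ^ 2) * (1 / sinh (p + q)) ≤
      a ^ 2 / (2 * sinh p ^ 2) * (2 * ct p * (ls (p + q) - ls q) - ct (p + q)) :=
    mul_le_mul_of_nonneg_left k1 (by positivity)
  have i2 : b ^ 2 / (2 * sinh q ^ 2) * (1 / sinh (p + q)) ≤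
      b ^ 2 / (2 * sinh q ^ 2) * (2 * ct q * (ls (p + q) - ls p) - ct (p + q)) :=
    mul_le_mul_of_nonneg_left k2 (by positivity)
  have i3 : a ^ 2 / (2 * sinh p ^ 2) * (1 / sinh (p + q)) +
      b ^ 2 / (2 * sinh q ^ 2) * (1 / sinh (p + q)) +
      a * b / (2 * sinh p ^ 2) * (sinh p / (sinh (p + q) * sinh q)) +
      a * b / (2 * sinh q ^ 2) * (sinh q / (sinh (p + q) * sinh p)) =
      (a / sinh p + b / sinh q) ^ 2 / (2 * sinh (p + q)) := by
    field_simp
    ring
  have i4 : 0 ≤ (a / sinh p + b / sinh q) ^ 2 / (2 * sinh (p + q)) := by positivity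
  linarith

lemma hasDerivAt_line {u v a b t : ℝ} (hp : 0 < u + t * a) (hq : 0 < v + t * b) :
    HasDerivAt (fun t => Ww (u + t * a) (v + t * b))
      (a * W1 (u + t * a) (v + t * b) + b * W2 (u + t * a) (v + t * b)) t := by
  have dp : HasDerivAt (fun t : ℝ => u + t * a) a t := by
    simpa using ((hasDerivAt_id t).mul_const a).const_add u
  have dq : HasDerivAt (fun t : ℝ => v + t * b) b t := by
    simpa using ((hasDerivAt_id t).mul_const b).const_add v
  have c1 := HasDerivAt.comp (h₂ := ct) t (hasDerivAt_ct hp) dp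
  have c2 := HasDerivAt.comp (h₂ := ct) t (hasDerivAt_ct hq) dq
  have l1 := HasDerivAt.comp (h₂ := ls) t (hasDerivAt_ls hp) dp
  have l2 := HasDerivAt.comp (h₂ := ls) t (hasDerivAt_ls hq) dq
  have l3 : HasDerivAt (fun t : ℝ => ls (u + t * a + (v + t * b)))
      (ct (u + t * a + (v + t * b)) * (a + b)) t :=
    HasDerivAt.comp (h₂ := ls) (h := fun t : ℝ => u + t * a + (v + t * b)) t
      (hasDerivAt_ls (add_pos hp hq)) (dp.add dq)
  have h := (((c1.mul (l3.sub l2)).add (c2.mul (l3.sub l1))).sub (dp.add dq)).div_const 2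
  refine h.congr_deriv ?_
  have hm := ct_mul hp hq
  have h1 := sinh_pos' hp
  have h2 := sinh_pos' hq
  unfold W1 W2
  simp only [Function.comp_def, Pi.sub_apply]
  set p := u + t * a
  set q := v + t * b
  have e : ∀ X Y : ℝ, (-(1 / sinh p ^ 2) * a * X + ct p * (ct (p + q) * (a + b) - ct q * b) +
      (-(1 / sinh q ^ 2) * b * Y + ct q * (ct (p + q) * (a + b) - ct p * a)) - (a + b)) / 2 =
      a * -(X / (2 * sinh p ^ 2)) + b * -(Y / (2 * sinh q ^ 2)) +
        (a + b) / 2 * ((ct p + ct q) * ct (p + q) - (ct p * ct q + 1)) := by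
    intro X Y
    field_simp
    ring
  rw [e, hm]
  ring

lemma hasDerivAt_line2 {u v a b t : ℝ} (hp : 0 < u + t * a) (hq : 0 < v + t * b) :
    HasDerivAt (fun t => a * W1 (u + t * a) (v + t * b) + b * W2 (u + t * a) (v + t * b))
      (W11 (u + t * a) (v + t * b) a b) t := by
  have dp : HasDerivAt (fun t : ℝ => u + t * a) a t := by
    simpa using ((hasDerivAt_id t).mul_const a).const_add u
  have dq : HasDerivAt (fun t : ℝ => v + t * b) b t := by
    simpa using ((hasDerivAt_id t).mul_const b).const_add v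
  have l1 := HasDerivAt.comp (h₂ := ls) t (hasDerivAt_ls hp) dp
  have l2 := HasDerivAt.comp (h₂ := ls) t (hasDerivAt_ls hq) dq
  have l3 : HasDerivAt (fun t : ℝ => ls (u + t * a + (v + t * b)))
      (ct (u + t * a + (v + t * b)) * (a + b)) t :=
    HasDerivAt.comp (h₂ := ls) (h := fun t : ℝ => u + t * a + (v + t * b)) t
      (hasDerivAt_ls (add_pos hp hq)) (dp.add dq)
  have h1 := sinh_pos' hp
  have h2 := sinh_pos' hq
  have s1 := (dp.sinh.pow 2).const_mul 2
  have s2 := (dq.sinh.pow 2).const_mul 2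
  have n1 : 2 * sinh (u + t * a) ^ 2 ≠ 0 := by positivity
  have n2 : 2 * sinh (v + t * b) ^ 2 ≠ 0 := by positivity
  have h := ((((l3.sub l2).div s1 n1).neg).const_mul a).add
    ((((l3.sub l1).div s2 n2).neg).const_mul b)
  refine h.congr_deriv ?_
  unfold W11
  simp only [Function.comp_def, Pi.sub_apply, Pi.pow_apply]
  set p := u + t * a
  set q := v + t * b
  have e1 : ct p = cosh p / sinh p := rfl
  have e2 : ct q = cosh q / sinh q := rfl
  generalize ct (p + q) = Z
  generalize ls (p + q) = X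
  generalize ls p = Y1
  generalize ls q = Y2
  rw [e1, e2]
  push_cast
  field_simp
  ring

/-- the tangent inequality -/
theorem tangent {u v u' v' : ℝ} (hu : 0 < u) (hv : 0 < v) (hu' : 0 < u') (hv' : 0 < v') :
    Ww u v + W1 u v * (u' - u) + W2 u v * (v' - v) ≤ Ww u' v' := by
  set a := u' - u with ha
  set b := v' - v with hb
  have hp : ∀ t ∈ Icc (0:ℝ) 1, 0 < u + t * a := by
    intro t ht
    have : u + t * a = (1 - t) * u + t * u' := by rw [ha]; ring
    rw [this]
    rcases ht.1.eq_or_lt with h | h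
    · rw [← h]; simpa using hu
    · have := mul_pos h hu'
      have := mul_nonneg (by linarith [ht.2] : 0 ≤ 1 - t) hu.le
      linarith
  have hq : ∀ t ∈ Icc (0:ℝ) 1, 0 < v + t * b := by
    intro t ht
    have : v + t * b = (1 - t) * v + t * v' := by rw [hb]; ring
    rw [this]
    rcases ht.1.eq_or_lt with h | h
    · rw [← h]; simpa using hv
    · have := mul_pos h hv'
      have := mul_nonneg (by linarith [ht.2] : 0 ≤ 1 - t) hv.le
      linarith
  have m1 : MonotoneOn (fun t => a * W1 (u + t * a) (v + t * b) + b * W2 (u + t * a) (v + t * b))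
      (Icc 0 1) := by
    refine monotoneOn_of_hasDerivAt (convex_Icc _ _)
      (fun z hz => hasDerivAt_line2 (hp z hz) (hq z hz)) ?_
    intro z hz
    have hz' := interior_subset hz
    exact W11_nonneg (hp z hz') (hq z hz') a b
  have m2 : MonotoneOn (fun t => Ww (u + t * a) (v + t * b) - t * (a * W1 u v + b * W2 u v))
      (Icc 0 1) := by
    refine monotoneOn_of_hasDerivAt (F' := fun t => (a * W1 (u + t * a) (v + t * b) +
      b * W2 (u + t * a) (v + t * b)) - 1 * (a * W1 u v + b * W2 u v)) (convex_Icc _ _) ?_ ?_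
    · intro z hz
      exact (hasDerivAt_line (hp z hz) (hq z hz)).sub ((hasDerivAt_id z).mul_const _)
    · intro z hz
      have hz' := interior_subset hz
      have := m1 ⟨le_rfl, zero_le_one⟩ hz' hz'.1
      simp only [zero_mul, add_zero] at this
      linarith
  have := m2 ⟨le_rfl, zero_le_one⟩ ⟨zero_le_one, le_rfl⟩ zero_le_one
  simp only [zero_mul, add_zero, sub_zero, one_mul] at this
  have e1 : u + a = u' := by rw [ha]; ring
  have e2 : v + b = v' := by rw [hb]; ring
  rw [e1, e2] at this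
  linarith

end Vale.Agent.P322.LawW
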