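import Mathlib
import Vale.Agent.P322.LawW

/-! The comparison of the two partial derivatives. -/

namespace Vale.Agent.P322.LawW

open Real Set Filter Topology Vale.Agent.P322

lemma mono_of_deriv' {F F' : ℝ → ℝ} {a b : ℝ} (hc : ContinuousOn F (Icc a b))
    (hF : ∀ z ∈ Ioo a b, HasDerivAt F (F' z) z) (hp : ∀ z ∈ Ioo a b, 0 ≤ F' z) :
    MonotoneOn F (Icc a b) := by
  refine monotoneOn_of_deriv_nonneg (convex_Icc a b) hc ?_ ?_
  · rw [interior_Icc]
    intro x hx
    exact (hF x hx).differentiableAt.differentiableWithinAt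
  · rw [interior_Icc]
    intro x hx
    rw [(hF x hx).deriv]
    exact hp x hx

lemma anti_of_deriv' {F F' : ℝ → ℝ} {a b : ℝ} (hc : ContinuousOn F (Icc a b))
    (hF : ∀ z ∈ Ioo a b, HasDerivAt F (F' z) z) (hp : ∀ z ∈ Ioo a b, F' z ≤ 0) :
    AntitoneOn F (Icc a b) := by
  refine antitoneOn_of_deriv_nonpos (convex_Icc a b) hc ?_ ?_
  · rw [interior_Icc]
    intro x hx
    exact (hF x hx).differentiableAt.differentiableWithinAt
  · rw [interior_Icc]
    intro x hx
    rw [(hF x hx).deriv]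
    exact hp x hx

/-- version of the single crossing lemma with continuity at the end points only -/
lemma single_crossing {F F' : ℝ → ℝ} {a b : ℝ} (hc : ContinuousOn F (Icc a b))
    (hF : ∀ z ∈ Ioo a b, HasDerivAt F (F' z) z)
    (hs : ∀ y ∈ Ioo a b, 0 ≤ F' y → ∀ z ∈ Ioo a y, 0 ≤ F' z)
    (ha : 0 ≤ F a) (hb : 0 ≤ F b) : ∀ z ∈ Icc a b, 0 ≤ F z := by
  intro z hz
  rcases eq_or_lt_of_le hz.1 with h | h1
  · rw [← h]; exact ha
  rcases eq_or_lt_of_le hz.2 with h | h2
  · rw [h]; exact hb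
  by_cases hp : 0 ≤ F' z
  · have hm : MonotoneOn F (Icc a z) :=
      mono_of_deriv' (hc.mono (Icc_subset_Icc_right hz.2))
        (fun x hx => hF x ⟨hx.1, hx.2.trans h2⟩) (hs z ⟨h1, h2⟩ hp)
    exact ha.trans (hm ⟨le_rfl, h1.le⟩ ⟨h1.le, le_rfl⟩ h1.le)
  · have hn : ∀ x ∈ Ioo z b, F' x ≤ 0 := by
      intro x hx
      by_contra hcon
      push Not at hcon
      exact hp (hs x ⟨h1.trans hx.1, hx.2⟩ hcon.le z ⟨h1, hx.1⟩)
    have hm : AntitoneOn F (Icc z b) :=
      anti_of_deriv' (hc.mono (Icc_subset_Icc_left hz.1))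
        (fun x hx => hF x ⟨h1.trans hx.1, hx.2⟩) hn
    exact hb.trans (hm ⟨le_rfl, h2.le⟩ ⟨h2.le, le_rfl⟩ h2.le)

noncomputable def ff (x : ℝ) : ℝ := x * negMulLog x

lemma ff_eq (x : ℝ) : ff x = -(x ^ 2 * log x) := by unfold ff negMulLog; ring

lemma continuous_ff : Continuous ff := by unfold ff; fun_prop

lemma hasDerivAt_ff {x : ℝ} (hx : 0 < x) : HasDerivAt ff (x * (-2 * log x - 1)) x := by
  have := ((hasDerivAt_pow 2 x).mul (hasDerivAt_log hx.ne')).neg
  have e : ff = fun x => -(x ^ 2 * log x) := by funext x; exact ff_eq x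
  rw [e]
  refine this.congr_deriv ?_
  field_simp
  ring

lemma ff_symm_le {w : ℝ} (h0 : 0 ≤ w) (h1 : w ≤ 1 / 2) : ff w ≤ ff (1 - w) := by
  have key := single_crossing (F := fun w => ff (1 - w) - ff w)
    (F' := fun w => 1 - 2 * binEntropy w) (a := 0) (b := 1 / 2) ?_ ?_ ?_ ?_ ?_ w ⟨h0, h1⟩
  · linarith
  · have := continuous_ff
    fun_prop
  · intro z hz
    have d1 : HasDerivAt (fun x : ℝ => 1 - x) (-1) z := by
      simpa using (hasDerivAt_id z).const_sub 1
    have hz1 : (0:ℝ) < 1 - z := by linarith [hz.2]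
    have := (HasDerivAt.comp (h₂ := ff) z (hasDerivAt_ff hz1) d1).sub (hasDerivAt_ff hz.1)
    refine this.congr_deriv ?_
    rw [binEntropy, log_inv, log_inv]
    ring
  · intro y hy hy' z hz
    have hm := binEntropy_strictMonoOn.monotoneOn (a := z) (b := y)
      ⟨hz.1.le, by norm_num at hy ⊢; linarith [hz.2, hy.2]⟩
      ⟨hy.1.le, by norm_num at hy ⊢; linarith [hy.2]⟩ hz.2.le
    linarith
  · simp [ff_eq]
  · norm_num

lemma ff_le {w y : ℝ} (h0 : 0 < w) (h1 : w ≤ y) (h2 : y ≤ 1 - w) : ff w ≤ ff y := by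
  have hw : w ≤ 1 / 2 := by linarith
  have key := single_crossing (F := fun y => ff y - ff w)
    (F' := fun y => y * (-2 * log y - 1)) (a := w) (b := 1 - w) ?_ ?_ ?_ ?_ ?_ y ⟨h1, h2⟩
  · linarith
  · have := continuous_ff
    fun_prop
  · intro z hz
    simpa using (hasDerivAt_ff (h0.trans hz.1)).sub_const (ff w)
  · intro y hy hy' z hz
    have hy0 : 0 < y := h0.trans hy.1
    have hz0 : 0 < z := h0.trans hz.1
    have h3 : 0 ≤ -2 * log y - 1 := nonneg_of_mul_nonneg_right hy' hy0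
    have h4 : log z ≤ log y := log_le_log hz0 hz.2.le
    exact mul_nonneg hz0.le (by linarith)
  · simp
  · have := ff_symm_le h0.le hw
    linarith

/-- comparison of the partial derivatives -/
theorem W1_ge_W2 {u v : ℝ} (hv : 0 < v) (hvu : v ≤ u) : W2 u v ≤ W1 u v := by
  have hu : 0 < u := hv.trans_le hvu
  have h1 := sinh_pos' hu
  have h2 := sinh_pos' hv
  have h3 := sinh_pos' (add_pos hu hv)
  have e1 : log (sinh v / sinh (u + v)) = -(ls (u + v) - ls v) := by
    rw [log_div h2.ne' h3.ne']; unfold ls; ring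
  have e2 : log (sinh u / sinh (u + v)) = -(ls (u + v) - ls u) := by
    rw [log_div h1.ne' h3.ne']; unfold ls; ring
  have hle : ff (sinh v / sinh (u + v)) ≤ ff (sinh u / sinh (u + v)) := by
    refine ff_le (div_pos h2 h3) (div_le_div_of_nonneg_right (sinh_le_sinh.2 hvu) h3.le) ?_
    rw [div_le_iff₀ h3, sub_mul, div_mul_cancel₀ _ h3.ne', sinh_add]
    have a1 := one_le_cosh u
    have a2 := one_le_cosh v
    nlinarith
  rw [ff_eq, ff_eq, e1, e2, div_pow, div_pow] at hle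
  unfold W1 W2
  rw [neg_le_neg_iff, div_le_div_iff₀ (by positivity) (by positivity)]
  have h4 : 0 < sinh (u + v) ^ 2 := by positivity
  have := mul_le_mul_of_nonneg_left hle h4.le
  have e3 : sinh (u + v) ^ 2 * -(sinh v ^ 2 / sinh (u + v) ^ 2 * -(ls (u + v) - ls v)) =
      sinh v ^ 2 * (ls (u + v) - ls v) := by field_simp
  have e4 : sinh (u + v) ^ 2 * -(sinh u ^ 2 / sinh (u + v) ^ 2 * -(ls (u + v) - ls u)) =
      sinh u ^ 2 * (ls (u + v) - ls u) := by field_simp
  rw [e3, e4] at this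
  linarith

end Vale.Agent.P322.LawW
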