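import Mathlib
import Vale.Agent.P322.LawV
import Vale.Agent.P322.Iface

/-! The fact `L3Fact`. -/

namespace Vale.Agent.P322.LawW

open Real Set Vale.Agent.P322

lemma frac1 {D U : ℝ} (hU : U ≠ 0) : (1 + D / U) / (1 - D / U) = (U + D) / (U - D) := by
  have e1 : 1 + D / U = (U + D) / U := by field_simp
  have e2 : 1 - D / U = (U - D) / U := by field_simp
  rw [e1, e2, div_div_div_cancel_right₀ hU]

lemma frac2 {D U : ℝ} (hU : U ≠ 0) : 1 - (D / U) ^ 2 = (U - D) * (U + D) / U ^ 2 := by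
  field_simp
  ring

lemma frac3 {D U X : ℝ} (hU : U ≠ 0) : U * (D / U * X) = D * X := by field_simp

lemma frac4 {D U X c k : ℝ} (hU : U ≠ 0) :
    U * (D / U * X + k * (D / U - c)) = D * X + k * (D - c * U) := by field_simp

/-- hyperbolic coordinates of a pair -/
noncomputable def ua (x y : ℝ) : ℝ := artanh ((x - y) / 2 / (1 - (x + y) / 2))
noncomputable def ub (x y : ℝ) : ℝ := artanh ((x - y) / 2 / (1 + (x + y) / 2))

lemma ta_mem {x y : ℝ} (_hy : -1 < y) (hyx : y < x) (hx : x < 1) :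
    0 < (x - y) / 2 / (1 - (x + y) / 2) ∧ (x - y) / 2 / (1 - (x + y) / 2) < 1 := by
  have h1 : 0 < 1 - (x + y) / 2 := by linarith
  exact ⟨div_pos (by linarith) h1, by rw [div_lt_one h1]; linarith⟩

lemma tb_mem {x y : ℝ} (hy : -1 < y) (hyx : y < x) (_hx : x < 1) :
    0 < (x - y) / 2 / (1 + (x + y) / 2) ∧ (x - y) / 2 / (1 + (x + y) / 2) < 1 := by
  have h1 : 0 < 1 + (x + y) / 2 := by linarith
  exact ⟨div_pos (by linarith) h1, by rw [div_lt_one h1]; linarith⟩

lemma ua_pos {x y : ℝ} (hy : -1 < y) (hyx : y < x) (hx : x < 1) : 0 < ua x y :=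
  artanh_pos (ta_mem hy hyx hx)

lemma ub_pos {x y : ℝ} (hy : -1 < y) (hyx : y < x) (hx : x < 1) : 0 < ub x y :=
  artanh_pos (tb_mem hy hyx hx)

lemma ua_eq {x y : ℝ} (hy : -1 < y) (hyx : y < x) (hx : x < 1) :
    ua x y = 1 / 2 * (log (1 - y) - log (1 - x)) := by
  have h := ta_mem hy hyx hx
  have h1 : 0 < 1 - (x + y) / 2 := by linarith
  unfold ua
  rw [artanh_eq_half_log ⟨by linarith, h.2.le⟩, ← log_div (by linarith) (by linarith)]
  rw [frac1 h1.ne']
  have e1 : 1 - (x + y) / 2 + (x - y) / 2 = 1 - y := by ring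
  have e2 : 1 - (x + y) / 2 - (x - y) / 2 = 1 - x := by ring
  rw [e1, e2]

lemma ub_eq {x y : ℝ} (hy : -1 < y) (hyx : y < x) (hx : x < 1) :
    ub x y = 1 / 2 * (log (1 + x) - log (1 + y)) := by
  have h := tb_mem hy hyx hx
  have h1 : 0 < 1 + (x + y) / 2 := by linarith
  unfold ub
  rw [artanh_eq_half_log ⟨by linarith, h.2.le⟩, ← log_div (by linarith) (by linarith)]
  rw [frac1 h1.ne']
  have e1 : 1 + (x + y) / 2 + (x - y) / 2 = 1 + x := by ring
  have e2 : 1 + (x + y) / 2 - (x - y) / 2 = 1 + y := by ring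
  rw [e1, e2]

lemma artanh_log {x : ℝ} (h0 : -1 < x) (h1 : x < 1) :
    artanh x = 1 / 2 * (log (1 + x) - log (1 - x)) := by
  rw [artanh_eq_half_log ⟨h0.le, h1.le⟩, log_div (by linarith) (by linarith)]

lemma KK_eq {x y : ℝ} (hy : -1 < y) (hyx : y < x) (hx : x < 1) :
    KK x y / 4 = (x - y) / 2 / 2 * (ua x y + ub x y) := by
  unfold KK
  rw [ua_eq hy hyx hx, ub_eq hy hyx hx, artanh_log (hy.trans hyx) hx,
    artanh_log hy (hyx.trans hx)]
  ring

lemma ct_artanh {t : ℝ} (h0 : 0 < t) (h1 : t < 1) : ct (artanh t) = 1 / t := by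
  have ht := tanh_artanh (x := t) ⟨by linarith, h1⟩
  rw [tanh_eq_sinh_div_cosh] at ht
  unfold ct
  conv_rhs => rw [← ht]
  rw [one_div_div]

lemma ls_artanh {t : ℝ} (h0 : 0 < t) (h1 : t < 1) :
    ls (artanh t) = log t - 1 / 2 * log (1 - t ^ 2) := by
  unfold ls
  have h2 : 0 < 1 - t ^ 2 := by nlinarith
  rw [sinh_artanh ⟨by linarith, h1⟩, log_div h0.ne' (sqrt_pos.2 h2).ne', log_sqrt h2.le]
  ring

lemma ls_ua {x y : ℝ} (hy : -1 < y) (hyx : y < x) (hx : x < 1) :
    ls (ua x y) = log ((x - y) / 2) - 1 / 2 * (log (1 - x) + log (1 - y)) := by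
  have h := ta_mem hy hyx hx
  have h1 : 0 < 1 - (x + y) / 2 := by linarith
  have h2 : (0:ℝ) < 1 - x := by linarith
  have h3 : (0:ℝ) < 1 - y := by linarith
  have h4 : (0:ℝ) < (x - y) / 2 := by linarith
  unfold ua
  rw [ls_artanh h.1 h.2, frac2 h1.ne']
  have e1 : 1 - (x + y) / 2 + (x - y) / 2 = 1 - y := by ring
  have e2 : 1 - (x + y) / 2 - (x - y) / 2 = 1 - x := by ring
  have e3 : log ((1 - x) * (1 - y) / (1 - (x + y) / 2) ^ 2) =
      log (1 - x) + log (1 - y) - 2 * log (1 - (x + y) / 2) := by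
    rw [log_div (mul_pos h2 h3).ne' (pow_pos h1 2).ne', log_mul h2.ne' h3.ne', log_pow]
    push_cast
    ring
  rw [e1, e2, log_div h4.ne' h1.ne', e3]
  ring

lemma ls_ub {x y : ℝ} (hy : -1 < y) (hyx : y < x) (hx : x < 1) :
    ls (ub x y) = log ((x - y) / 2) - 1 / 2 * (log (1 + x) + log (1 + y)) := by
  have h := tb_mem hy hyx hx
  have h1 : 0 < 1 + (x + y) / 2 := by linarith
  have h2 : (0:ℝ) < 1 + x := by linarith
  have h3 : (0:ℝ) < 1 + y := by linarith
  have h4 : (0:ℝ) < (x - y) / 2 := by linarith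
  unfold ub
  rw [ls_artanh h.1 h.2, frac2 h1.ne']
  have e1 : 1 + (x + y) / 2 + (x - y) / 2 = 1 + x := by ring
  have e2 : 1 + (x + y) / 2 - (x - y) / 2 = 1 + y := by ring
  have e3 : log ((1 + y) * (1 + x) / (1 + (x + y) / 2) ^ 2) =
      log (1 + y) + log (1 + x) - 2 * log (1 + (x + y) / 2) := by
    rw [log_div (mul_pos h3 h2).ne' (pow_pos h1 2).ne', log_mul h3.ne' h2.ne', log_pow]
    push_cast
    ring
  rw [e1, e2, log_div h4.ne' h1.ne', e3]
  ring

lemma ct_ua {x y : ℝ} (hy : -1 < y) (hyx : y < x) (hx : x < 1) :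
    ct (ua x y) = (1 - (x + y) / 2) / ((x - y) / 2) := by
  have h := ta_mem hy hyx hx
  unfold ua
  rw [ct_artanh h.1 h.2, one_div_div]

lemma ct_ub {x y : ℝ} (hy : -1 < y) (hyx : y < x) (hx : x < 1) :
    ct (ub x y) = (1 + (x + y) / 2) / ((x - y) / 2) := by
  have h := tb_mem hy hyx hx
  unfold ub
  rw [ct_artanh h.1 h.2, one_div_div]

lemma ls_add {u v : ℝ} (hu : 0 < u) (hv : 0 < v) :
    ls (u + v) = ls u + ls v + log (ct u + ct v) := by
  have h1 := sinh_pos' hu
  have h2 := sinh_pos' hv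
  have e : sinh (u + v) = sinh u * sinh v * (ct u + ct v) := by
    unfold ct
    rw [sinh_add]
    field_simp
    ring
  unfold ls
  rw [e, log_mul (by positivity) (add_pos (ct_pos hu) (ct_pos hv)).ne', log_mul h1.ne' h2.ne']

lemma H_eq {x y : ℝ} (hy : -1 < y) (hyx : y < x) (hx : x < 1) :
    (hh x + hh y) / 2 = (x - y) / 2 * Ww (ua x y) (ub x y) := by
  have hd : 0 < (x - y) / 2 := by linarith
  have e1 : ct (ua x y) + ct (ub x y) = 2 / ((x - y) / 2) := by
    rw [ct_ua hy hyx hx, ct_ub hy hyx hx, ← add_div]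
    congr 1
    ring
  have e2 := ls_add (ua_pos hy hyx hx) (ub_pos hy hyx hx)
  rw [e1, log_div (by norm_num) hd.ne'] at e2
  have p1 : (0:ℝ) < 1 + x := by linarith
  have p2 : (0:ℝ) < 1 - x := by linarith
  have p3 : (0:ℝ) < 1 + y := by linarith
  have p4 : (0:ℝ) < 1 - y := by linarith
  unfold Ww
  rw [e2, ct_ua hy hyx hx, ct_ub hy hyx hx, ls_ua hy hyx hx, ls_ub hy hyx hx, ua_eq hy hyx hx,
    ub_eq hy hyx hx, hh_eq, hh_eq, log_div p1.ne' (by norm_num), log_div p2.ne' (by norm_num),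
    log_div p3.ne' (by norm_num), log_div p4.ne' (by norm_num)]
  generalize log ((x - y) / 2) = D
  have hd' : x - y ≠ 0 := by linarith
  field_simp
  ring

lemma artanh_tangent {c t : ℝ} (hc0 : 0 < c) (hc1 : c < 1) (ht0 : 0 < t) (ht1 : t < 1) :
    t * artanh c + c / (1 - c ^ 2) * (t - c) ≤ t * artanh t := by
  -- (t * artanh t) convex
  have hd : ∀ x, 0 < x → x < 1 → HasDerivAt (fun x => x * artanh x - (artanh c + c / (1 - c ^ 2)) * x)
      (1 * artanh x + x * (1 / (1 - x ^ 2)) - (artanh c + c / (1 - c ^ 2)) * 1) x := by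
    intro x h0 h1
    exact ((hasDerivAt_id x).mul (hasDerivAt_artanh (by linarith) h1)).sub
      ((hasDerivAt_id x).const_mul _)
  have hmono : ∀ x y, 0 < x → x ≤ y → y < 1 → artanh x + x / (1 - x ^ 2) ≤
      artanh y + y / (1 - y ^ 2) := by
    intro x y h0 hxy h1
    have a1 := artanh_le_artanh (by linarith) h1 hxy
    have a2 : x / (1 - x ^ 2) ≤ y / (1 - y ^ 2) := by
      have : x ^ 2 ≤ y ^ 2 := pow_le_pow_left₀ h0.le hxy 2
      have : 0 < 1 - y ^ 2 := by nlinarith
      exact div_le_div₀ (by linarith) hxy this (by linarith)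
    linarith
  rcases le_total c t with h | h
  · have hm : MonotoneOn (fun x => x * artanh x - (artanh c + c / (1 - c ^ 2)) * x) (Icc c t) := by
      refine monotoneOn_of_hasDerivAt (convex_Icc _ _)
        (fun z hz => hd z (hc0.trans_le hz.1) (hz.2.trans_lt ht1)) ?_
      intro z hz
      rw [interior_Icc] at hz
      have := hmono c z hc0 hz.1.le (hz.2.trans ht1)
      have e : z * (1 / (1 - z ^ 2)) = z / (1 - z ^ 2) := by ring
      rw [e]
      linarith
    have := hm ⟨le_rfl, h⟩ ⟨h, le_rfl⟩ h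
    simp only at this
    nlinarith
  · have hm : AntitoneOn (fun x => x * artanh x - (artanh c + c / (1 - c ^ 2)) * x) (Icc t c) := by
      refine antitoneOn_of_hasDerivAt (convex_Icc _ _)
        (fun z hz => hd z (ht0.trans_le hz.1) (hz.2.trans_lt hc1)) ?_
      intro z hz
      rw [interior_Icc] at hz
      have := hmono z c (ht0.trans hz.1) hz.2.le hc1
      have e : z * (1 / (1 - z ^ 2)) = z / (1 - z ^ 2) := by ring
      rw [e]
      linarith
    have := hm ⟨le_rfl, h⟩ ⟨h, le_rfl⟩ h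
    simp only at this
    nlinarith

/-- the pointwise inequality with its constants -/
theorem L3_pt {a b : ℝ} (hb : -1 < b) (hba : b < a) (ha : a < 1) (hab : 0 ≤ a + b) :
    ∃ γ P Q : ℝ, 0 < γ ∧ 0 ≤ P ∧ 0 ≤ Q ∧
      (∀ x y : ℝ, -1 < x → x < 1 → -1 < y → y < 1 →
        P * ((x - y) / 2) + Q * ((x - y) / 2 - ((a - b) / 2 / (1 - (a + b) / 2)) *
          (1 - (x + y) / 2)) ≤ KK x y / 4 + γ * ((hh x + hh y) / 2)) ∧
      P * ((a - b) / 2) = KK a b / 4 + γ * ((hh a + hh b) / 2) := by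
  set u := ua a b with hu
  set v := ub a b with hv
  set c := (a - b) / 2 / (1 - (a + b) / 2) with hc
  have hu0 : 0 < u := ua_pos hb hba ha
  have hv0 : 0 < v := ub_pos hb hba ha
  have hcm := ta_mem hb hba ha
  rw [← hc] at hcm
  have hvu : v ≤ u := by
    rw [hu, hv]
    unfold ua ub
    refine artanh_le_artanh (by linarith [(tb_mem hb hba ha).1]) (ta_mem hb hba ha).2 ?_
    exact div_le_div_of_nonneg_left (by linarith) (by linarith) (by linarith)
  have hW := W1_ge_W2 hv0 hvu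
  have hW2 : W2 u v < 0 := by
    unfold W2
    rw [neg_lt_zero]
    have := ls_sub_pos hv0 hu0
    rw [add_comm v u] at this
    exact div_pos this (by have := sinh_pos' hv0; positivity)
  have hWw : 0 ≤ Ww u v := by
    have h1 := H_eq hb hba ha
    have h2 := hh_nonneg (t := a) (by linarith) ha.le
    have h3 := hh_nonneg (t := b) hb.le (by linarith)
    rw [← hu, ← hv] at h1
    have h4 : 0 ≤ (a - b) / 2 * Ww u v := by rw [← h1]; linarith
    exact nonneg_of_mul_nonneg_right h4 (by linarith)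
  have hc2 : 0 < 1 - c ^ 2 := by nlinarith
  set γ := -(1 / (2 * W2 u v)) with hγ
  have hγ0 : 0 < γ := by
    rw [hγ, neg_pos]
    exact div_neg_of_pos_of_neg one_pos (by linarith)
  have hγW : γ * W2 u v = -(1 / 2) := by
    have hne := hW2.ne
    rw [hγ]; field_simp
  have hκ : 0 ≤ 1 / 2 + γ * W1 u v := by
    have := mul_le_mul_of_nonneg_left hW hγ0.le
    linarith
  refine ⟨γ, (u + v) / 2 + γ * Ww u v, (1 / 2 + γ * W1 u v) * (c / (1 - c ^ 2)), hγ0,
    by positivity, mul_nonneg hκ (div_nonneg hcm.1.le hc2.le), ?_, ?_⟩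
  · set P := (u + v) / 2 + γ * Ww u v with hP
    set Q := (1 / 2 + γ * W1 u v) * (c / (1 - c ^ 2)) with hQ
    have hP0 : 0 ≤ P := by positivity
    have hQ0 : 0 ≤ Q := mul_nonneg hκ (div_nonneg hcm.1.le hc2.le)
    have main : ∀ x y : ℝ, -1 < y → y < x → x < 1 →
        P * ((x - y) / 2) + Q * ((x - y) / 2 - c * (1 - (x + y) / 2)) ≤
          KK x y / 4 + γ * ((hh x + hh y) / 2) := by
      intro x y hy hyx hx
      have hd : 0 < (x - y) / 2 := by linarith
      have hU : 0 < 1 - (x + y) / 2 := by linarith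
      have h1 := ua_pos hy hyx hx
      have h2 := ub_pos hy hyx hx
      have hT := tangent hu0 hv0 h1 h2
      rw [KK_eq hy hyx hx, H_eq hy hyx hx]
      have hta := ta_mem hy hyx hx
      have hA := artanh_tangent hcm.1 hcm.2 hta.1 hta.2
      have hA' := mul_le_mul_of_nonneg_left hA hU.le
      have e1 : (1 - (x + y) / 2) * ((x - y) / 2 / (1 - (x + y) / 2) *
          artanh ((x - y) / 2 / (1 - (x + y) / 2))) = (x - y) / 2 * ua x y := frac3 hU.ne'
      have e2 : (1 - (x + y) / 2) * ((x - y) / 2 / (1 - (x + y) / 2) * artanh c +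
          c / (1 - c ^ 2) * ((x - y) / 2 / (1 - (x + y) / 2) - c)) =
          (x - y) / 2 * u + c / (1 - c ^ 2) * ((x - y) / 2 - c * (1 - (x + y) / 2)) :=
        frac4 hU.ne'
      rw [e1, e2] at hA'
      have h3 := mul_le_mul_of_nonneg_left hA' hκ
      have h4 := mul_le_mul_of_nonneg_left hT (mul_pos hγ0 hd).le
      rw [hP, hQ]
      have h5 : γ * ((x - y) / 2) * (Ww u v + W1 u v * (ua x y - u) + W2 u v * (ub x y - v)) =
          γ * ((x - y) / 2) * (Ww u v + W1 u v * (ua x y - u)) +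
            (γ * W2 u v) * ((x - y) / 2 * (ub x y - v)) := by ring
      rw [h5, hγW] at h4
      generalize (x - y) / 2 = D at *
      generalize 1 - (x + y) / 2 = U at *
      generalize Ww (ua x y) (ub x y) = WW at *
      generalize ua x y = ux at *
      generalize ub x y = vx at *
      generalize c / (1 - c ^ 2) = k at *
      have e5 : ((u + v) / 2 + γ * Ww u v) * D + (1 / 2 + γ * W1 u v) * k * (D - c * U) =
          (1 / 2 + γ * W1 u v) * (D * u + k * (D - c * U)) + (γ * D * (Ww u v + W1 u v * (ux - u)) +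
            -(1 / 2) * (D * (vx - v))) - (1 / 2 + γ * W1 u v) * (D * ux) + D / 2 * (ux + vx) := by
        ring
      rw [e5]
      linarith
    intro x y hx0 hx1 hy0 hy1
    rcases lt_trichotomy y x with h | h | h
    · exact main x y hy0 h hx1
    · subst h
      have e : KK y y = 0 := by unfold KK; ring
      rw [e]
      have h1 := hh_nonneg (t := y) hx0.le hx1.le
      have h2 : 0 ≤ Q * (c * (1 - y)) := mul_nonneg hQ0 (mul_nonneg hcm.1.le (by linarith))
      have h3 := mul_nonneg hγ0.le h1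
      have e2 : (y + y) / 2 = y := by ring
      have e3 : (hh y + hh y) / 2 = hh y := by ring
      rw [e2, e3]
      have e4 : P * ((y - y) / 2) + Q * ((y - y) / 2 - c * (1 - y)) = -(Q * (c * (1 - y))) := by ring
      rw [e4]
      linarith
    · have := main y x hx0 h hy1
      rw [KK_symm x y, add_comm (hh x), add_comm x y]
      refine le_trans ?_ this
      have h1 : (x - y) / 2 ≤ (y - x) / 2 := by linarith
      have h2 := mul_le_mul_of_nonneg_left h1 hP0
      have h3 := mul_le_mul_of_nonneg_left h1 hQ0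
      have e3 : Q * ((x - y) / 2 - c * (1 - (y + x) / 2)) =
        Q * ((x - y) / 2) - Q * (c * (1 - (y + x) / 2)) := by ring
      have e4 : Q * ((y - x) / 2 - c * (1 - (y + x) / 2)) =
        Q * ((y - x) / 2) - Q * (c * (1 - (y + x) / 2)) := by ring
      rw [e3, e4]
      linarith
  · have h1 := KK_eq hb hba ha
    have h2 := H_eq hb hba ha
    rw [← hu, ← hv] at h1 h2
    rw [h1, h2]
    ring

end Vale.Agent.P322.LawW

namespace Vale.Agent.P322

open Real

theorem l3Fact : L3Fact := by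
  intro n A B hA hB a b l hb hba ha hab hl _ eA eB eH
  obtain ⟨γ, P, Q, hγ, _, _, hpt, heq⟩ := LawW.L3_pt hb hba ha hab
  set c := (a - b) / 2 / (1 - (a + b) / 2) with hc
  have h1 := avg_mono fun x => hpt (A x) (B x) (hA x).1 (hA x).2 (hB x).1 (hB x).2
  have e1 : avg (fun x => P * ((A x - B x) / 2) + Q * ((A x - B x) / 2 - c *
      (1 - (A x + B x) / 2))) = P * ((avg A - avg B) / 2) + Q * ((avg A - avg B) / 2 -
        c * (1 - (avg A + avg B) / 2)) := by
    have : (fun x => P * ((A x - B x) / 2) + Q * ((A x - B x) / 2 - c * (1 - (A x + B x) / 2))) =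
        fun x => (P / 2 + Q / 2 + Q * c / 2) * A x +
          ((-(P / 2) - Q / 2 + Q * c / 2) * B x + -(Q * c)) := by
      funext x; ring
    rw [this, avg_add, avg_smul, avg_add, avg_smul, avg_const]
    ring
  have e2 : avg (fun x => KK (A x) (B x) / 4 + γ * ((hh (A x) + hh (B x)) / 2)) =
      (1 / 4) * avg (fun x => KK (A x) (B x)) +
        γ * ((avg (fun x => hh (A x)) + avg (fun x => hh (B x))) / 2) := by
    have : (fun x => KK (A x) (B x) / 4 + γ * ((hh (A x) + hh (B x)) / 2)) =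
        fun x => (1 / 4) * KK (A x) (B x) + ((γ / 2) * hh (A x) + (γ / 2) * hh (B x)) := by
      funext x; ring
    rw [this, avg_add, avg_smul, avg_add, avg_smul, avg_smul]
    ring
  rw [e1, e2, eA, eB, eH] at h1
  have hU : (0:ℝ) < 1 - (a + b) / 2 := by linarith
  have e3 : (1 - l * (1 - a) - (1 - l * (1 - b))) / 2 -
      c * (1 - (1 - l * (1 - a) + (1 - l * (1 - b))) / 2) = 0 := by
    have : c * (1 - (a + b) / 2) = (a - b) / 2 := div_mul_cancel₀ _ hU.ne'
    have e : (1 - l * (1 - a) - (1 - l * (1 - b))) / 2 -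
      c * (1 - (1 - l * (1 - a) + (1 - l * (1 - b))) / 2) =
      l * ((a - b) / 2 - c * (1 - (a + b) / 2)) := by ring
    rw [e, this, sub_self, mul_zero]
  rw [e3, mul_zero, add_zero] at h1
  have e4 : P * ((1 - l * (1 - a) - (1 - l * (1 - b))) / 2) = l * (P * ((a - b) / 2)) := by ring
  rw [e4, heq] at h1
  nlinarith

end Vale.Agent.P322
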