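import Mathlib
import Vale.Agent.P322.L2
import Vale.Agent.P322.Assemble

namespace Vale.Agent.P322

open Real Set

/-- `sinh z * Lg ≥ cosh z * Lam` -/
lemma S_aux {z Y : ℝ} (hz : 0 ≤ z) (hY : 1 ≤ Y) :
    cosh z * (log (Y + exp (-z)) - log (Y + exp z) + z) ≤
      sinh z * (log (Y + exp z) + log (Y + exp (-z)) - log (2 * (cosh z + Y))) := by
  have hs : 0 ≤ sinh z := sinh_nonneg_iff.2 hz
  have hc : 1 ≤ cosh z := one_le_cosh z
  have e1 : exp z = cosh z + sinh z := (cosh_add_sinh z).symm
  have e2 : exp (-z) = cosh z - sinh z := (cosh_sub_sinh z).symm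
  have p1 := exp_pos z
  have p2 := exp_pos (-z)
  set N : ℝ → ℝ := fun y => sinh z * (log (y + exp z) + log (y + exp (-z)) -
    log (2 * (cosh z + y))) - cosh z * (log (y + exp (-z)) - log (y + exp z) + z) with hN
  have key : MonotoneOn N (Icc 1 Y) := by
    refine monotoneOn_of_hasDerivWithinAt_nonneg
      (f' := fun y => sinh z * (1 / (y + exp z) + 1 / (y + exp (-z)) - 2 / (2 * (cosh z + y))) -
        cosh z * (1 / (y + exp (-z)) - 1 / (y + exp z))) (convex_Icc 1 Y) ?_ ?_ ?_
    · intro y hy
      have y0 : 0 < y := by linarith [hy.1]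
      have c1 : ContinuousAt (fun y : ℝ => log (y + exp z)) y :=
        ContinuousAt.log (by fun_prop) (by positivity)
      have c2 : ContinuousAt (fun y : ℝ => log (y + exp (-z))) y :=
        ContinuousAt.log (by fun_prop) (by positivity)
      have c3 : ContinuousAt (fun y : ℝ => log (2 * (cosh z + y))) y :=
        ContinuousAt.log (by fun_prop) (by positivity)
      exact ((continuousAt_const.mul ((c1.add c2).sub c3)).sub
        (continuousAt_const.mul ((c2.sub c1).add continuousAt_const))).continuousWithinAt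
    · rw [interior_Icc]
      intro y hy
      have y0 : 0 < y := by linarith [hy.1]
      have d1 : HasDerivAt (fun y : ℝ => log (y + exp z)) (1 / (y + exp z)) y := by
        simpa using ((hasDerivAt_id y).add_const (exp z)).log (by positivity)
      have d2 : HasDerivAt (fun y : ℝ => log (y + exp (-z))) (1 / (y + exp (-z))) y := by
        simpa using ((hasDerivAt_id y).add_const (exp (-z))).log (by positivity)
      have d3 : HasDerivAt (fun y : ℝ => log (2 * (cosh z + y))) (2 / (2 * (cosh z + y))) y := by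
        have := (((hasDerivAt_id y).const_add (cosh z)).const_mul 2).log (by positivity)
        simpa using this
      exact (((d1.add d2).sub d3).const_mul (sinh z)).sub
        (((d2.sub d1).add_const z).const_mul (cosh z)) |>.hasDerivWithinAt
    · rw [interior_Icc]
      intro y hy
      have y0 : 0 < y := by linarith [hy.1]
      have h1 : 0 < y + exp z := by positivity
      have h2 : 0 < y + exp (-z) := by positivity
      have h3 : 0 < cosh z + y := by positivity
      have e : sinh z * (1 / (y + exp z) + 1 / (y + exp (-z)) - 2 / (2 * (cosh z + y))) -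
        cosh z * (1 / (y + exp (-z)) - 1 / (y + exp z)) =
        sinh z * (y ^ 2 - 1) / ((y + exp z) * (y + exp (-z)) * (cosh z + y)) := by
        have hcs : cosh z ^ 2 - sinh z ^ 2 = 1 := cosh_sq_sub_sinh_sq z
        rw [e1, e2] at *
        field_simp
        linear_combination (-sinh z) * hcs
      rw [e]
      apply div_nonneg
      · exact mul_nonneg hs (by nlinarith [hy.1])
      · positivity
  have h0 : N 1 = 0 := by
    have q1 : 1 + exp z = exp z * (1 + exp (-z)) := by
      rw [mul_add, ← exp_add]; simp [add_comm]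
    have q2 : 2 * (cosh z + 1) = (1 + exp z) * (1 + exp (-z)) := by
      have : exp z * exp (-z) = 1 := by rw [← exp_add]; simp
      rw [e1, e2] at *
      linear_combination -this
    have l1 : log (1 + exp z) = z + log (1 + exp (-z)) := by
      rw [q1, log_mul (by positivity) (by positivity), log_exp]
    have l2 : log (2 * (cosh z + 1)) = log (1 + exp z) + log (1 + exp (-z)) := by
      rw [q2, log_mul (by positivity) (by positivity)]
    simp only [hN]
    rw [l2, l1]
    ring
  have := key ⟨le_rfl, hY⟩ ⟨hY, le_rfl⟩ hY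
  rw [h0] at this
  simp only [hN] at this
  linarith

/-- `(X+Y) δ - w sinh 2w` as a function of `z` -/
noncomputable def Sf (Y z : ℝ) : ℝ :=
  ((cosh z + Y) * log (2 * (cosh z + Y)) - (Y + exp z) * log (Y + exp z) -
    (Y + exp (-z)) * log (Y + exp (-z)) + z * sinh z) / 2

lemma Sf_neg (Y z : ℝ) : Sf Y (-z) = Sf Y z := by
  unfold Sf
  rw [cosh_neg, sinh_neg, neg_neg]
  ring

lemma Sf_le_pos {Y z : ℝ} (hY : 1 ≤ Y) (hz : 0 ≤ z) : Sf Y z ≤ Sf Y 0 := by
  have Yp : 0 < Y := by linarith
  have key : AntitoneOn (Sf Y) (Icc 0 z) := by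
    refine antitoneOn_of_hasDerivWithinAt_nonpos
      (f' := fun z => (sinh z * (log (2 * (cosh z + Y)) + 1) - exp z * (log (Y + exp z) + 1) +
        exp (-z) * (log (Y + exp (-z)) + 1) + (sinh z + z * cosh z)) / 2)
      (convex_Icc 0 z) ?_ ?_ ?_
    · intro y hy
      have c1 : ContinuousAt (fun z : ℝ => log (2 * (cosh z + Y))) y :=
        ContinuousAt.log (by fun_prop) (by positivity)
      have c2 : ContinuousAt (fun z : ℝ => log (Y + exp z)) y :=
        ContinuousAt.log (by fun_prop) (by positivity)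
      have c3 : ContinuousAt (fun z : ℝ => log (Y + exp (-z))) y :=
        ContinuousAt.log (by fun_prop) (by positivity)
      unfold Sf
      refine ContinuousAt.continuousWithinAt ?_
      fun_prop
    · rw [interior_Icc]
      intro y hy
      have d0 : HasDerivAt (fun z : ℝ => cosh z + Y) (sinh y) y := by
        simpa using (hasDerivAt_cosh y).add_const Y
      have d1 : HasDerivAt (fun z : ℝ => Y + exp z) (exp y) y := by
        simpa using (hasDerivAt_exp y).const_add Y
      have d2 : HasDerivAt (fun z : ℝ => Y + exp (-z)) (-exp (-y)) y := by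
        have := ((hasDerivAt_neg y).exp).const_add Y
        simpa using this
      have l0 : HasDerivAt (fun z : ℝ => log (2 * (cosh z + Y))) (2 * sinh y / (2 * (cosh y + Y)))
          y := (d0.const_mul 2).log (by positivity)
      have l1 := d1.log (by positivity)
      have l2 := d2.log (by positivity)
      have := (((d0.mul l0).sub (d1.mul l1)).sub (d2.mul l2)).add
        ((hasDerivAt_id y).mul (hasDerivAt_sinh y))
      refine ((this.div_const 2).congr_deriv ?_).hasDerivWithinAt
      have h1 : Y + exp y ≠ 0 := by positivity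
      have h2 : Y + exp (-y) ≠ 0 := by positivity
      have h3 : cosh y + Y ≠ 0 := by positivity
      simp only [id]
      field_simp
      ring
    · rw [interior_Icc]
      intro y hy
      have h := S_aux (z := y) hy.1.le hY
      have e1 : exp y = cosh y + sinh y := (cosh_add_sinh y).symm
      have e2 : exp (-y) = cosh y - sinh y := (cosh_sub_sinh y).symm
      set L1 := log (Y + exp y)
      set L2 := log (Y + exp (-y))
      rw [e1, e2]
      nlinarith [h]
  exact key ⟨le_rfl, hz⟩ ⟨hz, le_rfl⟩ hz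

lemma Sf_le {Y : ℝ} (hY : 1 ≤ Y) (z : ℝ) : Sf Y z ≤ Sf Y 0 := by
  rcases le_total 0 z with h | h
  · exact Sf_le_pos hY h
  · rw [← Sf_neg]
    exact Sf_le_pos hY (by linarith)

lemma two_cosh_mul (α β : ℝ) : 2 * (cosh α * cosh β) = cosh (α + β) + cosh (α - β) := by
  rw [cosh_add, cosh_sub]; ring

lemma half_add_tanh (α β : ℝ) : (tanh α + tanh β) / 2 =
    sinh (α + β) / (cosh (α + β) + cosh (α - β)) := by
  have h1 := cosh_pos α
  have h2 := cosh_pos β
  rw [← two_cosh_mul, sinh_add, tanh_eq_sinh_div_cosh, tanh_eq_sinh_div_cosh]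
  field_simp

lemma half_sub_tanh (α β : ℝ) : (tanh α - tanh β) / 2 =
    sinh (α - β) / (cosh (α + β) + cosh (α - β)) := by
  have h1 := cosh_pos α
  have h2 := cosh_pos β
  rw [← two_cosh_mul, sinh_sub, tanh_eq_sinh_div_cosh, tanh_eq_sinh_div_cosh]
  field_simp

lemma dl_formula (α β : ℝ) : (cosh (α + β) + cosh (α - β)) * dl (tanh α) (tanh β) =
    Sf (cosh (α - β)) (α + β) + (α - β) / 2 * sinh (α - β) := by
  have h1 := cosh_pos α
  have h2 := cosh_pos β
  set X := cosh (α + β) with hX
  set Y := cosh (α - β) with hY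
  have hXp : 0 < X := cosh_pos _
  have hYp : 0 < Y := cosh_pos _
  have p1 := exp_pos (α + β)
  have p2 := exp_pos (-(α + β))
  have e1 : exp (α + β) = X + sinh (α + β) := (cosh_add_sinh _).symm
  have e2 : exp (-(α + β)) = X - sinh (α + β) := (cosh_sub_sinh _).symm
  have hM := half_add_tanh α β
  rw [← hX, ← hY] at hM
  -- entropy of the mean
  have m1 : (1 + (tanh α + tanh β) / 2) / 2 = (Y + exp (α + β)) / (2 * (X + Y)) := by
    rw [hM, e1]
    field_simp
    ring
  have m2 : (1 - (tanh α + tanh β) / 2) / 2 = (Y + exp (-(α + β))) / (2 * (X + Y)) := by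
    rw [hM, e2]
    field_simp
    ring
  have l1 : log ((Y + exp (α + β)) / (2 * (X + Y))) =
      log (Y + exp (α + β)) - log (2 * (X + Y)) := log_div (by positivity) (by positivity)
  have l2 : log ((Y + exp (-(α + β))) / (2 * (X + Y))) =
      log (Y + exp (-(α + β))) - log (2 * (X + Y)) := log_div (by positivity) (by positivity)
  have E1 : (X + Y) * hh ((tanh α + tanh β) / 2) = (X + Y) * log (2 * (X + Y)) -
      (Y + exp (α + β)) / 2 * log (Y + exp (α + β)) -
      (Y + exp (-(α + β))) / 2 * log (Y + exp (-(α + β))) := by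
    rw [hh_eq, m1, m2, l1, l2]
    have hs : exp (α + β) + exp (-(α + β)) = 2 * X := by rw [e1, e2]; ring
    have hXY : X + Y ≠ 0 := by positivity
    have hXY2 : 2 * (X + Y) ≠ 0 := by positivity
    set a1 := log (Y + exp (α + β))
    set a2 := log (Y + exp (-(α + β)))
    set a0 := log (2 * (X + Y))
    have h3 : (X + Y) * (-((Y + exp (α + β)) / (2 * (X + Y)) * (a1 - a0)) -
        (Y + exp (-(α + β))) / (2 * (X + Y)) * (a2 - a0)) =
        -((Y + exp (α + β)) / 2 * (a1 - a0)) - (Y + exp (-(α + β))) / 2 * (a2 - a0) := by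
      field_simp
    rw [h3]
    linear_combination (a0 / 2) * hs
  -- entropies of the two values
  have q : 2 * (X + Y) = 2 * cosh α * (2 * cosh β) := by
    have := two_cosh_mul α β
    rw [← hX, ← hY] at this
    linear_combination (-2) * this
  have l3 : log (2 * (X + Y)) = log (2 * cosh α) + log (2 * cosh β) := by
    rw [q, log_mul (by positivity) (by positivity)]
  have t1 : (X + Y) * tanh α = sinh (α + β) + sinh (α - β) := by
    have := two_cosh_mul α β
    rw [← hX, ← hY] at this
    rw [← this, tanh_eq_sinh_div_cosh, sinh_add, sinh_sub]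
    field_simp
    ring
  have t2 : (X + Y) * tanh β = sinh (α + β) - sinh (α - β) := by
    have := two_cosh_mul α β
    rw [← hX, ← hY] at this
    rw [← this, tanh_eq_sinh_div_cosh, sinh_add, sinh_sub]
    field_simp
    ring
  unfold dl Sf
  rw [← hX, hh_tanh, hh_tanh, mul_sub, E1]
  rw [l3]
  linear_combination (α / 2) * t1 + (β / 2) * t2

lemma Sf_zero (w : ℝ) : Sf (cosh (2 * w)) 0 + w * sinh (2 * w) =
    (1 + cosh (2 * w)) * (log 2 - hh (tanh w)) := by
  have hc := cosh_pos w
  have hY : 1 + cosh (2 * w) = 2 * cosh w ^ 2 := by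
    rw [cosh_two_mul]
    have := cosh_sq_sub_sinh_sq w
    linear_combination (-1 : ℝ) * this
  have hl : log (2 * cosh w ^ 2) = log 2 + 2 * log (cosh w) := by
    rw [log_mul two_ne_zero (by positivity), log_pow]
    push_cast; ring
  have hl2 : log (2 * (2 * cosh w ^ 2)) = 2 * log 2 + 2 * log (cosh w) := by
    rw [log_mul two_ne_zero (by positivity), hl]; ring
  have hl3 : log (2 * cosh w) = log 2 + log (cosh w) := log_mul two_ne_zero hc.ne'
  unfold Sf
  rw [cosh_zero, sinh_zero, neg_zero, exp_zero, hh_tanh, hl3, hY, add_comm (cosh (2 * w)) 1, hY,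
    hl, hl2, sinh_two_mul, tanh_eq_sinh_div_cosh]
  field_simp
  ring

/-- (S): `δ ≤ σ φ(tanh w)` -/
lemma S_ineq (α β : ℝ) : (cosh (α + β) + cosh (α - β)) * dl (tanh α) (tanh β) ≤
    (1 + cosh (α - β)) * (log 2 - hh (tanh ((α - β) / 2))) := by
  rw [dl_formula]
  have h := Sf_le (one_le_cosh (α - β)) (α + β)
  have h2 := Sf_zero ((α - β) / 2)
  have e : 2 * ((α - β) / 2) = α - β := by ring
  rw [e] at h2
  linarith

lemma hh_ge' {t : ℝ} (h0 : -1 ≤ t) (h1 : t ≤ 1) : (1 - t ^ 2) * log 2 ≤ hh t := by
  rcases le_total 0 t with h | h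
  · exact hh_ge h h1
  · have := hh_ge (t := -t) (by linarith) (by linarith)
    rw [hh_neg] at this
    rwa [neg_sq] at this

lemma dl_nonneg {a b : ℝ} (hb : -1 < b) (hab : b < a) (ha : a < 1) : 0 ≤ dl a b := by
  unfold dl
  have h1 := hh_tangent (x := a) (m := (a + b) / 2) ⟨by linarith, ha⟩ ⟨by linarith, by linarith⟩
  have h2 := hh_tangent (x := b) (m := (a + b) / 2) ⟨hb, by linarith⟩ ⟨by linarith, by linarith⟩
  have : artanh ((a + b) / 2) * (a - (a + b) / 2) + artanh ((a + b) / 2) * (b - (a + b) / 2) = 0 := by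
    ring
  linarith

theorem n1Fact (hP : PFacts) : N1Fact := by
  intro a b c hb hab ha hc0 hc
  have hl2 : 0 < log 2 := log_pos one_lt_two
  set α := artanh a with hα
  set β := artanh b with hβ
  have ta : tanh α = a := tanh_artanh ⟨by linarith, ha⟩
  have tb : tanh β = b := tanh_artanh ⟨hb, by linarith⟩
  have hαβ : β < α := (artanh_lt_artanh_iff ⟨hb, by linarith⟩ ⟨by linarith, ha⟩).2 hab
  set w := (α - β) / 2 with hw
  have hwp : 0 < w := by linarith
  have hXp : 1 ≤ cosh (α + β) := one_le_cosh _
  have hYp : 1 ≤ cosh (α - β) := one_le_cosh _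
  set X := cosh (α + β) with hX
  set Y := cosh (α - β) with hY
  set σ := (1 + Y) / (X + Y) with hσ
  have hσp : 0 < σ := by positivity
  set M := (a + b) / 2 with hM
  set δ := dl a b with hδ
  have hSi : δ ≤ σ * (log 2 - hh (tanh w)) := by
    have := S_ineq α β
    rw [ta, tb, ← hX, ← hY, ← hδ] at this
    rw [hσ, div_mul_eq_mul_div, le_div_iff₀ (by positivity)]
    linarith
  have hx1 : tanh w < 1 := tanh_lt_one w
  have hx0 : 0 < tanh w := by
    rw [tanh_eq_sinh_div_cosh]
    exact div_pos (sinh_pos_iff.2 hwp) (cosh_pos w)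
  have hhx := hh_posS (by linarith : -1 < tanh w) hx1
  have hK : KK a b / 4 = σ * (w * tanh w) := by
    have h1 := half_sub_tanh α β
    rw [ta, tb, ← hX, ← hY] at h1
    have h2 : (1 + Y) * tanh w = sinh (α - β) := by
      have e : α - β = 2 * w := by rw [hw]; ring
      rw [hY, e, sinh_two_mul, cosh_two_mul, tanh_eq_sinh_div_cosh]
      have := cosh_sq_sub_sinh_sq w
      have hc := cosh_pos w
      field_simp
      linear_combination (-1 : ℝ) * this
    have h3 : σ * tanh w = (a - b) / 2 := by
      rw [h1, hσ, ← h2]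
      field_simp
    have h4 : KK a b = (a - b) * (α - β) := rfl
    have e : α - β = 2 * w := by rw [hw]; ring
    rw [h4, e]
    linear_combination (-w) * h3
  set κ := hh M / log 2 with hκ
  have hκl : κ * log 2 = hh M := by rw [hκ]; field_simp
  have hcκ : c ≤ κ := by rw [hκ, le_div_iff₀ hl2]; exact hc
  have hσκ : σ ≤ κ := by
    have hMeq : M = sinh (α + β) / (X + Y) := by
      have := half_add_tanh α β
      rwa [ta, tb, ← hX, ← hY] at this
    have h1 := hh_ge' (t := M) (by linarith) (by linarith)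
    rw [hκ, le_div_iff₀ hl2]
    refine le_trans ?_ h1
    refine mul_le_mul_of_nonneg_right ?_ hl2.le
    have hs : sinh (α + β) ^ 2 = X ^ 2 - 1 := by
      have := cosh_sq_sub_sinh_sq (α + β)
      rw [hX]; linarith
    have e : 1 - M ^ 2 = ((X + Y) ^ 2 - (X ^ 2 - 1)) / (X + Y) ^ 2 := by
      rw [hMeq, div_pow, hs]
      field_simp
    rw [e, hσ, div_le_div_iff₀ (by positivity) (by positivity)]
    have : 0 ≤ (X - 1) * (Y - 1) * (X + Y) := by
      have := mul_nonneg (by linarith : 0 ≤ X - 1) (by linarith : 0 ≤ Y - 1)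
      positivity
    nlinarith [this]
  have hδ0 : 0 ≤ δ := dl_nonneg hb hab ha
  have hhbar : (hh a + hh b) / 2 = κ * log 2 - δ := by
    rw [hκl, hδ]; unfold dl; rw [← hM]; ring
  have hhb0 : 0 < (hh a + hh b) / 2 := by
    have h1 := hh_posS (by linarith : -1 < a) ha
    have h2 := hh_posS hb (by linarith)
    linarith
  have hσδ : σ * hh (tanh w) ≤ σ * log 2 - δ := by nlinarith
  have hσh : 0 < σ * hh (tanh w) := by positivity
  -- monotonicity
  have s1 : PP c ((hh a + hh b) / 2) ≤ PP κ ((hh a + hh b) / 2) := hP.mono c κ _ hc0 hcκ hhb0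
  have s2 : PP κ ((hh a + hh b) / 2) ≤ PP σ (σ * log 2 - δ) := by
    rcases hσκ.lt_or_eq with h | h
    · have h1 := hP.add σ (κ - σ) (σ * log 2 - δ) ((κ - σ) * log 2) hσp.le (by linarith)
        (by linarith) (mul_pos (by linarith) hl2)
      have h2 := hP.zero (κ - σ) ((κ - σ) * log 2) (by linarith) (mul_pos (by linarith) hl2) le_rfl
      have e1 : σ + (κ - σ) = κ := by ring
      have e2 : σ * log 2 - δ + (κ - σ) * log 2 = (hh a + hh b) / 2 := by rw [hhbar]; ring
      rw [e1, e2, h2, add_zero] at h1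
      exact h1
    · rw [hhbar, h]
  have s3 : PP σ (σ * log 2 - δ) ≤ PP σ (σ * hh (tanh w)) :=
    hP.anti σ _ _ hσp.le hσh hσδ
  have s4 := hP.val w σ hwp hσp
  rw [eta] at s4
  rw [hK]
  nlinarith [s1, s2, s3, s4, hSi]

end Vale.Agent.P322
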