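import Mathlib
import Vale.Agent.P322.Pfun1

/-! The function `PP`. -/

namespace Vale.Agent.P322

open Real Set Filter Topology

lemma Aff_of_pos {u : ℝ} (hu : 0 < u) (c r : ℝ) : Aff u c r = c * pe u - be u * r := if_pos hu

lemma Aff_self {u c : ℝ} (hu : 0 < u) :
    Aff u c (c * eta u) = c * (u * tanh u - 2 * (log 2 - eta u)) := by
  rw [Aff_of_pos hu]
  unfold pe
  ring

lemma Aff_le_self {u c : ℝ} (hu : 0 < u) (hc : 0 ≤ c) (v : ℝ) :
    Aff v c (c * eta u) ≤ Aff u c (c * eta u) := by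
  by_cases hv : 0 < v
  · rw [Aff_of_pos hv, Aff_of_pos hu]
    have := mul_le_mul_of_nonneg_left (slope_le hu hv) hc
    nlinarith
  · rw [Aff_self hu]
    unfold Aff
    rw [if_neg hv]
    exact mul_nonneg hc (val_nonneg hu)

lemma Aff_nonpos {c r : ℝ} (hc : 0 ≤ c) (h : c * log 2 ≤ r) (v : ℝ) : Aff v c r ≤ 0 := by
  by_cases hv : 0 < v
  · rw [Aff_of_pos hv]
    have h1 := mul_le_mul_of_nonneg_left (pe_le hv) hc
    have h2 := mul_le_mul_of_nonneg_left h (be_nonneg hv)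
    nlinarith
  · unfold Aff; rw [if_neg hv]

lemma PP_zero {c r : ℝ} (hc : 0 ≤ c) (h : c * log 2 ≤ r) : PP c r = 0 := by
  unfold PP
  refine le_antisymm (ciSup_le fun v => Aff_nonpos hc h v) ?_
  have hb : BddAbove (range fun u => Aff u c r) := ⟨0, by
    rintro _ ⟨v, rfl⟩
    exact Aff_nonpos hc h v⟩
  have := le_ciSup hb (0:ℝ)
  simpa [Aff] using this

lemma PP_self {u c : ℝ} (hu : 0 < u) (hc : 0 ≤ c) :
    PP c (c * eta u) = c * (u * tanh u - 2 * (log 2 - eta u)) := by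
  rw [← Aff_self hu]
  unfold PP
  refine le_antisymm (ciSup_le fun v => Aff_le_self hu hc v) ?_
  exact le_ciSup (f := fun v => Aff v c (c * eta u)) ⟨_, by
    rintro _ ⟨v, rfl⟩
    exact Aff_le_self hu hc v⟩ u

lemma PP_cases {c r : ℝ} (hc : 0 ≤ c) (hr : 0 < r) :
    (c * log 2 ≤ r ∧ PP c r = 0) ∨
      ∃ u, 0 < u ∧ r = c * eta u ∧ 0 < c ∧ PP c r = c * pe u - be u * r := by
  rcases le_or_gt (c * log 2) r with h | h
  · exact Or.inl ⟨h, PP_zero hc h⟩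
  · right
    have hl : 0 < log 2 := log_pos one_lt_two
    have hc' : 0 < c := by
      rcases hc.lt_or_eq with h' | h'
      · exact h'
      · rw [← h', zero_mul] at h; linarith
    obtain ⟨u, hu, hx⟩ := exists_eta (x := r / c) (div_pos hr hc') (by rwa [div_lt_iff₀ hc', mul_comm])
    have e : r = c * eta u := by rw [hx]; field_simp
    refine ⟨u, hu, e, hc', ?_⟩
    rw [e, PP_self hu hc, ← Aff_self hu, Aff_of_pos hu]

lemma bddAbove_Aff {c r : ℝ} (hc : 0 ≤ c) (hr : 0 < r) : BddAbove (range fun u => Aff u c r) := by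
  rcases PP_cases hc hr with h | ⟨u, hu, h, _⟩
  · exact ⟨0, by
      rintro _ ⟨v, rfl⟩
      exact Aff_nonpos hc h.1 v⟩
  · rw [h]
    exact ⟨_, by
      rintro _ ⟨v, rfl⟩
      exact Aff_le_self hu hc v⟩

lemma Aff_le_PP {c r : ℝ} (hc : 0 ≤ c) (hr : 0 < r) (u : ℝ) : Aff u c r ≤ PP c r :=
  le_ciSup (f := fun v => Aff v c r) (bddAbove_Aff hc hr) u

lemma le_PP {c r u : ℝ} (hc : 0 ≤ c) (hr : 0 < r) (hu : 0 < u) : c * pe u - be u * r ≤ PP c r := by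
  rw [← Aff_of_pos hu]
  exact Aff_le_PP hc hr u

lemma PP_nonneg {c r : ℝ} (hc : 0 ≤ c) (hr : 0 < r) : 0 ≤ PP c r := by
  have := Aff_le_PP hc hr 0
  simpa [Aff] using this

lemma PP_add {c0 c1 r0 r1 : ℝ} (h0 : 0 ≤ c0) (h1 : 0 ≤ c1) (hr0 : 0 < r0) (hr1 : 0 < r1) :
    PP (c0 + c1) (r0 + r1) ≤ PP c0 r0 + PP c1 r1 := by
  rcases PP_cases (add_nonneg h0 h1) (add_pos hr0 hr1) with ⟨_, h⟩ | ⟨u, hu, _, _, h⟩
  · rw [h]; exact add_nonneg (PP_nonneg h0 hr0) (PP_nonneg h1 hr1)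
  · rw [h]
    have a0 := le_PP h0 hr0 hu
    have a1 := le_PP h1 hr1 hu
    linarith

/-- subadditivity when the second slope is frozen; `r1 = 0` allowed -/
lemma PP_add_frozen {c0 c1 r0 r1 : ℝ} (h0 : 0 ≤ c0) (h1 : 0 ≤ c1) (hr0 : 0 < r0)
    (hr1 : c1 * log 2 ≤ r1) : PP (c0 + c1) (r0 + r1) ≤ PP c0 r0 := by
  have hl : 0 < log 2 := log_pos one_lt_two
  have hr1' : 0 ≤ r1 := (mul_nonneg h1 hl.le).trans hr1
  rcases PP_cases (add_nonneg h0 h1) (by linarith : 0 < r0 + r1) with ⟨_, h⟩ | ⟨u, hu, _, _, h⟩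
  · rw [h]; exact PP_nonneg h0 hr0
  · rw [h]
    have a0 := le_PP h0 hr0 hu
    have a1 := Aff_nonpos h1 hr1 u
    rw [Aff_of_pos hu] at a1
    linarith

lemma PP_hom {t c r : ℝ} (ht : 0 < t) (hc : 0 ≤ c) (hr : 0 < r) :
    PP (t * c) (t * r) = t * PP c r := by
  rcases PP_cases hc hr with ⟨h, h'⟩ | ⟨u, hu, e, _, h'⟩
  · rw [h', mul_zero]
    refine PP_zero (mul_nonneg ht.le hc) ?_
    have := mul_le_mul_of_nonneg_left h ht.le
    linarith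
  · rw [e, ← mul_assoc, PP_self hu (mul_nonneg ht.le hc), PP_self hu hc]
    ring

lemma PP_mid {c0 c1 r0 r1 : ℝ} (h0 : 0 ≤ c0) (h1 : 0 ≤ c1) (hr0 : 0 < r0) (hr1 : 0 < r1) :
    PP ((c0 + c1) / 2) ((r0 + r1) / 2) ≤ (PP c0 r0 + PP c1 r1) / 2 := by
  have h := PP_hom (t := 1 / 2) (by norm_num) (add_nonneg h0 h1) (add_pos hr0 hr1)
  have e1 : (c0 + c1) / 2 = 1 / 2 * (c0 + c1) := by ring
  have e2 : (r0 + r1) / 2 = 1 / 2 * (r0 + r1) := by ring
  rw [e1, e2, h]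
  have := PP_add h0 h1 hr0 hr1
  linarith

lemma PP_mono {c c' r : ℝ} (h0 : 0 ≤ c) (h : c ≤ c') (hr : 0 < r) : PP c r ≤ PP c' r := by
  rcases PP_cases h0 hr with ⟨_, h'⟩ | ⟨u, hu, _, _, h'⟩
  · rw [h']; exact PP_nonneg (h0.trans h) hr
  · rw [h']
    have a0 := le_PP (h0.trans h) hr hu
    have a1 := mul_le_mul_of_nonneg_right h (pe_nonneg hu)
    linarith

lemma PP_anti {c r r' : ℝ} (h0 : 0 ≤ c) (hr : 0 < r) (h : r ≤ r') : PP c r' ≤ PP c r := by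
  rcases PP_cases h0 (hr.trans_le h) with ⟨_, h'⟩ | ⟨u, hu, _, _, h'⟩
  · rw [h']; exact PP_nonneg h0 hr
  · rw [h']
    have a0 := le_PP h0 hr hu
    have a1 := mul_le_mul_of_nonneg_left h (be_nonneg hu)
    linarith

lemma GG_eta {u : ℝ} (hu : 0 < u) : GG (eta u) = pe u := by
  have h : ∃ v, 0 < v ∧ eta v = eta u := ⟨u, hu, rfl⟩
  unfold GG
  rw [dif_pos h]
  have hs := Classical.choose_spec h
  rw [eta_strictAnti.injOn (mem_Ici.2 hs.1.le) (mem_Ici.2 hu.le) hs.2]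

lemma GG_zero {x : ℝ} (hx : log 2 ≤ x) : GG x = 0 := by
  unfold GG
  rw [dif_neg]
  rintro ⟨u, hu, h⟩
  have := eta_lt hu
  linarith

/-- either `x = eta u` or `x ≥ log 2` -/
lemma GG_cases {x : ℝ} (hx : 0 < x) :
    (log 2 ≤ x ∧ GG x = 0) ∨ ∃ u, 0 < u ∧ x = eta u ∧ GG x = pe u := by
  rcases le_or_gt (log 2) x with h | h
  · exact Or.inl ⟨h, GG_zero h⟩
  · obtain ⟨u, hu, hx⟩ := exists_eta hx h
    exact Or.inr ⟨u, hu, hx.symm, by rw [← hx, GG_eta hu]⟩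

lemma GG_nonneg {x : ℝ} (hx : 0 < x) : 0 ≤ GG x := by
  rcases GG_cases hx with ⟨_, h⟩ | ⟨u, hu, _, h⟩
  · rw [h]
  · rw [h]; exact pe_nonneg hu

lemma pe_mono : MonotoneOn pe (Ioi 0) := by
  refine monotoneOn_of_hasDerivAt (convex_Ioi 0) (fun z hz => hasDerivAt_pe hz) ?_
  intro z hz
  rw [interior_Ioi] at hz
  exact mul_nonneg (eta_pos z).le (bd_pos hz).le

lemma GG_anti {x y : ℝ} (hx : 0 < x) (h : x ≤ y) : GG y ≤ GG x := by
  rcases GG_cases (hx.trans_le h) with ⟨_, h'⟩ | ⟨v, hv, ey, h'⟩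
  · rw [h']; exact GG_nonneg hx
  · rcases GG_cases hx with ⟨h1, _⟩ | ⟨u, hu, ex, h''⟩
    · have := eta_lt hv
      linarith
    · rw [h', h'']
      refine pe_mono hv hu ?_
      rw [ex, ey] at h
      exact (eta_strictAnti.le_iff_ge (mem_Ici.2 hu.le) (mem_Ici.2 hv.le)).1 h

lemma PP_subgrad {c c' r : ℝ} (hc : 0 < c) (hc' : 0 ≤ c') (hr : 0 < r) :
    PP c r + (c' - c) * GG (r / c) ≤ PP c' r := by
  rcases PP_cases hc.le hr with ⟨h, h'⟩ | ⟨u, hu, e, _, h'⟩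
  · have : GG (r / c) = 0 := GG_zero (by rw [le_div_iff₀ hc, mul_comm]; exact h)
    rw [h', this, mul_zero, add_zero]
    exact PP_nonneg hc' hr
  · have e' : r / c = eta u := by rw [e]; field_simp
    rw [e', GG_eta hu, h']
    have := le_PP hc' hr hu
    linarith

end Vale.Agent.P322
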