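import Mathlib
import Vale.Agent.P322.Pfun2
import Vale.Agent.P322.KIneq

/-! `PFacts` and `GFacts`. -/

namespace Vale.Agent.P322

open Real Set Filter Topology

lemma pe_log_anti : AntitoneOn (fun u => pe u + 7 / 10 * log (eta u)) (Ioi 0) := by
  refine antitoneOn_of_hasDerivAt (F' := fun u => eta u * bd u +
    7 / 10 * (-(u / cosh u ^ 2) / eta u)) (convex_Ioi 0) ?_ ?_
  · intro z hz
    exact (hasDerivAt_pe hz).add (((hasDerivAt_eta z).log (eta_pos z).ne').const_mul (7 / 10))
  · intro z hz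
    rw [interior_Ioi] at hz
    have hz0 : (0:ℝ) < z := hz
    have hK := K_ineq hz0
    have he := eta_pos z
    have hc : 0 < cosh z ^ 2 := pow_pos (cosh_pos z) 2
    have : eta z * bd z + 7 / 10 * (-(z / cosh z ^ 2) / eta z) =
        (eta z ^ 2 * (bd z * cosh z ^ 2) - 7 / 10 * z) / (eta z * cosh z ^ 2) := by
      field_simp
      ring
    rw [this]
    exact div_nonpos_of_nonpos_of_nonneg (by linarith) (by positivity)

lemma pe_le_log {u : ℝ} (hu : 0 < u) : pe u ≤ 7 / 10 * log (log 2 / eta u) := by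
  have hl : 0 < log 2 := log_pos one_lt_two
  have h1 : Tendsto (fun u => pe u + 7 / 10 * log (eta u)) (𝓝[>] 0)
      (𝓝 (0 + 7 / 10 * log (log 2))) :=
    tendsto_pe.add ((tendsto_eta.log hl.ne').const_mul (7 / 10))
  have h2 := ge_of_tendsto h1 (b := pe u + 7 / 10 * log (eta u)) (by
    filter_upwards [Ioo_mem_nhdsGT hu] with v hv
    exact pe_log_anti hv.1 hu hv.2.le)
  rw [log_div hl.ne' (eta_pos u).ne']
  linarith

theorem GG_log_bound {x y : ℝ} (hx : 0 < x) (h : x ≤ y) :
    GG x - GG y ≤ 7 / 10 * log (y / x) := by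
  have hy := hx.trans_le h
  have hlog : 0 ≤ log (y / x) := log_nonneg (by rwa [one_le_div hx])
  rcases GG_cases hx with ⟨_, h1⟩ | ⟨u, hu, ex, h1⟩
  · have := GG_nonneg hy
    rw [h1]; linarith
  · rcases GG_cases hy with ⟨h2, h3⟩ | ⟨v, hv, ey, h3⟩
    · rw [h1, h3, ex]
      have := pe_le_log hu
      have h4 : log (log 2 / eta u) ≤ log (y / eta u) := by
        refine log_le_log (div_pos (log_pos one_lt_two) (eta_pos u)) ?_
        exact div_le_div_of_nonneg_right h2 (eta_pos u).le
      linarith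
    · rw [h1, h3, ex, ey, log_div (eta_pos v).ne' (eta_pos u).ne']
      have hvu : v ≤ u := by
        rw [ex, ey] at h
        exact (eta_strictAnti.le_iff_ge (mem_Ici.2 hu.le) (mem_Ici.2 hv.le)).1 h
      have := pe_log_anti hv hu hvu
      simp only at this
      linarith

lemma abs_GG_sub {x y : ℝ} (hx : 0 < x) (hy : 0 < y) :
    |GG x - GG y| ≤ 7 / 10 * |log (x / y)| := by
  rcases le_total x y with h | h
  · rw [abs_of_nonneg (sub_nonneg.2 (GG_anti hx h)), abs_of_nonpos (log_nonpos (by positivity)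
      (by rwa [div_le_one hy])), ← log_inv, inv_div]
    exact GG_log_bound hx h
  · rw [abs_of_nonpos (sub_nonpos.2 (GG_anti hy h)), abs_of_nonneg (log_nonneg
      (by rwa [one_le_div hy]))]
    have := GG_log_bound hy h
    linarith

theorem PP_hasDerivAt {c r : ℝ} (hc : 0 < c) (hr : 0 < r) :
    HasDerivAt (fun c => PP c r) (GG (r / c)) c := by
  rw [hasDerivAt_iff_tendsto_slope, tendsto_iff_norm_sub_tendsto_zero]
  have hb : Tendsto (fun c' : ℝ => 7 / 10 * |log (r / c' / (r / c))|) (𝓝[≠] c) (𝓝 0) := by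
    have h1 : Tendsto (fun c' : ℝ => r / c' / (r / c)) (𝓝 c) (𝓝 (r / c / (r / c))) :=
      (tendsto_const_nhds.div tendsto_id hc.ne').div_const _
    rw [div_self (div_pos hr hc).ne'] at h1
    have h2 := ((h1.log one_ne_zero).abs).const_mul (7 / 10 : ℝ)
    rw [log_one, abs_zero, mul_zero] at h2
    exact h2.mono_left nhdsWithin_le_nhds
  refine squeeze_zero' (Eventually.of_forall fun _ => norm_nonneg _) ?_ hb
  have hpos : ∀ᶠ c' in 𝓝[≠] c, 0 < c' := nhdsWithin_le_nhds (lt_mem_nhds hc)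
  filter_upwards [hpos, self_mem_nhdsWithin] with c' hc' hne
  have hne' : c' ≠ c := hne
  rw [norm_eq_abs]
  refine le_trans ?_ (abs_GG_sub (div_pos hr hc') (div_pos hr hc))
  have s1 := PP_subgrad hc hc'.le hr
  have s2 := PP_subgrad hc' hc.le hr
  rw [slope_def_field]
  rcases lt_or_gt_of_ne hne' with h | h
  · have hd : c' - c < 0 := by linarith
    have hd' : 0 < c - c' := by linarith
    have e : (PP c' r - PP c r) / (c' - c) = (PP c r - PP c' r) / (c - c') := by
      rw [← neg_div_neg_eq]; ring_nf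
    rw [e]
    have a1 : (PP c r - PP c' r) / (c - c') ≤ GG (r / c) := by
      rw [div_le_iff₀ hd']; linarith
    have a2 : GG (r / c') ≤ (PP c r - PP c' r) / (c - c') := by
      rw [le_div_iff₀ hd']; linarith
    rw [abs_of_nonpos (by linarith), abs_of_nonpos (by linarith)]
    linarith
  · have hd : 0 < c' - c := by linarith
    have a1 : GG (r / c) ≤ (PP c' r - PP c r) / (c' - c) := by
      rw [le_div_iff₀ hd]; linarith
    have a2 : (PP c' r - PP c r) / (c' - c) ≤ GG (r / c') := by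
      rw [div_le_iff₀ hd]; linarith
    rw [abs_of_nonneg (by linarith), abs_of_nonneg (by linarith)]
    linarith

theorem pFacts : PFacts where
  nonneg _ _ hc hr := PP_nonneg hc hr
  mid _ _ _ _ h0 h1 hr0 hr1 := PP_mid h0 h1 hr0 hr1
  add _ _ _ _ h0 h1 hr0 hr1 := PP_add h0 h1 hr0 hr1
  hom _ _ _ ht hc hr := PP_hom ht hc hr
  zero _ _ hc _ h := PP_zero hc h
  val _ _ hu hc := PP_self hu hc.le
  mono _ _ _ h0 h hr := PP_mono h0 h hr
  anti _ _ _ h0 hr h := PP_anti h0 hr h
  deriv _ _ hc hr := PP_hasDerivAt hc hr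

theorem gFacts : GFacts where
  nonneg _ hx := GG_nonneg hx
  anti _ _ hx h := GG_anti hx h
  log_bound _ _ hx h := GG_log_bound hx h

end Vale.Agent.P322
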