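import Mathlib
import Vale.Agent.P322.N1
import Vale.Agent.P322.Pfun
import Vale.Agent.P322.FFull
import Vale.Agent.P322.CFin
import Vale.Agent.P322.LawAvg

namespace Vale.Agent.P322

theorem courtadeKumar_of' (hC : CFacts) (h3 : L3Fact) : CourtadeKumar :=
  courtadeKumar_of pFacts gFacts hC l2Fact h3 (n1Fact pFacts) (fFact_of pFacts)

theorem courtadeKumar : CourtadeKumar := courtadeKumar_of' cFacts l3Fact

end Vale.Agent.P322
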