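import Mathlib
import Vale.Agent.P322.Main

namespace Vale.Agent.P322.RV

open MeasureTheory ProbabilityTheory InformationTheory Real

lemma klDiv_fintype {α : Type*} [Fintype α] [MeasurableSpace α] [MeasurableSingletonClass α]
    (μ ν : Measure α) [IsProbabilityMeasure μ] [IsProbabilityMeasure ν]
    (h : ∀ x, ν.real {x} = 0 → μ.real {x} = 0) :
    klDiv μ ν = ENNReal.ofReal (∑ x, μ.real {x} * log (μ.real {x} / ν.real {x})) := by
  have h' : ∀ x, ν {x} = 0 → μ {x} = 0 := by
    intro x hx
    have := h x (by simp [Measure.real, hx])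
    rwa [measureReal_eq_zero_iff] at this
  have hac : μ ≪ ν := by
    refine Measure.AbsolutelyContinuous.mk fun s _ hs => ?_
    rw [← Set.biUnion_of_singleton s] at hs ⊢
    rw [measure_biUnion_null_iff (Set.to_countable s)] at hs ⊢
    exact fun x hx => h' x (hs x hx)
  have hint : Integrable (llr μ ν) μ := .of_finite
  rw [klDiv_of_ac_of_integrable hac hint, integral_fintype hint]
  congr 1
  have e : ν.real Set.univ = 1 := by simp
  have e' : μ.real Set.univ = 1 := by simp
  rw [e, e', add_sub_cancel_right]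
  refine Finset.sum_congr rfl fun x _ => ?_
  rw [smul_eq_mul]
  by_cases hx : ν {x} = 0
  · have : μ.real {x} = 0 := by simp [Measure.real, h' x hx]
    rw [this]
    simp
  · congr 1
    rw [llr_def]
    have h1 := Measure.setLIntegral_rnDeriv hac {x}
    rw [lintegral_singleton] at h1
    have h2 : (μ.rnDeriv ν x).toReal * ν.real {x} = μ.real {x} := by
      rw [Measure.real, Measure.real, ← h1, ENNReal.toReal_mul]
    have h3 : ν.real {x} ≠ 0 := by
      rw [Measure.real, ENNReal.toReal_ne_zero]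
      exact ⟨hx, measure_ne_top _ _⟩
    rw [← h2, mul_div_cancel_right₀ _ h3]

local instance : MeasurableSingletonClass ℤˣ where
  measurableSet_singleton u := by
    refine ⟨{(u : ℤ)}, MeasurableSet.singleton _, ?_⟩
    ext v
    simp [Units.ext_iff]

variable {Ω : Type*} [MeasurableSpace Ω] {P : Measure Ω} [IsProbabilityMeasure P] {n : ℕ}
  {ε : ℝ} {X Z : Fin n → Ω → ℤˣ}

lemma prob_one {W : Ω → ℤˣ} (hW : Measurable W) {p : ℝ} (hp : 0 ≤ p)
    (h : P {ω | W ω = -1} = ENNReal.ofReal p) (u : ℤˣ) :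
    P.real (W ⁻¹' {u}) = if u = -1 then p else 1 - p := by
  have h1 : P.real (W ⁻¹' {-1}) = p := by
    have : W ⁻¹' {-1} = {ω | W ω = -1} := rfl
    rw [this, Measure.real, h, ENNReal.toReal_ofReal hp]
  rcases Int.units_eq_one_or u with rfl | rfl
  · have h2 : W ⁻¹' {1} = (W ⁻¹' {-1})ᶜ := by
      ext ω
      rcases Int.units_eq_one_or (W ω) with h | h <;> simp [h]
    rw [h2, probReal_compl_eq_one_sub (hW (measurableSet_singleton _)), h1]
    have : (1 : ℤˣ) ≠ -1 := by decide
    simp [this]
  · simp [h1]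

lemma prob_joint (h0 : 0 ≤ ε) (hX : ∀ i, Measurable (X i)) (hZ : ∀ i, Measurable (Z i))
    (hind : iIndepFun (Sum.elim X Z) P)
    (hXu : ∀ i, P {ω | X i ω = -1} = ENNReal.ofReal (1 / 2))
    (hZe : ∀ i, P {ω | Z i ω = -1} = ENNReal.ofReal ε) (x z : Cube n) :
    P.real ((fun ω => ((fun i => X i ω, fun i => Z i ω) : Cube n × Cube n)) ⁻¹' {(x, z)}) =
      (1 / 2 : ℝ) ^ n * ∏ i, (if z i = -1 then ε else 1 - ε) := by
  have h := hind.measure_inter_preimage_eq_mul Finset.univ
    (sets := Sum.elim (fun i => {x i}) (fun i => {z i})) (by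
      intro i _
      exact Set.Finite.measurableSet (Set.toFinite _))
  have e1 : (fun ω => ((fun i => X i ω, fun i => Z i ω) : Cube n × Cube n)) ⁻¹' {(x, z)} =
      ⋂ i ∈ Finset.univ, (Sum.elim X Z i) ⁻¹' (Sum.elim (fun i => {x i}) (fun i => {z i}) i :
        Set ℤˣ) := by
    ext ω
    simp [Prod.ext_iff, funext_iff]
  rw [Measure.real, e1, h, ENNReal.toReal_prod, Fintype.prod_sum_type]
  simp only [Sum.elim_inl, Sum.elim_inr]
  have e2 : ∀ i, (P (X i ⁻¹' {x i})).toReal = 1 / 2 := by
    intro i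
    have := prob_one (hX i) (by norm_num) (hXu i) (x i)
    rw [Measure.real] at this
    rw [this]
    split_ifs <;> norm_num
  have e3 : ∀ i, (P (Z i ⁻¹' {z i})).toReal = if z i = -1 then ε else 1 - ε := fun i =>
    prob_one (hZ i) h0 (hZe i) (z i)
  simp only [e2, e3, Finset.prod_const, Finset.card_univ, Fintype.card_fin]

lemma law_eq (h0 : 0 ≤ ε) (hX : ∀ i, Measurable (X i)) (hZ : ∀ i, Measurable (Z i))
    (hind : iIndepFun (Sum.elim X Z) P)
    (hXu : ∀ i, P {ω | X i ω = -1} = ENNReal.ofReal (1 / 2))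
    (hZe : ∀ i, P {ω | Z i ω = -1} = ENNReal.ofReal ε) (f : Cube n → ℤˣ) (b : ℤˣ) (y : Cube n) :
    P.real ((fun ω => ((f fun i => X i ω, fun i => X i ω * Z i ω) : ℤˣ × Cube n)) ⁻¹'
      {(b, y)}) = jointLaw ε f b y := by
  have hm : Measurable (fun ω => ((fun i => X i ω, fun i => Z i ω) : Cube n × Cube n)) :=
    (measurable_pi_lambda _ hX).prodMk (measurable_pi_lambda _ hZ)
  have h := sum_measureReal_preimage_singleton (μ := P)
    (Finset.univ.filter fun p : Cube n × Cube n => f p.1 = b ∧ p.1 * p.2 = y)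
    (f := fun ω => ((fun i => X i ω, fun i => Z i ω) : Cube n × Cube n))
    (fun p _ => hm (measurableSet_singleton p))
  have e : (fun ω => ((f fun i => X i ω, fun i => X i ω * Z i ω) : ℤˣ × Cube n)) ⁻¹' {(b, y)} =
      (fun ω => ((fun i => X i ω, fun i => Z i ω) : Cube n × Cube n)) ⁻¹'
        ↑(Finset.univ.filter fun p : Cube n × Cube n => f p.1 = b ∧ p.1 * p.2 = y) := by
    ext ω
    simp [Prod.ext_iff, funext_iff]
  rw [e, ← h, Finset.sum_filter, Fintype.sum_prod_type]
  unfold jointLaw
  refine Finset.sum_congr rfl fun x _ => Finset.sum_congr rfl fun z _ => ?_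
  rw [prob_joint h0 hX hZ hind hXu hZe]

theorem main (h0 : 0 ≤ ε) (h1 : ε ≤ 1 / 2) (hn : 1 ≤ n)
    (hX : ∀ i, Measurable (X i)) (hZ : ∀ i, Measurable (Z i))
    (hind : iIndepFun (Sum.elim X Z) P)
    (hXu : ∀ i, P {ω | X i ω = -1} = ENNReal.ofReal (1 / 2))
    (hZe : ∀ i, P {ω | Z i ω = -1} = ENNReal.ofReal ε) (f : Cube n → ℤˣ) :
    klDiv (P.map fun ω => (f fun i => X i ω, fun i => X i ω * Z i ω))
        ((P.map fun ω => f fun i => X i ω).prod (P.map fun ω i => X i ω * Z i ω)) /
      ENNReal.ofReal (log 2) ≤ ENNReal.ofReal (1 - binEntropy ε / log 2) := by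
  have hmX : Measurable (fun ω => ((fun i => X i ω) : Cube n)) := measurable_pi_lambda _ hX
  have hmZ : Measurable (fun ω => ((fun i => Z i ω) : Cube n)) := measurable_pi_lambda _ hZ
  have hmXZ : Measurable (fun ω => ((fun i => X i ω, fun i => Z i ω) : Cube n × Cube n)) :=
    hmX.prodMk hmZ
  have hf : Measurable f := measurable_of_finite f
  have hmF : Measurable (fun ω => f fun i => X i ω) := hf.comp hmX
  have hmul : Measurable (fun p : Cube n × Cube n => p.1 * p.2) := measurable_of_finite _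
  have hmY : Measurable (fun ω => ((fun i => X i ω * Z i ω) : Cube n)) := hmul.comp hmXZ
  have hmJ : Measurable (fun ω => ((f fun i => X i ω, fun i => X i ω * Z i ω) : ℤˣ × Cube n)) :=
    hmF.prodMk hmY
  have : IsProbabilityMeasure (P.map fun ω => f fun i => X i ω) :=
    Measure.isProbabilityMeasure_map hmF.aemeasurable
  have : IsProbabilityMeasure (P.map fun ω => ((fun i => X i ω * Z i ω) : Cube n)) :=
    Measure.isProbabilityMeasure_map hmY.aemeasurable
  have : IsProbabilityMeasure
      (P.map fun ω => ((f fun i => X i ω, fun i => X i ω * Z i ω) : ℤˣ × Cube n)) :=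
    Measure.isProbabilityMeasure_map hmJ.aemeasurable
  have hJ : ∀ b y, (P.map fun ω =>
      ((f fun i => X i ω, fun i => X i ω * Z i ω) : ℤˣ × Cube n)).real {(b, y)} =
      jointLaw ε f b y := by
    intro b y
    rw [map_measureReal_apply hmJ (measurableSet_singleton _)]
    exact law_eq h0 hX hZ hind hXu hZe f b y
  have hF : ∀ b, (P.map fun ω => f fun i => X i ω).real {b} = ∑ y, jointLaw ε f b y := by
    intro b
    rw [map_measureReal_apply hmF (measurableSet_singleton _)]
    have h := sum_measureReal_preimage_singleton (μ := P)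
      (Finset.univ.image fun y : Cube n => (b, y))
      (f := fun ω => ((f fun i => X i ω, fun i => X i ω * Z i ω) : ℤˣ × Cube n))
      (fun p _ => hmJ (measurableSet_singleton p))
    have e : (fun ω => f fun i => X i ω) ⁻¹' {b} =
        (fun ω => ((f fun i => X i ω, fun i => X i ω * Z i ω) : ℤˣ × Cube n)) ⁻¹'
          ↑(Finset.univ.image fun y : Cube n => (b, y)) := by
      ext ω
      simp only [Set.mem_preimage, Set.mem_singleton_iff, Finset.coe_image, Finset.coe_univ,
        Set.image_univ, Set.mem_range, Prod.mk.injEq]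
      exact ⟨fun h => ⟨_, h.symm, rfl⟩, fun ⟨_, h, _⟩ => h.symm⟩
    rw [e, ← h, Finset.sum_image (by intro y _ y' _ hy; simpa using hy)]
    exact Finset.sum_congr rfl fun y _ => law_eq h0 hX hZ hind hXu hZe f b y
  have hY : ∀ y, (P.map fun ω => ((fun i => X i ω * Z i ω) : Cube n)).real {y} =
      ∑ b, jointLaw ε f b y := by
    intro y
    rw [map_measureReal_apply hmY (measurableSet_singleton _)]
    have h := sum_measureReal_preimage_singleton (μ := P)
      (Finset.univ.image fun b : ℤˣ => (b, y))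
      (f := fun ω => ((f fun i => X i ω, fun i => X i ω * Z i ω) : ℤˣ × Cube n))
      (fun p _ => hmJ (measurableSet_singleton p))
    have e : (fun ω => ((fun i => X i ω * Z i ω) : Cube n)) ⁻¹' {y} =
        (fun ω => ((f fun i => X i ω, fun i => X i ω * Z i ω) : ℤˣ × Cube n)) ⁻¹'
          ↑(Finset.univ.image fun b : ℤˣ => (b, y)) := by
      ext ω
      simp only [Set.mem_preimage, Set.mem_singleton_iff, Finset.coe_image, Finset.coe_univ,
        Set.image_univ, Set.mem_range, Prod.mk.injEq]
      exact ⟨fun h => ⟨_, rfl, h.symm⟩, fun ⟨_, _, h⟩ => h.symm⟩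
    rw [e, ← h, Finset.sum_image (by intro y _ y' _ hy; simpa using hy)]
    exact Finset.sum_congr rfl fun b _ => law_eq h0 hX hZ hind hXu hZe f b y
  have hJ0 : ∀ b y, 0 ≤ jointLaw ε f b y := fun b y => by
    rw [← hJ b y]; exact measureReal_nonneg
  have hP : ∀ b y, ((P.map fun ω => f fun i => X i ω).prod
      (P.map fun ω => ((fun i => X i ω * Z i ω) : Cube n))).real {(b, y)} =
      (∑ y', jointLaw ε f b y') * ∑ b', jointLaw ε f b' y := by
    intro b y
    rw [← Set.singleton_prod_singleton, measureReal_prod_prod, hF, hY]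
  have hk := klDiv_fintype
    (P.map fun ω => ((f fun i => X i ω, fun i => X i ω * Z i ω) : ℤˣ × Cube n))
    ((P.map fun ω => f fun i => X i ω).prod
      (P.map fun ω => ((fun i => X i ω * Z i ω) : Cube n))) (by
    rintro ⟨b, y⟩ h
    rw [hP] at h
    rw [hJ]
    rcases mul_eq_zero.1 h with h | h
    · exact (Finset.sum_eq_zero_iff_of_nonneg fun y _ => hJ0 b y).1 h y (Finset.mem_univ _)
    · exact (Finset.sum_eq_zero_iff_of_nonneg fun b _ => hJ0 b y).1 h b (Finset.mem_univ _))
  have hl : 0 < log 2 := log_pos one_lt_two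
  rw [hk, ← ENNReal.ofReal_div_of_pos hl]
  refine ENNReal.ofReal_le_ofReal ?_
  have h := courtadeKumar n hn f ε h0 h1
  have e1 : mutualInfo (jointLaw ε f) = (∑ x : ℤˣ × Cube n, (P.map fun ω =>
      ((f fun i => X i ω, fun i => X i ω * Z i ω) : ℤˣ × Cube n)).real {x} *
      log ((P.map fun ω =>
      ((f fun i => X i ω, fun i => X i ω * Z i ω) : ℤˣ × Cube n)).real {x} /
      ((P.map fun ω => f fun i => X i ω).prod
      (P.map fun ω => ((fun i => X i ω * Z i ω) : Cube n))).real {x})) / log 2 := by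
    rw [Fintype.sum_prod_type, Finset.sum_div]
    unfold mutualInfo
    refine Finset.sum_congr rfl fun b _ => ?_
    rw [Finset.sum_div]
    refine Finset.sum_congr rfl fun y _ => ?_
    rw [hJ, hP, logb]
    ring
  have e2 : h2 ε = binEntropy ε / log 2 := by
    unfold h2 binEntropy
    rw [logb, logb, log_inv, log_inv]
    ring
  rw [e1, e2] at h
  exact h

end Vale.Agent.P322.RV
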